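import Vale.Agent.P014T.Dr.Cy
import Vale.Agent.P004R.Twr0
import Vale.Agent.P004K.Tr
import Vale.Agent.P022K.CH.Mink

/-! # P014Z, block LK: the cyclotomic character, values of a family at conjugate Heegner points -/

set_option autoImplicit false
set_option linter.all false

open NumberField UpperHalfPlane CongruenceSubgroup
open scoped MatrixGroups Classical

noncomputable section

namespace Vale.Agent.P014Z.Lk.Cy

open Vale.Agent.P022 (Qb GQ GK)
open P027H P027M.M P004K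
open Vale.Agent.P027M.S (Inert)
open Vale.Agent.P022D.W (dec)
open Vale.Agent.P022E.GW (Ov Fb)
open Vale.Agent.P022K.G2 (Tv)
open P014T.Dr (Hm inert_Hm Hm_open root_cong)

theorem alg_ze (f : ℕ) [NeZero f] : IsAlgebraic ℚ (ze f 1) :=
  IsAlgebraic.of_pow (NeZero.pos f) (by
    rw [(Pre.ze_prim (NeZero.pos f)).pow_eq_one]; exact isAlgebraic_one)

section cyc

variable (f : ℕ) [NeZero f]

/-- the root of unity -/
def zq : Qb := (ex_io (alg_ze f)).choose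

theorem io_zq : io (zq f) = ze f 1 := (ex_io (alg_ze f)).choose_spec

theorem zq_prim : IsPrimitiveRoot (zq f) f :=
  IsPrimitiveRoot.of_map_of_injective (f := io) (by rw [io_zq]; exact Pre.ze_prim (NeZero.pos f))
    P004K.io_inj

/-- the cyclotomic character modulo `f` -/
def cy : GQ →* (ZMod f)ˣ := (zq_prim f).autToPow ℚ

variable {f} {g : GQ}

theorem cy_zq (g : GQ) : g (zq f) = zq f ^ (cy f g : ZMod f).val :=
  ((zq_prim f).autToPow_spec ℚ g).symm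

theorem cy_act (g : GQ) {z : Qb} (h : z ^ f = 1) : g z = z ^ (cy f g : ZMod f).val := by
  obtain ⟨i, -, rfl⟩ := (zq_prim f).eq_pow_of_pow_eq_one h
  rw [map_pow, cy_zq, ← pow_mul, ← pow_mul, mul_comm]

theorem cy_of {a : ℕ} (e : g (zq f) = zq f ^ a) : (cy f g : ZMod f) = a := by
  rw [cy_zq, pow_eq_pow_mod a (zq_prim f).pow_eq_one, ← ZMod.val_natCast] at e
  exact ZMod.val_injective f ((zq_prim f).pow_inj (ZMod.val_lt _) (ZMod.val_lt _) e)

theorem cy_one : cy f g = 1 ↔ g ∈ Hm f :=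
  ⟨fun e z hz => by
    rw [cy_act g hz, e, Units.val_one, ← Nat.cast_one, ZMod.val_natCast, ← pow_eq_pow_mod 1 hz,
      pow_one],
   fun m => Units.ext ((cy_of (a := 1) (by
    rw [m _ (zq_prim f).pow_eq_one, pow_one])).trans Nat.cast_one)⟩

theorem cy_inert {l : ℕ} {P : Ideal (𝓞 Qb)} (o : Ov l P) (h : ¬ l ∣ f) (i : Inert P g) :
    cy f g = 1 := cy_one.2 (inert_Hm o h i)

theorem cy_fb {l : ℕ} {P : Ideal (𝓞 Qb)} (o : Ov l P) (h : ¬ l ∣ f) (i : Fb l P g) :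
    (cy f g : ZMod f) = l := cy_of (root_cong o h i (zq_prim f).pow_eq_one)

theorem cy_cy {σ : ℂ ≃+* ℂ} (e : Ex σ g) : Cy σ f (cy f g : ZMod f).val := by
  rw [Cy, ← io_zq, e, cy_zq, map_pow, io_zq, Pre.ze_pow f (_ : ℕ), zpow_natCast]

theorem cy_onto (a : (ZMod f)ˣ) : ∃ g, cy f g = a := by
  have h := zq_prim f
  have h' := h.pow_of_coprime _ (ZMod.val_coe_unit_coprime a)
  have := P022.H443.galQb
  obtain ⟨g, hg⟩ := (IsConjRoot.exists_algEquiv (K := ℚ) (x := zq f ^ (a : ZMod f).val)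
    (y := zq f) (by
      rw [IsConjRoot, ← Polynomial.cyclotomic_eq_minpoly_rat h (NeZero.pos f),
        ← Polynomial.cyclotomic_eq_minpoly_rat h' (NeZero.pos f)]))
  exact ⟨g, Units.ext ((cy_of hg).trans (ZMod.natCast_zmod_val _))⟩

end cyc

variable {K : Type} [Field K] [NumberField K] {j : K →+* Qb} {c f M : ℕ} [NeZero f]

/-- **the ring class field is disjoint from the cyclotomic field** -/
theorem ex_hc (r1 : P004K.RC1) (r2 : RC2) (iq : Iq K) (c0 : 0 < c) (cop : c.Coprime f)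
    (spl : ∀ l P, Ov l P → l ∣ f → ∀ g, Inert P g → g ∈ GK j) (a : (ZMod f)ˣ) :
    ∃ h ∈ Hc j c, cy f h = a := by
  obtain ⟨g, rfl⟩ := cy_onto a
  have e := P022K.CH.mink_top (Hc j c ⊔ (cy f).ker)
    (Subgroup.isOpen_mono le_sup_left (r1 K j iq c c0).2.1) fun l P o t ht => by
    by_cases k : l ∣ f
    · exact Subgroup.mem_sup_left (P004R.Wr.inert_hc r2 iq o
        (fun d => o.1.one_lt.ne' (Nat.eq_one_of_dvd_coprimes cop d k)) (spl l P o k t ht) ht)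
    · exact Subgroup.mem_sup_right (cy_inert o k ht)
  obtain ⟨x, hx, w, hw, rfl⟩ := Subgroup.mem_sup_of_normal_right.1 (e.ge (Subgroup.mem_top g))
  exact ⟨x, hx, by rw [map_mul, MonoidHom.mem_ker.1 hw, mul_one]⟩

/-- a complex number which is fixed by the automorphisms over `ℚ̄` is algebraic -/
theorem alg_fix {z : ℂ} (h : ∀ σ : ℂ ≃+* ℂ, Ex σ 1 → σ z = z) : ∃ a, io a = z := by
  refine ex_io (by_contra fun n => ?_)
  have : Algebra.IsAlgebraic ℚ Qb := AlgebraicClosure.isAlgebraic ℚ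
  have : Countable Qb := Cardinal.mk_le_aleph0_iff.1
    ((Algebra.IsAlgebraic.cardinalMk_le_max ℚ Qb).trans (max_le Cardinal.mk_le_aleph0 le_rfl))
  have : Countable (Polynomial Qb) := Cardinal.mk_le_aleph0_iff.1
    (Polynomial.cardinalMk_le_max.trans (max_le Cardinal.mk_le_aleph0 le_rfl))
  let _ : Algebra Qb ℂ := (io : Qb →+* ℂ).toAlgebra
  have : IsScalarTower ℚ Qb ℂ := .of_algebraMap_eq fun a => (io.commutes a).symm
  have inj : ∀ d : ℂ, ¬ IsAlgebraic ℚ d → ∀ p : Polynomial Qb, Polynomial.aeval d p = 0 ↔ p = 0 :=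
    fun d hd p => ⟨fun z => by_contra fun n => hd (IsAlgebraic.restrictScalars ℚ ⟨p, n, z⟩),
      fun z => by rw [z, map_zero]⟩
  obtain ⟨σ, hσ⟩ := ext_ker (Polynomial Qb) (Polynomial.aeval z).toRingHom
    (Polynomial.aeval (z + 1)).toRingHom fun p => (inj z n p).trans (inj _ (fun k => n (by
      simpa using k.sub isAlgebraic_one)) p).symm
  have e := hσ .X
  simp only [AlgHom.toRingHom_eq_coe, RingHom.coe_coe, Polynomial.aeval_X] at e
  rw [h σ fun a => by simpa using! hσ (.C a)] at e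
  simp at e

/-- a family of functions on `Y₀(M)` which is permuted by the cyclotomic character -/
def Fam (f M : ℕ) (u : ZMod f → ℍ → ℂ) : Prop := ∀ (σ : ℂ ≃+* ℂ) (k : ℤ) (τ τ' : ℍ),
  Cj0 σ M τ τ' → Cy σ f k → ∀ a, σ (u a τ) = u (k * a) τ'

/-- `U a g` is the value of `u a` at the conjugate under `g` of the Heegner point -/
def Vl (j : K →+* Qb) (M : ℕ) (I : Ideal (𝓞 K)) (c : ℕ) (u : ℍ → ℂ) (U : GQ → Qb) : Prop :=
  ∀ g ∈ GK j, ∀ σ τ τ', Ex σ g → Hp (JJ j) M I c τ → Cj0 σ M τ τ' → u τ' = io (U g)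

variable {u : ZMod f → ℍ → ℂ} {I : Ideal (𝓞 K)}

theorem Fam.inv (h : Fam f M u) (M0 : 0 < M) {τ τ' : ℍ} (e : ∃ γ ∈ Gamma0 M, γ • τ = τ') (a : ZMod f) :
    u a τ' = u a τ := by
  have := h 1 1 τ' τ ((cj0_one M0).2 e) rfl a
  simpa using this

/-- **the values**: Galois action and invariance -/
theorem ex_vl (hg1 : HG1) (iq : Iq K) (M0 : 0 < M) (c0 : 0 < c) (cop : c.Coprime M) (cn : Cn M I)
    (h : Fam f M u) : ∃ U : ZMod f → GQ → Qb, (∀ a, Vl j M I c (u a) (U a)) ∧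
      (∀ a, ∀ g ∈ GK j, ∀ g' ∈ GK j, g' (U a g) = U (cy f g' * a) (g' * g)) ∧
      ∀ a, ∀ g ∈ GK j, ∀ t ∈ Hc j c, U a (g * t) = U a g := by
  obtain ⟨⟨τ₀, h0⟩, uq, -, fx, -⟩ := hg1 K j iq M c I M0 c0 cop cn
  have al : ∀ a, ∃ x, io x = u a τ₀ := fun a => alg_fix fun σ e => by
    have := h σ _ τ₀ τ₀ ((fx τ₀ σ 1 (one_mem _) h0 e).1 (one_mem _)) (cy_cy e) a
    simpa using this
  choose x hx using al
  have vl : ∀ a, Vl j M I c (u a) fun g => g (x (((cy f g)⁻¹ : (ZMod f)ˣ) * a)) :=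
    fun a g _ σ τ τ' e p q => by
    rw [← e, hx, ← h.inv M0 ((uq τ₀ τ h0).1 p), h σ _ τ τ' q (cy_cy e)]
    simp
  refine ⟨fun a g => g (x (((cy f g)⁻¹ : (ZMod f)ˣ) * a)), vl, fun a g _ g' _ => ?_,
    fun a g m t ht => P004K.io_inj ?_⟩
  · show _ = (g' * g) _
    rw [AlgEquiv.mul_apply, map_mul, mul_inv_rev, Units.val_mul, mul_assoc, Units.inv_mul_cancel_left]
  · obtain ⟨σ, e⟩ := ex_ex g
    obtain ⟨s, e'⟩ := ex_ex t
    obtain ⟨τ', q⟩ := (cj0 σ M M0).1 τ₀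
    rw [← vl a g m σ τ₀ τ' e h0 q, ← vl a (g * t) (mul_mem m ht.1) (σ * s) τ₀ τ' (e.mul e') h0
      (((fx τ₀ s t ht.1 h0 e').1 ht).trans q)]

/-- the values are unique -/
theorem Vl.uniq (hg1 : HG1) (iq : Iq K) (M0 : 0 < M) (c0 : 0 < c) (cop : c.Coprime M) (cn : Cn M I)
    {v : ℍ → ℂ} {U U' : GQ → Qb} (h : Vl j M I c v U) (h' : Vl j M I c v U') {g : GQ}
    (m : g ∈ GK j) : U g = U' g := by
  obtain ⟨⟨τ₀, h0⟩, -⟩ := hg1 K j iq M c I M0 c0 cop cn
  obtain ⟨σ, e⟩ := ex_ex g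
  obtain ⟨τ', q⟩ := (cj0 σ M M0).1 τ₀
  exact P004K.io_inj ((h g m σ τ₀ τ' e h0 q).symm.trans (h' g m σ τ₀ τ' e h0 q))

end Vale.Agent.P014Z.Lk.Cy
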