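import Vale.Agent.P014U.Ir.Kw
import Vale.Agent.P022.H297.L3.Inert
import Vale.Agent.P022.H790.L3.CTw
import Vale.Agent.P022K.G2.SpecA

/-! # P014Z, block Lk: characters of `G_ℚ` are primitive Dirichlet characters -/

set_option autoImplicit false
set_option linter.all false

noncomputable section

namespace Vale.Agent.P014Z.Lk

open NumberField
open Vale.Agent.P022 (Qb GQ IsConj)
open Vale.Agent.P022.H853
open Vale.Agent.P027M.S (Inert)
open Vale.Agent.P022E.GW (Ov Fb)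
open Vale.Agent.P022K.G2 (om0 oz)
open ZMod (unitsMap)

variable {C : Type} [CommGroup C] {f : ℕ} [NeZero f]

/-- primitive -/
def Pm (ψ : (ZMod f)ˣ →* C) : Prop := ∀ (d : ℕ) (h : d ∣ f), (unitsMap h).ker ≤ ψ.ker → d = f

/-- `θ` is the primitive character `ψ` of conductor `f` -/
structure Kw (θ : GQ →* C) (f : ℕ) [NeZero f] (ψ : (ZMod f)ˣ →* C) : Prop where
  eq : ∀ g, θ g = ψ (cyc f g)
  pm : Pm ψ

/-- the Dirichlet character -/
def dc {R : Type} [CommRing R] (ι : C →* Rˣ) (ψ : (ZMod f)ˣ →* C) : DirichletCharacter R f :=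
  MulChar.ofUnitHom (ι.comp ψ)

theorem dc_coe {R : Type} [CommRing R] (ι : C →* Rˣ) (ψ : (ZMod f)ˣ →* C) (x : (ZMod f)ˣ) :
    dc ι ψ x = ι (ψ x) := MulChar.ofUnitHom_coe _ x

theorem um_iff {d : ℕ} (h : d ∣ f) (x : (ZMod f)ˣ) (n : ℕ) :
    (unitsMap h x : ZMod d) = n ↔ (x : ZMod f).val ≡ n [MOD d] := by
  rw [ZMod.unitsMap_val, ZMod.cast_eq_val, ZMod.natCast_eq_natCast_iff]

theorem um_one {d : ℕ} (h : d ∣ f) (x : (ZMod f)ˣ) :
    unitsMap h x = 1 ↔ (x : ZMod f).val ≡ 1 [MOD d] := by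
  rw [← um_iff h, Nat.cast_one, Units.val_eq_one]

theorem um_cyc {d : ℕ} [NeZero d] (h : d ∣ f) (g : GQ) : unitsMap h (cyc f g) = cyc d g :=
  Units.ext (by rw [← ZMod.natCast_zmod_val (cyc d g : ZMod d), um_iff]; exact cyc_mod f h g)

theorem om_cyc (p : ℕ) [Fact p.Prime] (g : GQ) : om0 p g = cyc p g := by
  have h := P022K.G2.zt_prim p
  have a := (h.autToPow_spec ℚ g).trans (cyc_spec g h.pow_eq_one)
  exact Units.ext (ZMod.val_injective p (h.pow_inj (ZMod.val_lt _) (ZMod.val_lt _) a))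

theorem in_cyc {l : ℕ} {P : Ideal (𝓞 Qb)} {g : GQ} (o : Ov l P) (h : ¬ l ∣ f) (i : Inert P g) :
    cyc f g = 1 := P022.H790.CT.eq_one_of_val (cyc_of_pow dvd_rfl o.2.1 (fun m => h (by
  exact_mod_cast P022.H20.dvd_of_mem o.1 o.2.1 o.2.2 (d := (f : ℤ)) (by exact_mod_cast m)))
  fun x => by rw [pow_one]; exact i x)

/-- **the theorem of Kronecker and Weber** -/
theorem ex_kw [Finite C] [IsCyclic C] (θ : GQ →* C) (ho : IsOpen (θ.ker : Set GQ)) (S : Finset ℕ)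
    (h : ∀ l P, Ov l P → l ∉ S → ∀ g, Inert P g → θ g = 1) :
    ∃ (f : ℕ) (_ : NeZero f) (ψ : (ZMod f)ˣ →* C), Kw θ f ψ := by
  classical
  have e : ∃ N, ∃ _ : NeZero N, ∀ g, cyc N g = 1 → θ g = 1 := by
    obtain ⟨N, i, -, k⟩ := P014U.Ir.kwf θ ho (le_max_left 2 (S.sup id)) fun l hl m P a b g c =>
      h l P ⟨hl, a, b⟩ (fun n => absurd (Finset.le_sup (f := id) n)
        (not_le.2 ((le_max_right _ _).trans_lt m))) g c
    exact ⟨N, i, k⟩
  obtain ⟨i, k⟩ := Nat.find_spec e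
  have s : Function.Surjective (cyc (Nat.find e)) := P022.H790.CT.cyc_surj _
  have q : ∀ g, θ g = (cyc _).liftOfSurjective s ⟨θ, k⟩ (cyc _ g) := fun g =>
    ((cyc _).liftOfRightInverse_comp_apply _ (Function.rightInverse_surjInv s) ⟨θ, k⟩ g).symm
  refine ⟨_, i, _, q, fun d m a => le_antisymm (Nat.le_of_dvd (NeZero.pos _) m) ?_⟩
  have : NeZero d := ⟨fun z => NeZero.ne _ (zero_dvd_iff.1 (z ▸ m))⟩
  exact Nat.find_min' e ⟨this, fun g c => (q g).trans (a ((um_cyc m g).trans c))⟩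

namespace Pm

variable {ψ : (ZMod f)ˣ →* C} (h : Pm ψ)

include h

theorem of_ker {C' : Type} [CommGroup C'] {ψ' : (ZMod f)ˣ →* C'} (e : ψ'.ker ≤ ψ.ker) : Pm ψ' :=
  fun d m a => h d m (a.trans e)

theorem prim {R : Type} [CommRing R] {ι : C →* Rˣ} (i : Function.Injective ι) :
    (dc ι ψ).IsPrimitive := by
  have a := (dc ι ψ).factorsThrough_conductor
  refine h _ a.dvd (((DirichletCharacter.factorsThrough_iff_ker_unitsMap a.dvd).1 a).trans
    fun x m => i (Units.ext ?_))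
  rw [map_one, ← dc_coe]
  exact congrArg Units.val (show (dc ι ψ).toUnitHom x = 1 from m)

theorem not_sq {p : ℕ} (hp : p.Prime) (c : ∀ x : C, x ^ p = 1 → x = 1) : ¬ p ^ 2 ∣ f := by
  rintro ⟨m, e⟩
  have d : p * m ∣ f := ⟨p, by rw [e]; ring⟩
  have := h _ d fun x a => c _ (by
    obtain ⟨t, k⟩ := ((um_one d x).1 a).symm.dvd
    rw [← map_pow, show x ^ p = 1 from Units.ext ?_, map_one]
    have z : ((p : ZMod f) ^ 2 * m) = 0 := by exact_mod_cast (congrArg (Nat.cast : ℕ → ZMod f) e).symm.trans (ZMod.natCast_self f)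
    have k' : (x : ZMod f) = 1 + p * m * t := by
      have := congrArg (Int.cast : ℤ → ZMod f) k
      push_cast at this
      rw [ZMod.natCast_zmod_val] at this
      linear_combination this
    have u : ∀ n : ℕ, (1 + p * m * t : ZMod f) ^ n = 1 + n * (p * m * t) := fun n => by
      induction n with
      | zero => simp
      | succ n i => rw [pow_succ, i]; push_cast; linear_combination (n * m * t ^ 2 : ZMod f) * z
    rw [Units.val_pow_eq_pow_val, k', u, Units.val_one]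
    linear_combination (t : ZMod f) * z)
  have p1 := hp.one_lt
  have m0 : 0 < m := Nat.pos_of_ne_zero (by rintro rfl; exact NeZero.ne f (e.trans (mul_zero _)))
  rw [e] at this
  nlinarith

end Pm

namespace Kw

variable {θ : GQ →* C} {ψ : (ZMod f)ˣ →* C} (k : Kw θ f ψ) {l : ℕ} {P : Ideal (𝓞 Qb)} {g : GQ}

include k

theorem unr (o : Ov l P) (h : ¬ l ∣ f) (i : Inert P g) : θ g = 1 := by
  rw [k.eq, in_cyc o h i, map_one]

theorem ram (o : Ov l P) (h : l ∣ f) : ∃ g, Inert P g ∧ θ g ≠ 1 := by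
  obtain ⟨a, m, n, e⟩ := Nat.exists_eq_pow_mul_and_not_dvd (NeZero.ne f) l o.1.ne_one
  by_contra! c
  have d : m ∣ f := ⟨_, e.trans (mul_comm _ _)⟩
  refine n (k.pm m d (fun x u => ?_) ▸ h)
  obtain ⟨g, i, q⟩ := P022.H297.L3.inert_cyc o.1 e (o.1.coprime_iff_not_dvd.2 n) o.2.1 o.2.2 x
    ((um_one d x).1 u)
  exact q ▸ (k.eq g).symm.trans (c g i)

theorem sub {S : Finset ℕ} (h : ∀ l P, Ov l P → l ∉ S → ∀ g, Inert P g → θ g = 1) (hl : l.Prime)
    (d : l ∣ f) : l ∈ S := by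
  obtain ⟨P, a, b⟩ := P022.H916.exists_prime hl
  obtain ⟨g, i, n⟩ := k.ram ⟨hl, a, b⟩ d
  exact by_contra fun m => n (h l P ⟨hl, a, b⟩ m g i)

theorem one_lt (h : θ g ≠ 1) : 1 < f := by
  refine lt_of_le_of_ne (NeZero.pos f) ?_
  rintro rfl
  exact h (by rw [k.eq, Subsingleton.elim (cyc 1 g) 1, map_one])

theorem neg {c : GQ} (h : IsConj c) : ψ (-1) = θ c := by
  rw [k.eq, show cyc f c = -1 from Units.ext (cyc_conj h)]

theorem frob {R : Type} [CommRing R] (ι : C →* Rˣ) (o : Ov l P) (h : ¬ l ∣ f) (b : Fb l P g) :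
    dc ι ψ l = ι (θ g) := by
  rw [← cyc_frob o.1 h ⟨P, o.2.1, o.2.2, b⟩, dc_coe, k.eq]

theorem pow {a : ℕ} (h : ∀ g, θ g ^ a = 1 → θ g = 1) : Kw (θ ^ a) f (ψ ^ a) :=
  ⟨fun g => congrArg (· ^ a) (k.eq g), k.pm.of_ker fun x m => by
    obtain ⟨g, rfl⟩ := P022.H790.CT.cyc_surj f x
    exact (k.eq g).symm.trans (h g (k.eq g ▸ m))⟩

theorem inv : Kw θ⁻¹ f ψ⁻¹ :=
  ⟨fun g => congrArg (·⁻¹) (k.eq g), k.pm.of_ker fun x m => inv_eq_one.1 m⟩

end Kw

/-- a character of `(ZMod p)ˣ` is a power -/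
theorem ex_pow {p : ℕ} [Fact p.Prime] (φ : (ZMod p)ˣ →* (ZMod p)ˣ) :
    ∃ j < p - 1, ∀ x, φ x = x ^ j := by
  obtain ⟨γ, h⟩ := IsCyclic.exists_generator (α := (ZMod p)ˣ)
  have o : orderOf γ = p - 1 := by rw [orderOf_eq_card_of_forall_mem_zpowers h, Nat.card_eq_fintype_card, ZMod.card_units]
  obtain ⟨j, m, e⟩ := Finset.mem_image.1 (mem_zpowers_iff_mem_range_orderOf.1 (h (φ γ)))
  refine ⟨j, o ▸ Finset.mem_range.1 m, fun x => ?_⟩
  obtain ⟨n, rfl⟩ := h x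
  rw [map_zpow, ← e, ← zpow_natCast, ← zpow_natCast, ← zpow_mul, ← zpow_mul, mul_comm]

/-- Chinese remainders -/
theorem um_inj {a b : ℕ} (e : f = a * b) (c : a.Coprime b) {x y : (ZMod f)ˣ} (d : a ∣ f)
    (d' : b ∣ f) (h : unitsMap d x = unitsMap d y) (h' : unitsMap d' x = unitsMap d' y) :
    x = y := by
  rw [← mul_inv_eq_one, ← map_inv, ← map_mul, um_one] at h h'
  rw [← mul_inv_eq_one]
  have := (Nat.modEq_and_modEq_iff_modEq_mul c).1 ⟨h, h'⟩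
  rw [← e] at this
  exact P022.H790.CT.eq_one_of_val this

theorem um_ex {a b : ℕ} [NeZero a] (e : f = a * b) (c : a.Coprime b) (d : a ∣ f) (d' : b ∣ f)
    (y : (ZMod a)ˣ) : ∃ x : (ZMod f)ˣ, unitsMap d x = y ∧ unitsMap d' x = 1 := by
  obtain ⟨n, h, h'⟩ := Nat.chineseRemainder c (y : ZMod a).val 1
  have u : n.Coprime f := by
    rw [e]
    exact Nat.Coprime.mul_right (h.gcd_eq.trans (ZMod.val_coe_unit_coprime y))
      (h'.gcd_eq.trans (Nat.gcd_one_left _))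
  have v : ((ZMod.unitOfCoprime n u : (ZMod f)ˣ) : ZMod f).val ≡ n [MOD f] := by
    rw [ZMod.coe_unitOfCoprime, ZMod.val_natCast]; exact Nat.mod_modEq _ _
  exact ⟨ZMod.unitOfCoprime n u, Units.ext (by
    rw [← ZMod.natCast_zmod_val (y : ZMod a), um_iff]; exact (v.of_dvd d).trans h),
    (um_one _ _).2 ((v.of_dvd d').trans h')⟩

section
variable {p : ℕ} [hp : Fact p.Prime] {θ : GQ →* (ZMod p)ˣ} {ψ : (ZMod f)ˣ →* (ZMod p)ˣ}

theorem Pm.nsq (h : Pm ψ) : ¬ p ^ 2 ∣ f := h.not_sq hp.out fun x e => Units.ext (by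
  rw [← ZMod.pow_card (x : ZMod p), ← Units.val_pow_eq_pow_val, e])

/-- the `p`-component of `ψ` is a power of the identity -/
theorem ex_loc (ψ : (ZMod f)ˣ →* (ZMod p)ˣ) {m : ℕ} (e : f = p * m) (n : ¬ p ∣ m) (d : p ∣ f)
    (d' : m ∣ f) : ∃ j < p - 1, ∀ x, unitsMap d' x = 1 → ψ x = unitsMap d x ^ j := by
  have c := hp.out.coprime_iff_not_dvd.2 n
  choose s h h' using um_ex e c d d'
  obtain ⟨j, a, k⟩ := ex_pow (ψ.comp (MonoidHom.mk' s fun x y => um_inj e c d d'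
    (by rw [map_mul, h, h, h]) (by rw [map_mul, h', h', h', mul_one])))
  exact ⟨j, a, fun x u => (congrArg ψ (um_inj e c d d' (h _).symm (u.trans (h' _).symm))).trans
    (k _)⟩

/-- on inertia at `p`, `θ = ω ^ j`; `j ≠ 0` exactly when `p ∣ f` -/
theorem Kw.loc (k : Kw θ f ψ) : ∃ j < p - 1,
    (∀ P, Ov p P → ∀ g, Inert P g → θ g = om0 p g ^ j) ∧ (p ∣ f ↔ j ≠ 0) ∧
    ∀ m, f = p * m → ¬ p ∣ m ∧ ∀ (d : p ∣ f) (d' : m ∣ f) x, unitsMap d' x = 1 →
      ψ x = unitsMap d x ^ j := by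
  by_cases d : p ∣ f
  · obtain ⟨m, e⟩ := id d
    have n : ¬ p ∣ m := fun a => k.pm.nsq (by rw [e, sq]; exact mul_dvd_mul_left p a)
    have d' : m ∣ f := ⟨p, e.trans (mul_comm _ _)⟩
    have : NeZero m := ⟨fun z => n (z ▸ dvd_zero p)⟩
    obtain ⟨j, a, h⟩ := ex_loc ψ e n d d'
    have i : ∀ P, Ov p P → ∀ g, Inert P g → θ g = om0 p g ^ j := fun P o g i => by
      rw [k.eq, h _ ((um_cyc d' g).trans (in_cyc o n i)), um_cyc, om_cyc]
    refine ⟨j, a, i, ⟨fun _ z => ?_, fun _ => d⟩, fun m' e' => ?_⟩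
    · obtain ⟨P, u, v⟩ := P022.H916.exists_prime hp.out
      obtain ⟨g, w, t⟩ := k.ram ⟨hp.out, u, v⟩ d
      exact t (by rw [i P ⟨hp.out, u, v⟩ g w, z, pow_zero])
    · obtain rfl : m = m' := Nat.eq_of_mul_eq_mul_left hp.out.pos (e.symm.trans e')
      exact ⟨n, fun _ _ => h⟩
  · exact ⟨0, Nat.sub_pos_of_lt hp.out.one_lt, fun P o g i => (k.unr o d i).trans (pow_zero _).symm,
      ⟨fun a => absurd a d, fun a => absurd rfl a⟩, fun m e => absurd ⟨m, e⟩ d⟩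

/-- a character with open kernel, unramified outside a finite set, is `ω ^ j` on inertia at `p` -/
theorem ex_in (θ : GQ →* (ZMod p)ˣ) (ho : IsOpen (θ.ker : Set GQ)) (S : Finset ℕ)
    (h : ∀ l P, Ov l P → l ∉ S → ∀ g, Inert P g → θ g = 1) :
    ∃ j < p - 1, ∀ P, Ov p P → ∀ g, Inert P g → θ g = om0 p g ^ j := by
  obtain ⟨f, _, ψ, k⟩ := ex_kw θ ho S h
  obtain ⟨j, a, b, -⟩ := k.loc
  exact ⟨j, a, b⟩

end

end Vale.Agent.P014Z.Lk
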