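import Vale.Agent.P014Z.St
import Vale.Agent.P014Z.Lk.Cyc
import Vale.Agent.P014Z.Lk.Kw
import Vale.Agent.P014Z.Su.Int
import Vale.Agent.P014Z.Su.Mod
import Vale.Agent.P004F.Qx.Vex
import Vale.Agent.P004F.Qx.Fg
import Vale.Agent.P004R.Shf
import Vale.Agent.P004R.Qf
import Vale.Agent.P004K.Jf

/-! # P014Z, block LK: the components of the unit, Galois action and valuations -/

set_option autoImplicit false
set_option linter.all false

noncomputable section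

namespace Vale.Agent.P014Z.Lk.B0

open NumberField UpperHalfPlane CongruenceSubgroup Finset
open scoped Classical
open Vale.Agent.P022 (Qb GQ GK below)
open Vale.Agent.P027M.S (Inert)
open Vale.Agent.P027M.M (io ze)
open Vale.Agent.P022D.W (dec)
open Vale.Agent.P022E.GW (Ov Fb)
open Vale.Agent.P022K.G2 (oz zt Tv)
open Vale.Agent.P014U P004K P027H
open P014Y.F (Crv Fld)
open P014Y.Mu (F)
open P004R.Sf (Ao)
open Gl

theorem tv_prod {Γ U : Subgroup GQ} {R : Finset GQ} (h : Tv Γ U R) {g : GQ} (hg : g ∈ Γ)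
    (G : GQ → Qb) (hF : ∀ y ∈ Γ, ∀ u ∈ Γ, u ∈ U → G (y * u) = G y) :
    ∏ r ∈ R, G (g * r) = ∏ r ∈ R, G r := h.sum_mul (M := Additive Qb) hg G hF

/-- the decomposition group preserves valuations -/
theorem un {l m : ℕ} {P : Ideal (𝓞 Qb)} (o : Ov l P) {i : GQ} (d : i ∈ dec P) {x : Qb} (x0 : x ≠ 0)
    (h : (i ^ (m + 1)) x = x) : Ip P (i x / x) ∧ Ip P (x / i x) := by
  have := o.2.1
  have k : ∀ t : Qb, ∏ k ∈ range (m + 1), (i ^ k) t = 1 → Ip P t → Ip P t⁻¹ := fun t e a => by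
    rw [prod_range_succ', pow_zero, AlgEquiv.one_apply] at e
    rw [← eq_inv_of_mul_eq_one_left e]
    exact (Ao P).prod_mem fun k _ => P004F.Qx.Fg.Dc.ip (pow_mem d (k + 1)) a
  have t : ∀ r : ℕ, ∏ k ∈ range r, (i ^ k) (i x / x) = (i ^ r) x / x := fun r => by
    induction r with
    | zero => simp [x0]
    | succ r ih =>
      have : (i ^ r) x ≠ 0 := (map_ne_zero _).2 x0
      rw [prod_range_succ, ih, map_div₀, pow_succ, AlgEquiv.mul_apply]
      field_simp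
  have t1 := t (m + 1)
  rw [h, div_self x0] at t1
  have t2 : ∏ k ∈ range (m + 1), (i ^ k) (i x / x)⁻¹ = 1 := by
    simp only [map_inv₀, prod_inv_distrib, t1, inv_one]
  obtain ⟨V, -, hV⟩ := P004F.Qx.vex P this fun z => o.1.ne_zero
    (Nat.cast_eq_zero.1 (Ideal.mem_bot.1 (z ▸ o.2.2)))
  rw [← inv_div (i x) x]
  rcases le_total (V (io (i x / x))) 1 with a | a
  · exact ⟨(hV _).1.2 a, k _ t1 ((hV _).1.2 a)⟩
  · have : Ip P (i x / x)⁻¹ := (hV _).1.2 (by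
      rw [map_inv₀, map_inv₀]; exact inv_le_one_of_one_le₀ a)
    exact ⟨inv_inv (i x / x) ▸ k _ t2 this, this⟩

variable [Pp] {e : Crv} {D : Da e} {b : Fld e} {n : ℕ} (L : Lt D b n)

theorem fi_cn (b : Fld e) {f : ℕ} (f0 : f ≠ 0) (h : ∀ l : ℕ, l.Prime → l ∣ f → l ∈ e.S) :
    Cn (f ^ 2) (Fi b f) := by
  have := (P004R.Qf.sp_list (fun p m => (e.ov p m).1) b.ch.spl (f ^ 2).primeFactorsList
    (fun p m => h p (Nat.prime_of_mem_primeFactorsList m)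
      ((Nat.prime_of_mem_primeFactorsList m).dvd_of_dvd_pow (Nat.dvd_of_mem_primeFactorsList m)))
    1 ⊤ ⊤ one_pos P004R.Qf.sp_one (by simp)).cn
  rw [one_mul, Ideal.top_mul, Nat.prod_primeFactorsList (pow_ne_zero 2 f0),
    prod_list_map_count] at this
  simpa only [Fi, Nat.toFinset_factors, Nat.primeFactors_pow f two_ne_zero,
    Nat.primeFactorsList_count_eq, Nat.factorization_pow, Finsupp.smul_apply, smul_eq_mul]
    using this

theorem c0 : 0 < L.c := zero_lt_one.trans L.lz.one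

theorem cop {f : ℕ} (h : ∀ l : ℕ, l.Prime → l ∣ f → l ∈ e.S) : L.c.Coprime f :=
  Nat.coprime_of_dvd fun q hq a d => (L.lz.ly.out q hq a).1 (List.mem_toFinset.2 (h q hq d))

omit L in
theorem mem_hf {c f : ℕ} {g : GQ} :
    g ∈ Hf b c f ↔ g ∈ Hc b.j c ∧ ∀ ζ : Qb, ζ ^ f = 1 → g ζ = ζ := by
  simp only [Hf, Subgroup.mem_inf, Subgroup.mem_iInf, Set.mem_setOf_eq]
  rfl

variable {L} {g : GQ}

theorem eta_hf (h : g ∈ Hf b L.c D.f) : D.η g = 1 := by
  rw [D.dc.eq g 1 fun ζ a => by rw [pow_one, (mem_hf.1 h).2 ζ a], Nat.cast_one, map_one]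

theorem chi_hf (h : g ∈ Hf b L.c D.f) : L.χ g = 0 := L.lz.ker g (mem_hf.1 h).1

omit L in
theorem eta_ne (g : GQ) : D.η g ≠ 0 := fun z => by
  have := D.η.map_mul g g⁻¹
  rw [mul_inv_cancel, map_one, z, zero_mul] at this
  exact one_ne_zero this

variable (L)

theorem chi_one : L.χ 1 = 0 := L.lz.ker 1 (one_mem _)

theorem chi_pow (h : g ∈ b.Γ) (m : ℕ) : L.χ (g ^ m) = m * L.χ g := by
  induction m with
  | zero => rw [pow_zero, chi_one, Nat.cast_zero, zero_mul]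
  | succ m i => rw [pow_succ g, L.lz.add _ (pow_mem h m) _ h, i, Nat.cast_succ, add_one_mul]

theorem hp (hg1 : HG1) : ∃ τ, Hp (JJ b.j) (D.f ^ 2) (Fi b D.f) L.c τ ∧
    io L.s = Su.us D.f L.c₀ L.m 1 τ ∧ (∃ l : P004Z.Fm, l ≠ 0 ∧ P004Z.evq l τ = 0) ∧
    ∀ σ, ∀ g ∈ Hc b.j L.c, Ex σ g → Cj0 σ (D.f ^ 2) τ τ := by
  have p := pow_pos (NeZero.pos D.f) 2
  obtain ⟨⟨τ, h⟩, -, a, fx, -⟩ := hg1 b.K b.j b.iq _ L.c _ p (c0 L) ((cop L D.dc.sup).pow_right 2)
    (fi_cn b (NeZero.ne _) D.dc.sup)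
  refine ⟨τ, h, ?_, a τ h, fun σ g m x => (fx τ σ g m.1 h x).1 m⟩
  simpa using L.us 1 (one_mem _) 1 τ τ 1 (fun _ => rfl) h ((cj0 1 _ p).2.2.2.2.2.1 τ) rfl

theorem s_ne (hg1 : HG1) : L.s ≠ 0 := fun z => by
  obtain ⟨τ, -, a, -⟩ := hp L hg1
  rw [z, map_zero] at a
  exact Su.us_ne D.dc.one _ _ _ _ a.symm

theorem s_fix (hg1 : HG1) (h : g ∈ Hf b L.c D.f) : g L.s = L.s := by
  obtain ⟨τ, p, a, -, k⟩ := hp L hg1
  obtain ⟨σ, x⟩ := ex_ex g
  obtain ⟨h1, h2⟩ := mem_hf.1 h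
  refine io_inj ?_
  rw [a]
  simpa using L.us g h1.1 σ τ τ 1 x p (k σ g h1 x) (by
    rw [Cy, ← Cy.io_zq, x, h2 _ (Cy.zq_prim _).pow_eq_one])

/-- the conjugates of `s` are units outside `f` -/
theorem s_un (hg1 : HG1) (g : GQ) {l : ℕ} {P : Ideal (𝓞 Qb)} (o : Ov l P) (h : ¬ l ∣ D.f) :
    Ip P (g L.s) ∧ Ip P (g L.s)⁻¹ := by
  obtain ⟨τ, -, a, ⟨q, q0, q1⟩, -⟩ := hp L hg1
  obtain ⟨t, ht⟩ := P004R.Qf.ex_mul D.f τ
  have f0 : (D.f : ℤ) ≠ 0 := Nat.cast_ne_zero.2 (NeZero.ne _)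
  have i := int_row t (q.1, q.2.1 * D.f, q.2.2 * D.f ^ 2) (fun z => q0 (by
    simp only [Prod.mk_eq_zero, mul_eq_zero, f0, or_false, pow_eq_zero_iff two_ne_zero] at z
    exact Prod.ext z.1 (Prod.ext z.2.1 z.2.2))) (by
    rw [P004Z.evq] at q1 ⊢
    rw [ht (NeZero.pos _)]
    push_cast
    linear_combination (D.f : ℂ) ^ 2 * q1)
  rw [jL_lat] at i
  obtain ⟨k, u, v⟩ := Su.us_uf D.dc.one L.c₀ L.m 1 (ht (NeZero.pos _)) i
  have w : ∀ z : Qb, IsIntegral ℤ ((D.f : ℂ) ^ k * io z) → Ip P (g z) := fun z hz => by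
    have := ((isIntegral_algHom_iff (io.restrictScalars ℤ) io_inj (x := D.f ^ k * z)).1 (by
      simpa using hz)).map ((g : Qb →ₐ[ℚ] Qb).restrictScalars ℤ)
    refine ⟨D.f ^ k, ⟨_, this⟩, fun m => h ?_, by simp⟩
    exact_mod_cast P004S.ov_dvd o (a := D.f) (by exact_mod_cast o.2.1.mem_of_pow_mem k m)
  rw [← a] at u v
  exact ⟨w _ u, by rw [← map_inv₀]; exact w _ (by rwa [map_inv₀])⟩

/-- products of conjugates of the unit -/
def Pr (ν : F → ℤ) (t : ZMod (pp ^ (n + 1))) : Qb :=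
  ∏ g ∈ L.R' with L.χ g = t, g L.s ^ ν (D.η g)

/-- the exponents of the component -/
def nu (a : ℕ) (x : F) : ℤ := (x⁻¹ ^ a).val

theorem nu_cast (a : ℕ) (x : F) : (nu a x : F) = x⁻¹ ^ a := by simp [nu]

theorem X_eq (a : ℕ) : L.X a = Pr L (nu a) 0 := by simp only [Lt.X, Xa, Pr, nu, zpow_natCast]

variable (hg1 : HG1) {ν ν' : F → ℤ} {t : ZMod (pp ^ (n + 1))}

include hg1

theorem pr_ne : Pr L ν t ≠ 0 :=
  prod_ne_zero_iff.2 fun g _ => zpow_ne_zero _ ((map_ne_zero g).2 (s_ne L hg1))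

theorem pr_add : Pr L (fun x => ν x + ν' x) t = Pr L ν t * Pr L ν' t := by
  rw [Pr, Pr, Pr, ← prod_mul_distrib]
  exact prod_congr rfl fun g _ => zpow_add₀ ((map_ne_zero g).2 (s_ne L hg1)) _ _

omit hg1 in
theorem pr_zpow (k : ℤ) : Pr L (fun x => ν x * k) t = Pr L ν t ^ k := by
  simp only [Pr, zpow_mul, prod_zpow]

/-- **the Galois action** -/
theorem pr_gal (h : g ∈ b.Γ) : g (Pr L ν t) = Pr L (fun x => ν ((D.η g)⁻¹ * x)) (t + L.χ g) := by
  rw [Pr, Pr, prod_filter, prod_filter, map_prod]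
  refine .trans ?_ (tv_prod L.tv' h _ ?_)
  · refine prod_congr rfl fun r m => ?_
    rw [L.lz.add g h r (L.tv'.mem r m), add_comm (L.χ g), map_mul, inv_mul_cancel_left₀ (eta_ne g)]
    simp only [add_left_inj]
    split_ifs
    · rw [map_zpow₀, AlgEquiv.mul_apply]
    · exact map_one g
  · intro y hy u hu m
    rw [L.lz.add y hy u hu, chi_hf m, add_zero, map_mul, eta_hf m, mul_one, AlgEquiv.mul_apply,
      s_fix L hg1 m]

theorem pr_fix (h : g ∈ L.U) : g (Pr L ν t) = Pr L ν t := by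
  obtain ⟨a, c, d⟩ := (L.ug g).1 h
  simp only [pr_gal L hg1 a, c, d, inv_one, one_mul, add_zero]

/-- congruent exponents -/
theorem pr_cg (h : ∀ x, x ≠ 0 → (ν x : F) = ν' x) :
    ∃ κ, Pr L ν t = Pr L ν' t * Pr L κ t ^ pp := by
  refine ⟨fun x => (ν x - ν' x) / pp, ?_⟩
  rw [← zpow_natCast, ← pr_zpow, ← pr_add L hg1]
  refine prod_congr rfl fun g _ => congrArg _ ?_
  beta_reduce
  rw [Int.ediv_mul_cancel ((ZMod.intCast_eq_intCast_iff_dvd_sub _ _ _).1 (h _ (eta_ne g)).symm),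
    add_sub_cancel]

theorem gam (a m : ℕ) : (L.γ ^ m) (L.X a) = Pr L (nu a) m := by
  simp only [X_eq, pr_gal L hg1 (pow_mem L.lz.g0 m), map_pow, L.lz.g1, one_pow, inv_one, one_mul,
    chi_pow L L.lz.g0, L.lz.g2, mul_one, zero_add]

/-- **conjugates of the components** -/
theorem cj (a : ℕ) (h : g ∈ b.Γ) : ∃ κ, g (Pr L (nu a) t) =
    Pr L (nu a) (t + L.χ g) ^ (D.η g ^ a).val * Pr L κ (t + L.χ g) ^ pp := by
  rw [pr_gal L hg1 h, ← zpow_natCast, ← pr_zpow]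
  refine pr_cg L hg1 fun x _ => ?_
  push_cast
  rw [nu_cast, nu_cast, ZMod.natCast_zmod_val, mul_inv, inv_inv, mul_pow, mul_comm]

omit hg1 L in
theorem ram {l : ℕ} {P : Ideal (𝓞 Qb)} (o : Ov l P) (h : l ∣ D.f) :
    ∃ g, Inert P g ∧ D.η g ≠ 1 := by
  obtain ⟨a, m, k, q⟩ := Nat.exists_eq_pow_mul_and_not_dvd (NeZero.ne D.f) l o.1.ne_one
  by_contra! c
  have d : m ∣ D.f := ⟨_, q.trans (mul_comm _ _)⟩
  have t : D.ψ.FactorsThrough m := (DirichletCharacter.factorsThrough_iff_ker_unitsMap d).2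
    fun x u => by
    obtain ⟨g, i, r⟩ := P022.H297.L3.inert_cyc o.1 q (o.1.coprime_iff_not_dvd.2 k) o.2.1 o.2.2 x
      ((um_one d x).1 u)
    have := D.dc.eq g _ fun ζ z => P022.H853.cyc_spec g z
    rw [c g i, r, ZMod.natCast_zmod_val] at this
    exact Units.ext this.symm
  have le : D.ψ.conductor ≤ m := Nat.sInf_le t
  rw [D.dc.prim] at le
  exact k (Nat.le_antisymm le (Nat.le_of_dvd (NeZero.pos _) d) ▸ h)

omit hg1 L in
theorem pow_ne {a : ℕ} (h : a.Coprime (orderOf D.η)) (k : D.η g ≠ 1) : D.η g ^ a ≠ 1 := fun z =>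
  k ((pow_eq_one_iff_of_coprime h).1 ⟨z, by
    rw [← MonoidHom.pow_apply, pow_orderOf_eq_one, MonoidHom.one_apply]⟩)

/-- **the component is in the eigenspace** -/
theorem wv {a : ℕ} (h : a.Coprime (orderOf D.η)) : Wv b D.η L.χ L.U a (L.X a) := by
  have x0 : Pr L (nu a) 0 ≠ 0 := pr_ne L hg1
  rw [X_eq]
  refine ⟨x0, fun g m => pr_fix L hg1 m, fun l P o => ?_, fun g m z => ?_⟩
  · have := o.2.1
    by_cases d : l ∣ D.f
    · obtain ⟨i, hi, ne⟩ := ram o d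
      have id : i ∈ dec P := P022D.W.inP_le_dec hi
      have ls := D.dc.sup l o.1 d
      have m := (L.lz.ly.fro l (List.mem_toFinset.2 ls) P o).1 id
      have z : L.χ i = 0 := (ZMod.val_eq_zero _).1 (Nat.eq_zero_of_dvd_of_lt (L.lz.ly.unr l P o
        (fun k => (L.lz.ly.out l o.1 k).1 (List.mem_toFinset.2 ls)) i m hi) (ZMod.val_lt _))
      obtain ⟨κ, k⟩ := cj L hg1 (t := 0) a m
      rw [z, add_zero] at k
      obtain ⟨u1, u2⟩ := un o id x0 (m := pp - 2) (pr_fix L hg1 ((L.ug _).2 ⟨pow_mem m _, by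
        rw [map_pow, show pp - 2 + 1 = pp - 1 by have := two_lt; omega,
          ZMod.pow_card_sub_one_eq_one (eta_ne i)], by rw [chi_pow L m, z, mul_zero]⟩))
      obtain ⟨u, hu⟩ : ∃ u : ℕ, (u : F) * (D.η i ^ a - 1) = 1 :=
        ⟨(D.η i ^ a - 1)⁻¹.val, by
          rw [ZMod.natCast_zmod_val, inv_mul_cancel₀ (sub_ne_zero.2 (pow_ne h ne))]⟩
      obtain ⟨v, hv⟩ : (pp : ℤ) ∣ 1 - u * ((D.η i ^ a).val - 1) := by
        rw [← ZMod.intCast_zmod_eq_zero_iff_dvd]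
        push_cast
        rw [ZMod.natCast_zmod_val, hu, sub_self]
      have k0 : Pr L κ 0 ≠ 0 := pr_ne L hg1
      have q : Pr L (nu a) 0 / (Pr L (nu a) 0 ^ v / Pr L κ 0 ^ u) ^ pp =
          (i (Pr L (nu a) 0) / Pr L (nu a) 0) ^ u := by
        have : Pr L (nu a) 0 = (Pr L (nu a) 0 ^ (D.η i ^ a).val / Pr L (nu a) 0) ^ u *
            (Pr L (nu a) 0 ^ v) ^ pp := by
          rw [← zpow_natCast _ (D.η i ^ a).val, div_eq_mul_inv, ← zpow_sub_one₀ x0,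
            ← zpow_natCast _ u, ← zpow_natCast _ pp, ← zpow_mul, ← zpow_mul, ← zpow_add₀ x0,
            mul_comm v, ← hv, mul_comm, add_sub_cancel, zpow_one]
        rw [k, mul_div_right_comm, mul_pow, div_pow, ← pow_mul, mul_comm u, pow_mul, div_div_eq_mul_div,
          div_eq_iff (pow_ne_zero _ (zpow_ne_zero _ x0)), mul_right_comm, ← this]
      refine ⟨Pr L (nu a) 0 ^ v / Pr L κ 0 ^ u,
        div_ne_zero (zpow_ne_zero _ x0) (pow_ne_zero _ k0), fun g m => ?_, ?_, ?_⟩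
      · rw [map_div₀, map_zpow₀, map_pow, pr_fix L hg1 m, pr_fix L hg1 m]
      · rw [q]
        exact (Ao P).pow_mem u1 u
      · rw [← inv_div, q, ← inv_pow, inv_div]
        exact (Ao P).pow_mem u2 u
    · refine ⟨1, one_ne_zero, fun g _ => map_one g, ?_, ?_⟩
      · rw [one_pow, div_one]
        exact (Ao P).prod_mem fun g _ => by
          rw [nu, zpow_natCast]; exact (Ao P).pow_mem (s_un L hg1 g o d).1 _
      · rw [one_pow, one_div, Pr, ← prod_inv_distrib]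
        exact (Ao P).prod_mem fun g _ => by
          rw [nu, zpow_natCast, ← inv_pow]; exact (Ao P).pow_mem (s_un L hg1 g o d).2 _
  · obtain ⟨κ, k⟩ := cj L hg1 (t := 0) a m
    rw [z, add_zero] at k
    exact ⟨Pr L κ 0, fun g m => pr_fix L hg1 m, by
      rw [k, mul_div_cancel_left₀ _ (pow_ne_zero _ x0)]⟩

end Vale.Agent.P014Z.Lk.B0
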