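import Vale.Agent.P014Z.Lk.Cyc
import Vale.Agent.P004F.Qx.Dep
import Vale.Agent.P022K.G2.Tr
import Vale.Agent.P022.H853.L3.Cyc

/-! # P014Z, block LK: change of level, the shift by an Artin symbol, products over transversals -/

set_option autoImplicit false
set_option linter.all false

open NumberField UpperHalfPlane CongruenceSubgroup Finset
open scoped MatrixGroups Classical

noncomputable section

namespace Vale.Agent.P014Z.Lk.Cy

open Vale.Agent.P022 (Qb GQ GK)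
open P027H P027M.M P004K
open Vale.Agent.P022K.G2 (Tv)
open P004F.Qx.De (vv coe_vv cj_dn cj_V)

variable {K : Type} [Field K] [NumberField K] {j : K →+* Qb} {c f M M' : ℕ}
  {I I' : Ideal (𝓞 K)} {v : ℍ → ℂ} {V : GQ → Qb}

/-- a higher level -/
theorem Vl.up (hg1 : HG1) (iq : Iq K) (M0 : 0 < M) (M1 : 0 < M') (c0 : 0 < c) (cop : c.Coprime M)
    (cop' : c.Coprime M') (cn : Cn M I) (cn' : Cn M' I') (cn2 : Cn (M * M') (I * I'))
    (h : Vl j M I c v V) : Vl j (M * M') (I * I') c v V := fun g m σ τ τ' e p q =>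
  h g m σ τ τ' e ((hg1 K j iq M c I M0 c0 cop cn).2.2.2.2 M' I' τ M1 cop' cn2 cn' p).1
    (cj_dn M0 M1 q)

/-- the value at `M' τ` -/
theorem Vl.sh (hg1 : HG1) (iq : Iq K) (M0 : 0 < M) (M1 : 0 < M') (c0 : 0 < c) (cop : c.Coprime M)
    (cop' : c.Coprime M') (cn : Cn M I) (cn' : Cn M' I') (cn2 : Cn (M * M') (I * I')) {φ : GQ}
    (ar : Ar j c I' φ) (h : Vl j M I c v V) :
    Vl j (M * M') (I * I') c (fun τ => v (vv M' τ)) fun g => V (g * φ) := fun g m σ τ τ' e p q => by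
  obtain ⟨k1, k2⟩ := (hg1 K j iq M c I M0 c0 cop cn).2.2.2.2 M' I' τ M1 cop' cn2 cn' p
  obtain ⟨s, e'⟩ := ex_ex φ
  exact h _ (mul_mem m ar.1) _ τ _ (e.mul e') k1
    ((k2 φ s _ ar e' (coe_vv M1 τ)).trans (cj_V M0 M1 q))

variable [NeZero f]

theorem cy_eq (g : GQ) : cy f g = P022.H853.cyc f g :=
  Units.ext ((cy_of (P022.H853.cyc_spec g (zq_prim f).pow_eq_one)).trans (ZMod.natCast_zmod_val _))

theorem Fam.up {u : ZMod f → ℍ → ℂ} (M0 : 0 < M) (M1 : 0 < M') (h : Fam f M u) :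
    Fam f (M * M') u := fun σ k τ τ' q => h σ k τ τ' (cj_dn M0 M1 q)

variable (j c f) in
/-- the laws of the values -/
structure Uf (U : ZMod f → GQ → Qb) : Prop where
  act : ∀ a, ∀ g ∈ GK j, ∀ g' ∈ GK j, g' (U a g) = U (cy f g' * a) (g' * g)
  inv : ∀ a, ∀ g ∈ GK j, ∀ t ∈ Hc j c, U a (g * t) = U a g

theorem ex_uf (hg1 : HG1) (iq : Iq K) (M0 : 0 < M) (c0 : 0 < c) (cop : c.Coprime M) (cn : Cn M I)
    {u : ZMod f → ℍ → ℂ} (h : Fam f M u) : ∃ U, (∀ a, Vl j M I c (u a) (U a)) ∧ Uf j c f U :=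
  (ex_vl hg1 iq M0 c0 cop cn h).imp fun _ k => ⟨k.1, k.2.1, k.2.2⟩

variable {U : ZMod f → GQ → Qb} {g γ : GQ}

theorem Uf.one (h : Uf j c f U) (m : g ∈ GK j) : g (U 1 1) = U (cy f g) g := by
  rw [h.act 1 1 (one_mem _) g m, mul_one, mul_one]

theorem Uf.com (h : Uf j c f U) (r1 : P004K.RC1) (iq : Iq K) (c0 : 0 < c) (m : g ∈ GK j)
    (m' : γ ∈ GK j) (a : ZMod f) : U a (γ * g) = U a (g * γ) := by
  rw [← h.inv a _ (mul_mem m m') _ ((r1 K j iq c c0).2.2.2.1 _ (inv_mem m') _ (inv_mem m))]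
  congr 1
  group

/-- the action is a shift on the right -/
theorem Uf.sh (h : Uf j c f U) (r1 : P004K.RC1) (iq : Iq K) (c0 : 0 < c) (m : g ∈ GK j)
    (m' : γ ∈ GK j) (a : ZMod f) : γ (U a g) = U (cy f γ * a) (g * γ) := by
  rw [h.act a g m γ m', h.com r1 iq c0 m m']

theorem Uf.hc (h : Uf j c f U) (r1 : P004K.RC1) (iq : Iq K) (c0 : 0 < c) (m : g ∈ GK j)
    (m' : γ ∈ Hc j c) (a : ZMod f) : γ (U a g) = U (cy f γ * a) g := by
  rw [h.sh r1 iq c0 m m'.1, h.inv _ g m γ m']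

/-- **sums over the group of the compositum** -/
theorem sum_cy (on : ∀ a, ∃ h ∈ Hc j c, cy f h = a) {R T : Finset GQ}
    (hR : Tv (GK j) (Hc j c ⊓ (cy f).ker) R) (hT : Tv (GK j) (Hc j c) T) {A : Type}
    [AddCommMonoid A] (G : (ZMod f)ˣ → GQ → A)
    (hG : ∀ a, ∀ g ∈ GK j, ∀ t ∈ Hc j c, G a (g * t) = G a g) :
    ∑ g ∈ R, G (cy f g) g = ∑ h ∈ T, ∑ a, G a h := by
  choose s s1 s2 using on
  rw [← hR.sum_of (T ×ˢ univ) (fun x : GQ × (ZMod f)ˣ => x.1 * s ((cy f x.1)⁻¹ * x.2))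
    (fun x m => mul_mem (hT.mem _ (mem_product.1 m).1) (s1 _).1) (fun g m => ?_)
    (fun x m y m' k => ?_) (fun g => G (cy f g) g) fun y m t _ k => by
      rw [map_mul, MonoidHom.mem_ker.1 k.2, mul_one, hG _ y m t k.1], sum_product]
  · refine sum_congr rfl fun h m => sum_congr rfl fun a _ => ?_
    rw [map_mul, s2, mul_inv_cancel_left, hG _ h (hT.mem h m) _ (s1 _)]
  · obtain ⟨h, m1, m2⟩ := hT.ex g m
    refine ⟨(h, cy f g), mem_product.2 ⟨m1, mem_univ _⟩, ?_, ?_⟩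
    · rw [mul_inv_rev, mul_assoc]
      exact (Hc j c).mul_mem ((Hc j c).inv_mem (s1 _)) m2
    · simp [s2]
  · have e : x.1 = y.1 := hT.un _ (mem_product.1 m).1 _ (mem_product.1 m').1 (by
      have := mul_mem (mul_mem (s1 ((cy f x.1)⁻¹ * x.2)) k.1) (inv_mem (s1 ((cy f y.1)⁻¹ * y.2)))
      simpa [mul_assoc] using this)
    have := MonoidHom.mem_ker.1 k.2
    simp only [map_mul, map_inv, s2, mul_inv_cancel_left] at this
    exact Prod.ext e (inv_mul_eq_one.1 this)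

theorem prod_cy (on : ∀ a, ∃ h ∈ Hc j c, cy f h = a) {R T : Finset GQ}
    (hR : Tv (GK j) (Hc j c ⊓ (cy f).ker) R) (hT : Tv (GK j) (Hc j c) T) {A : Type}
    [CommMonoid A] (G : (ZMod f)ˣ → GQ → A)
    (hG : ∀ a, ∀ g ∈ GK j, ∀ t ∈ Hc j c, G a (g * t) = G a g) :
    ∏ g ∈ R, G (cy f g) g = ∏ h ∈ T, ∏ a, G a h :=
  sum_cy (A := Additive A) on hR hT G hG

/-- **the conjugates of the norm** -/
theorem Uf.nrm (h : Uf j c f U) (on : ∀ a, ∃ h ∈ Hc j c, cy f h = a) {R T : Finset GQ}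
    (hR : Tv (GK j) (Hc j c ⊓ (cy f).ker) R) (hT : Tv (GK j) (Hc j c) T) {A B : Type} [AddGroup A]
    [Group B] {e : GQ → A} (add : ∀ g ∈ GK j, ∀ h ∈ GK j, e (g * h) = e g + e h)
    (ker : ∀ g ∈ Hc j c, e g = 0) (ψ : (ZMod f)ˣ →* B) (m : γ ∈ GK j) :
    γ (∏ g ∈ R with e g = 0 ∧ ψ (cy f g) = 1, g (U 1 1)) =
      ∏ g ∈ T with e g = e γ, ∏ a with ψ a = ψ (cy f γ), U a g := by
  have hG : ∀ a, ∀ g ∈ GK j, ∀ t ∈ Hc j c,
      (if e (g * t) = e γ ∧ ψ a = ψ (cy f γ) then U a (g * t) else 1) =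
        if e g = e γ ∧ ψ a = ψ (cy f γ) then U a g else 1 := fun a g k t k' => by
    rw [add g k t k'.1, ker t k', add_zero, h.inv a g k t k']
  have e1 := prod_cy on hR hT (fun a g => if e g = e γ ∧ ψ a = ψ (cy f γ) then U a g else 1) hG
  have e2 : (∏ g ∈ R, if e (γ * g) = e γ ∧ ψ (cy f (γ * g)) = ψ (cy f γ) then
      U (cy f (γ * g)) (γ * g) else 1) =
      ∏ g ∈ R, if e g = e γ ∧ ψ (cy f g) = ψ (cy f γ) then U (cy f g) g else 1 :=
    hR.sum_mul (M := Additive Qb) m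
    (fun g => if e g = e γ ∧ ψ (cy f g) = ψ (cy f γ) then U (cy f g) g else (1 : Qb))
    fun y k t _ k' => by rw [map_mul, MonoidHom.mem_ker.1 k'.2, mul_one]; exact hG _ y k t k'.1
  rw [map_prod, prod_filter, prod_filter]
  refine (prod_congr rfl fun g k => ?_).trans (e2.trans
    (e1.trans (prod_congr rfl fun g _ => ?_)))
  · have k := hR.mem g k
    rw [add γ m g k, map_mul, map_mul, add_eq_left, mul_eq_left, ← map_mul, ← h.one (mul_mem m k)]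
    rfl
  · rw [prod_filter]
    split_ifs with k <;> simp [k]

/-- **the conjugates of a weighted product** -/
theorem Uf.cmp (h : Uf j c f U) (on : ∀ a, ∃ h ∈ Hc j c, cy f h = a) {R T : Finset GQ}
    (hR : Tv (GK j) (Hc j c ⊓ (cy f).ker) R) (hT : Tv (GK j) (Hc j c) T) {A : Type} [AddGroup A]
    {e : GQ → A} (add : ∀ g ∈ GK j, ∀ h ∈ GK j, e (g * h) = e g + e h)
    (ker : ∀ g ∈ Hc j c, e g = 0) (w : (ZMod f)ˣ → ℕ) (m : γ ∈ GK j) :
    γ (∏ g ∈ R with e g = 0, g (U 1 1) ^ w (cy f g)) =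
      ∏ g ∈ T with e g = e γ, ∏ a : (ZMod f)ˣ, U a g ^ w ((cy f γ)⁻¹ * a) := by
  have hG : ∀ a : (ZMod f)ˣ, ∀ g ∈ GK j, ∀ t ∈ Hc j c,
      (if e (g * t) = e γ then U a (g * t) ^ w ((cy f γ)⁻¹ * a) else 1) =
        if e g = e γ then U a g ^ w ((cy f γ)⁻¹ * a) else 1 := fun a g k t k' => by
    rw [add g k t k'.1, ker t k', add_zero, h.inv a g k t k']
  have e1 := prod_cy on hR hT
    (fun a g => if e g = e γ then U a g ^ w ((cy f γ)⁻¹ * a) else 1) hG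
  have e2 : (∏ g ∈ R, if e (γ * g) = e γ then
      U (cy f (γ * g)) (γ * g) ^ w ((cy f γ)⁻¹ * cy f (γ * g)) else 1) =
      ∏ g ∈ R, if e g = e γ then U (cy f g) g ^ w ((cy f γ)⁻¹ * cy f g) else 1 :=
    hR.sum_mul (M := Additive Qb) m
    (fun g => if e g = e γ then U (cy f g) g ^ w ((cy f γ)⁻¹ * cy f g) else (1 : Qb))
    fun y k t _ k' => by rw [map_mul, MonoidHom.mem_ker.1 k'.2, mul_one]; exact hG _ y k t k'.1
  rw [map_prod, prod_filter, prod_filter]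
  refine (prod_congr rfl fun g k => ?_).trans (e2.trans
    (e1.trans (prod_congr rfl fun g _ => ?_)))
  · have k := hR.mem g k
    rw [add γ m g k, add_eq_left, ← h.one (mul_mem m k), map_mul, inv_mul_cancel_left]
    split_ifs
    · rw [map_pow]; rfl
    · rfl
  · split_ifs with k <;> simp [k]

end Vale.Agent.P014Z.Lk.Cy
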