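import Mathlib

/-! # P014Z, block Lk: the leading term of a principal unit (valued fields) -/

set_option autoImplicit false
set_option linter.all false

namespace Vale.Agent.P014Z.Lk.La

variable {L Γ₀ : Type} [Field L] [LinearOrderedCommGroupWithZero Γ₀] (V : Valuation L Γ₀)

/-- `x ≡ 1 + ϖ a` modulo `ϖ 𝔪` -/
structure Lm (ϖ x a : L) : Prop where
  int : V a ≤ 1
  cg : V ((x - 1) / ϖ - a) < 1

variable {V} {ϖ ϖ' x y a b u : L}

theorem mul_lt (h : V x < 1) (h' : V y ≤ 1) : V (x * y) < 1 := by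
  rw [map_mul]; exact mul_lt_one_of_lt_of_le h h'

theorem mul_lt' (h : V x ≤ 1) (h' : V y < 1) : V (x * y) < 1 := mul_comm x y ▸ mul_lt h' h

theorem mul_le (h : V x ≤ 1) (h' : V y ≤ 1) : V (x * y) ≤ 1 := by
  rw [map_mul]; exact mul_le_one' h h'

theorem pow_le (h : V x ≤ 1) (n : ℕ) : V (x ^ n) ≤ 1 := by
  rw [map_pow]; exact pow_le_one' h n

theorem nat_le (n : ℕ) : V n ≤ 1 := by
  induction n with
  | zero => simp
  | succ n ih => push_cast; exact V.map_add_le ih (by simp)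

theorem int_le (n : ℤ) : V n ≤ 1 := by
  obtain ⟨n, rfl | rfl⟩ := n.eq_nat_or_neg <;> simpa using nat_le n

theorem le_of (h : V (x - y) < 1) (h' : V y ≤ 1) : V x ≤ 1 := by
  simpa using V.map_add_le h.le h'

theorem eq_one (h : V (x - 1) < 1) : V x = 1 := by
  simpa using V.map_one_add_of_lt h

theorem pow_cg (h : V (x - y) < 1) (hy : V y ≤ 1) (n : ℕ) : V (x ^ n - y ^ n) < 1 := by
  induction n with
  | zero => simp
  | succ n ih =>
    rw [show x ^ (n + 1) - y ^ (n + 1) = (x ^ n - y ^ n) * x + y ^ n * (x - y) by ring]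
    exact V.map_add_lt (mul_lt ih (le_of h hy)) (mul_lt' (pow_le hy n) h)

theorem Lm.q (h : Lm V ϖ x a) : V ((x - 1) / ϖ) ≤ 1 := le_of h.cg h.int

theorem Lm.self (h : V ((x - 1) / ϖ) ≤ 1) : Lm V ϖ x ((x - 1) / ϖ) := ⟨h, by simp⟩

theorem Lm.le (h0 : ϖ ≠ 0) (h : Lm V ϖ x a) : V (x - 1) ≤ V ϖ := by
  have := h.q
  rwa [map_div₀, div_le_one₀ (V.pos_iff.2 h0)] at this

theorem Lm.of_le (h0 : ϖ ≠ 0) (h : V (x - 1) ≤ V ϖ) : Lm V ϖ x ((x - 1) / ϖ) :=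
  .self (by rwa [map_div₀, div_le_one₀ (V.pos_iff.2 h0)])

theorem lm_zero (h0 : ϖ ≠ 0) : Lm V ϖ x 0 ↔ V (x - 1) < V ϖ := by
  rw [← div_lt_one₀ (V.pos_iff.2 h0), ← map_div₀]
  exact ⟨fun h => by simpa using h.cg, fun h => ⟨by simp, by simpa using h⟩⟩

theorem Lm.lt (h0 : ϖ ≠ 0) (h1 : V ϖ < 1) (h : Lm V ϖ x a) : V (x - 1) < 1 := (h.le h0).trans_lt h1

theorem Lm.congr (h : Lm V ϖ x a) (e : V (a - b) < 1) : Lm V ϖ x b :=
  ⟨le_of (V.map_sub_swap a b ▸ e) h.int, by simpa using V.map_add_lt h.cg e⟩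

theorem Lm.uniq (h : Lm V ϖ x a) (h' : Lm V ϖ x b) : V (a - b) < 1 := by
  simpa using V.map_sub_lt h'.cg h.cg

theorem Lm.one : Lm V ϖ 1 0 := ⟨by simp, by simp⟩

theorem Lm.mul (h0 : ϖ ≠ 0) (h1 : V ϖ < 1) (h : Lm V ϖ x a) (h' : Lm V ϖ y b) :
    Lm V ϖ (x * y) (a + b) := ⟨V.map_add_le h.int h'.int, by
  rw [show (x * y - 1) / ϖ - (a + b) = ((x - 1) / ϖ - a) + ((y - 1) / ϖ - b) +
    (x - 1) * ((y - 1) / ϖ) by ring]
  exact V.map_add_lt (V.map_add_lt h.cg h'.cg) (mul_lt (h.lt h0 h1) h'.q)⟩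

theorem Lm.pow (h0 : ϖ ≠ 0) (h1 : V ϖ < 1) (h : Lm V ϖ x a) (n : ℕ) : Lm V ϖ (x ^ n) (n * a) := by
  induction n with
  | zero => simpa using Lm.one
  | succ n ih => simpa [pow_succ, add_mul] using ih.mul h0 h1 h

theorem Lm.inv (h0 : ϖ ≠ 0) (h1 : V ϖ < 1) (h : Lm V ϖ x a) : Lm V ϖ x⁻¹ (-a) := by
  have v := eq_one (h.lt h0 h1)
  have x0 : x ≠ 0 := V.ne_zero_iff.1 (by simp [v])
  refine ⟨by simpa using h.int, ?_⟩
  rw [show (x⁻¹ - 1) / ϖ - -a = (x - 1) * ((x - 1) / ϖ * x⁻¹) - ((x - 1) / ϖ - a) by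
    field_simp; ring]
  exact V.map_sub_lt (mul_lt (h.lt h0 h1) (mul_le h.q (by simp [v]))) h.cg

theorem Lm.zpow (h0 : ϖ ≠ 0) (h1 : V ϖ < 1) (h : Lm V ϖ x a) (n : ℤ) : Lm V ϖ (x ^ n) (n * a) := by
  obtain ⟨n, rfl | rfl⟩ := n.eq_nat_or_neg
  · simpa using h.pow h0 h1 n
  · simpa using (h.pow h0 h1 n).inv h0 h1

theorem Lm.prod (h0 : ϖ ≠ 0) (h1 : V ϖ < 1) {ι : Type} (s : Finset ι) {x a : ι → L}
    (h : ∀ i ∈ s, Lm V ϖ (x i) (a i)) : Lm V ϖ (∏ i ∈ s, x i) (∑ i ∈ s, a i) := by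
  classical
  induction s using Finset.induction_on with
  | empty => simpa using Lm.one
  | insert i s hi ih =>
    rw [Finset.prod_insert hi, Finset.sum_insert hi]
    exact (h i (Finset.mem_insert_self _ _)).mul h0 h1 (ih fun k m => h k (Finset.mem_insert_of_mem m))

/-- transport by an isometry -/
theorem Lm.map {F : Type} [FunLike F L L] [RingHomClass F L L] (σ : F) (hσ : ∀ z, V (σ z) = V z)
    (h : Lm V ϖ x a) : Lm V (σ ϖ) (σ x) (σ a) :=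
  ⟨(hσ a).trans_le h.int, by
    rw [← map_one σ, ← map_sub, ← map_div₀, ← map_sub, hσ]; exact h.cg⟩

theorem Lm.of_map {F : Type} [FunLike F L L] [RingHomClass F L L] (σ : F) (hσ : ∀ z, V (σ z) = V z)
    (h : Lm V (σ ϖ) (σ x) (σ a)) : Lm V ϖ x a :=
  ⟨(hσ a).symm.trans_le h.int, by
    rw [← hσ, map_sub σ, map_div₀ σ, map_sub σ, map_one σ]; exact h.cg⟩

/-- change of the parameter -/
theorem Lm.par (h0 : ϖ' ≠ 0) (e : V (ϖ' / ϖ - u) < 1) (hu : V u ≤ 1) (h : Lm V ϖ' x a) :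
    Lm V ϖ x (u * a) := ⟨mul_le hu h.int, by
  rw [show (x - 1) / ϖ - u * a = (ϖ' / ϖ - u) * ((x - 1) / ϖ') + u * ((x - 1) / ϖ' - a) by
    field_simp; ring]
  exact V.map_add_lt (mul_lt e h.q) (mul_lt' hu h.cg)⟩

section prime

variable {p : ℕ} (hp : p.Prime)
include hp

theorem pow_sub (x : L) (h : V (x - 1) ≤ 1) :
    ∃ r, V r ≤ 1 ∧ x ^ p - 1 = (x - 1) ^ p + p * (x - 1) * r := by
  obtain ⟨r, hr⟩ := exists_add_pow_prime_eq hp (1 : V.valuationSubring) ⟨x - 1, h⟩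
  refine ⟨r, r.2, ?_⟩
  have := congrArg Subtype.val hr
  simp only [SubmonoidClass.coe_pow, AddMemClass.coe_add, MulMemClass.coe_mul, OneMemClass.coe_one,
    SubringClass.coe_natCast, add_sub_cancel, one_pow, mul_one] at this
  linear_combination this

/-- `p`-th powers contract -/
theorem pow_lt (h1 : V (p : L) < 1) (h : V (x - 1) < 1) (h0 : x ≠ 1) : V (x ^ p - 1) < V (x - 1) := by
  obtain ⟨r, hr, e⟩ := pow_sub hp x h.le
  have v : 0 < V (x - 1) := V.pos_iff.2 (sub_ne_zero.2 h0)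
  rw [e, show (x - 1) ^ p + p * (x - 1) * r = (x - 1) * ((x - 1) ^ (p - 1) + p * r) by
    rw [mul_add, ← pow_succ', Nat.sub_add_cancel hp.pos]; ring, map_mul]
  refine mul_lt_of_lt_one_right v (V.map_add_lt ?_ (mul_lt h1 hr))
  rw [map_pow]
  exact pow_lt_one₀ zero_le h (by have := hp.two_le; omega)

/-- `p`-th powers are invisible below the level `p` -/
theorem Lm.pth {π : L} (h0 : π ≠ 0) (h1 : V π < 1) (hπ : V (p : L) ≤ V π ^ (p - 1))
    (h : V (y - 1) ≤ V π) {j : ℕ} (hj : j < p) : Lm V (π ^ j) (y ^ p) 0 := by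
  obtain ⟨r, hr, e⟩ := pow_sub hp y (h.trans h1.le)
  have v : 0 < V π := V.pos_iff.2 h0
  rw [lm_zero (pow_ne_zero _ h0), e, map_pow]
  refine lt_of_le_of_lt (b := V π ^ p) (V.map_add_le ?_ ?_) (pow_lt_pow_right_of_lt_one₀ v h1 hj)
  · rw [map_pow]; exact pow_le_pow_left₀ zero_le h p
  · rw [map_mul, map_mul]
    calc _ ≤ V π ^ (p - 1) * V π * 1 := by gcongr
      _ = _ := by rw [mul_one, ← pow_succ, Nat.sub_add_cancel hp.pos]

/-- **the link at level `p`**: no hypothesis of ramification -/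
theorem link {F : Type} [FunLike F L L] [RingHomClass F L L] (φ : F) (hφ : ∀ z, V (φ z) = V z)
    (h0 : (p : L) ≠ 0) (h1 : V (p : L) < 1) {t w : L} (ht : V (t - 1) < 1)
    (h : Lm V p (φ t / t ^ p) w) : Lm V p (φ t) w := by
  have v := eq_one ht
  have t0 : t ≠ 0 := V.ne_zero_iff.1 (by simp [v])
  have e : φ t - 1 = (φ t / t ^ p - 1) * t ^ p + (t ^ p - 1) := by field_simp; ring
  have a : V ((φ t / t ^ p - 1) * t ^ p) ≤ V (p : L) := by simpa [v] using h.le h0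
  have b : V (φ t - 1) = V (t - 1) := by rw [← hφ (t - 1), map_sub φ, map_one φ]
  have c : V (t - 1) ≤ V (p : L) := by
    by_contra! c
    have n : t ≠ 1 := by rintro rfl; simp at c
    exact absurd (b ▸ e ▸ V.map_add_lt (a.trans_lt c) (pow_lt hp h1 ht n)) (lt_irrefl _)
  have d : Lm V p (t ^ p) 0 := by
    rcases eq_or_ne t 1 with rfl | n
    · simpa using Lm.one
    · exact (lm_zero h0).2 ((pow_lt hp h1 ht n).trans_le c)
  simpa [t0] using h.mul h0 h1 d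

/-- `φ s = s ^ p (1 + p w)`, `s ^ o ≡ 1` -/
theorem link_pow {F : Type} [FunLike F L L] [RingHomClass F L L] (φ : F) (hφ : ∀ z, V (φ z) = V z)
    (h0 : (p : L) ≠ 0) (h1 : V (p : L) < 1) {s w : L} {o : ℕ} (hs : V (s ^ o - 1) < 1)
    (h : Lm V p (φ s / s ^ p) w) : Lm V p (φ s ^ o) (o * w) := by
  rw [← map_pow]
  refine link hp φ hφ h0 h1 hs ?_
  rw [map_pow, pow_right_comm, ← div_pow]
  exact h.pow h0 h1 o

/-- `s ^ p = φ s (1 + p w)`, `s ^ o ≡ 1` -/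
theorem link_pow' {F : Type} [FunLike F L L] [RingHomClass F L L] (φ : F) (hφ : ∀ z, V (φ z) = V z)
    (h0 : (p : L) ≠ 0) (h1 : V (p : L) < 1) {s w : L} {o : ℕ} (hs : V (s ^ o - 1) < 1)
    (h : Lm V p (s ^ p / φ s) w) : Lm V p (φ s ^ o) (-(o * w)) := by
  simpa using link_pow hp φ hφ h0 h1 hs (by simpa using h.inv h0 h1 : Lm V p (φ s / s ^ p) (-w))

end prime

section root

variable {p : ℕ} {ζ : L}

theorem geo (h : V (1 - ζ) < 1) (h0 : ζ ≠ 1) (n : ℕ) : V ((1 - ζ ^ n) / (1 - ζ) - n) < 1 := by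
  have h' : V (ζ - 1) < 1 := V.map_sub_swap 1 ζ ▸ h
  have : 1 - ζ ≠ 0 := sub_ne_zero.2 h0.symm
  induction n with
  | zero => simp
  | succ n ih =>
    rw [show (1 - ζ ^ (n + 1)) / (1 - ζ) - (n + 1 : ℕ) =
      ((1 - ζ ^ n) / (1 - ζ) - n) + (ζ ^ n - 1 ^ n) by push_cast; field_simp; ring]
    exact V.map_add_lt ih (pow_cg h' (by simp) n)

theorem nat_one (hp : p.Prime) (h1 : V (p : L) < 1) {n : ℕ} (hn : ¬ p ∣ n) : V (n : L) = 1 := by
  by_contra c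
  have c := lt_of_le_of_ne (nat_le (V := V) n) c
  obtain ⟨a, b, e⟩ := Nat.isCoprime_iff_coprime.2 ((Nat.Prime.coprime_iff_not_dvd hp).2 hn)
  have e' : (a : L) * p + b * n = 1 := by exact_mod_cast congrArg (Int.cast : ℤ → L) e
  have := V.map_add_lt (mul_lt' (int_le a) h1) (mul_lt' (int_le b) c)
  simp [e'] at this

theorem int_lt (h1 : V (p : L) < 1) {m n : ℤ} (h : (m : ZMod p) = n) : V ((m : L) - n) < 1 := by
  obtain ⟨k, e⟩ := (ZMod.intCast_eq_intCast_iff_dvd_sub _ _ _).1 h.symm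
  rw [← Int.cast_sub, e]
  push_cast
  exact mul_lt h1 (int_le k)

variable (hp : p.Prime) (hζ : IsPrimitiveRoot ζ p) (h1 : V (p : L) < 1)
include hp hζ h1

theorem pi_lt : V (1 - ζ) < 1 := by
  have v : V ζ = 1 := (pow_eq_one_iff_of_nonneg zero_le hp.ne_zero).1 (by
    rw [← map_pow, hζ.pow_eq_one, map_one])
  have l : V (ζ - 1) ≤ 1 := V.map_sub_le v.le (by simp)
  obtain ⟨r, hr, e⟩ := pow_sub hp ζ l
  rw [hζ.pow_eq_one, sub_self, eq_comm, add_eq_zero_iff_eq_neg] at e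
  have : V (ζ - 1) ^ p < 1 := by
    rw [← map_pow, e, V.map_neg]; exact mul_lt (mul_lt h1 l) hr
  rw [V.map_sub_swap]
  exact lt_of_le_of_ne l fun c => by simp [c] at this

/-- `π ^ (p - 1) ≡ - p` -/
theorem pi_pow : V ((p : L) / (1 - ζ) ^ (p - 1) - -1) < 1 := by
  haveI := Fact.mk hp
  have e : p - 1 + 1 = p := Nat.sub_add_cancel hp.pos
  have h := IsPrimitiveRoot.prod_one_sub_pow_eq_order (n := p - 1) (μ := ζ) (e.symm ▸ hζ)
  rw [← Nat.cast_succ, Nat.succ_eq_add_one, e] at h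
  have key : ∀ n, V ((∏ k ∈ Finset.range n, (1 - ζ ^ (k + 1))) / (1 - ζ) ^ n - n.factorial) < 1 :=
    fun n => by
    induction n with
    | zero => simp
    | succ n ih =>
      have g := geo (pi_lt hp hζ h1) (hζ.ne_one hp.one_lt) (n + 1)
      rw [Finset.prod_range_succ, pow_succ (1 - ζ), mul_div_mul_comm, Nat.factorial_succ, Nat.cast_mul,
        show ∀ A B C D : L, A * B - C * D = (A - D) * B + D * (B - C) from fun _ _ _ _ => by ring]
      exact V.map_add_lt (mul_lt ih (le_of g (nat_le _))) (mul_lt' (nat_le _) g)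
  have k := key (p - 1)
  rw [h] at k
  have w := int_lt (V := V) h1 (m := (p - 1).factorial) (n := -1) (by simp [ZMod.wilsons_lemma])
  convert V.map_add_lt k w using 2
  push_cast; ring

theorem pi_val : V (p : L) = V (1 - ζ) ^ (p - 1) := by
  have := eq_one (x := -((p : L) / (1 - ζ) ^ (p - 1))) (by
    rw [← V.map_neg]; simpa [add_comm] using pi_pow hp hζ h1)
  rwa [V.map_neg, map_div₀, div_eq_one_iff_eq (V.ne_zero_iff.2 (pow_ne_zero _
    (sub_ne_zero.2 (hζ.ne_one hp.one_lt).symm))), map_pow] at this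

/-- from the level `p` to the level `π ^ (p - 1)` -/
theorem Lm.to_pi (h0 : (p : L) ≠ 0) (h : Lm V p x a) : Lm V ((1 - ζ) ^ (p - 1)) x (-a) := by
  simpa using h.par h0 (pi_pow hp hζ h1) (by simp)

/-- **equivariance** -/
theorem Lm.gal {F : Type} [FunLike F L L] [RingHomClass F L L] (σ : F) (hσ : ∀ z, V (σ z) = V z)
    {n j : ℕ} (hn : σ ζ = ζ ^ n) (h : Lm V ((1 - ζ) ^ j) x a) :
    Lm V ((1 - ζ) ^ j) (σ x) (n ^ j * σ a) := by
  have π0 : 1 - ζ ≠ 0 := sub_ne_zero.2 (hζ.ne_one hp.one_lt).symm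
  refine (h.map σ hσ).par ((map_ne_zero σ).2 (pow_ne_zero _ π0)) ?_ (pow_le (nat_le n) j)
  rw [map_pow σ, map_sub σ, map_one σ, hn, ← div_pow]
  exact pow_cg (geo (pi_lt hp hζ h1) (hζ.ne_one hp.one_lt) n) (nat_le n) j

/-- **eigenvalues of inertia**: `τ x = x ^ m y ^ p` forces `(n ^ j - m) λ ≡ 0` -/
theorem Lm.eig {F : Type} [FunLike F L L] [RingHomClass F L L] (τ : F) (hτ : ∀ z, V (τ z) = V z)
    (hi : ∀ z, V z ≤ 1 → V (τ z - z) < 1) {n j : ℕ} {m : ℤ} (hn : τ ζ = ζ ^ n) (hj : j < p) (j0 : j ≠ 0)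
    (h : Lm V ((1 - ζ) ^ j) x a) (hy : V (y - 1) ≤ V (1 - ζ)) (e : τ x = x ^ m * y ^ p) :
    V ((n ^ j - m) * a) < 1 := by
  have π0 : 1 - ζ ≠ 0 := sub_ne_zero.2 (hζ.ne_one hp.one_lt).symm
  have l := pi_lt hp hζ h1
  have l' : V ((1 - ζ) ^ j) < 1 := by rw [map_pow]; exact pow_lt_one₀ zero_le l j0
  have := (h.gal hp hζ h1 τ hτ hn).uniq (e ▸ (h.zpow (pow_ne_zero _ π0) l' m).mul (pow_ne_zero _ π0) l'
    (Lm.pth hp π0 l (pi_val hp hζ h1).le hy hj))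
  rw [show (n ^ j - m) * a = (n ^ j * τ a - (m * a + 0)) - n ^ j * (τ a - a) by ring]
  exact V.map_sub_lt this (mul_lt' (pow_le (nat_le n) j) (hi a h.int))

end root

end Vale.Agent.P014Z.Lk.La
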