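import Vale.Agent.P014Z.Lk.Br0

/-! # P014Z, block LK, row BRV: the leading terms of the unit -/

set_option autoImplicit false
set_option linter.all false

noncomputable section

namespace Vale.Agent.P014Z.Lk

open NumberField UpperHalfPlane CongruenceSubgroup Finset PowerSeries
open scoped Classical
open Vale.Agent.P022 (Qb GQ GK below)
open Vale.Agent.P022.H218.L3 Vale.Agent.P022.H236.L3
open Vale.Agent.P027M.S (Inert)
open Vale.Agent.P022D.W (dec inP_le_dec conj_inP phi_mem)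
open Vale.Agent.P022E.GW (Ov Fb)
open Vale.Agent.P022K.G2 (oz zt zt_pow zt_prim Tv oz_spec)
open Vale.Agent.P014U P004K
open P027M.M (io)
open P014Y.F (Crv Fld)
open P014Y.Mu (F)
open P004R (Vn)
open P004R.Sf (Ao Zo)
open Gl Sf
open Cy (cy Vl cy_one cy_inert)
open Su (us)
open Qf (ic ic_apply)

variable [Pp]

namespace Br

variable {e : Crv} {D : Da e} {b : Fld e} {n : ℕ} (L : Lt D b n)

theorem c_pos : 0 < L.c := zero_lt_one.trans L.lz.one

theorem c_out {l : ℕ} (p : l.Prime) (m : l ∈ e.S) : ¬ l ∣ L.c := fun d =>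
  (L.lz.ly.out l p d).1 (List.mem_toFinset.2 m)

variable (D) in
theorem sup (l : ℕ) (p : l.Prime) (d : l ∣ D.f * pp) : l ∈ e.S :=
  (p.dvd_mul.1 d).elim (D.dc.sup l p) fun d =>
    (Nat.prime_dvd_prime_iff_eq p pp_prime).1 d ▸ e.pm

theorem c_cop : L.c.Coprime (D.f * pp) :=
  Nat.coprime_of_dvd fun l p d k => c_out L p (sup D l p k) d

variable (D) in
theorem m_pos : 0 < D.f * pp := mul_pos (NeZero.pos _) pp_prime.pos

/-- from the function to its values -/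
theorem ew (hg1 : HG1) (hol : HOL) {a : ℕ} {G : 𝓞 Qb} (hG : G ∉ e.P pp) {W : ℍ → ℂ}
    (E : Ef D.ψ a G W) {h : GQ → Qb}
    (v : Vl b.j ((D.f * pp) ^ 2) (Fi b (D.f * pp)) L.c W h) :
    (∀ g ∈ b.Γ, Ip (e.P pp) (h g)) ∧ Ew b D.ψ a L.c fun g => (G : Qb)⁻¹ * h g := by
  have := (e.ov pp e.pm).2.1
  obtain ⟨hW, s, m, x, k⟩ := E
  have co : ∀ n : ℕ, (ls 0 (map (ic (RingHom.id _)) s)).coeff n = io (coeff n s : 𝓞 Qb) := fun n => by
    have := coeff_ls 0 (map (ic (RingHom.id _)) s) n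
    rwa [zero_add, coeff_map] at this
  refine ⟨fun g q => ?_, (fun _ => io (G : Qb)⁻¹) * W, mul_mem (Bdd.const _).1 hW,
    HahnSeries.C (io (G : Qb)⁻¹) * ls 0 (map (ic (RingHom.id _)) s), ?_, ?_, fun n q => ?_,
    fun n => ⟨(G : Qb)⁻¹ * (coeff n s : 𝓞 Qb), ?_, ?_⟩, fun g q σ τ τ' a1 a2 a3 => ?_⟩
  · obtain ⟨σ, τ, τ', a1, a2, a3⟩ := ex_pt b hg1 (m_pos D) (sup D) (c_pos L) (c_cop L) g
    refine hol e b _ _ (m_pos D) (dvd_mul_left _ _) (sup D) (c_out L pp_prime e.pm) W hW _ m x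
      (fun n => ?_) g q σ τ τ' a1 a2 a3 _ (v g q σ τ τ' a1 a2 a3)
    rcases lt_or_ge n 0 with z | z
    · exact ⟨0, by rw [coeff_ls_of_lt _ _ z, map_zero], (Ao _).zero_mem⟩
    · obtain ⟨n, rfl⟩ := Int.eq_ofNat_of_zero_le z
      exact ⟨_, co n, ip_int _⟩
  · rw [inc_mul (Bdd.const _).1 hW, inc_const]
    exact mul_mem (algebraMap_mem _ _) m
  · rw [inc_mul (Bdd.const _).1 hW, inc_const]
    exact (ExM.const 1 _).mul x
  · rw [HahnSeries.C_mul_eq_smul, HahnSeries.coeff_smul, coeff_ls_of_lt _ _ q, smul_zero]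
  · rw [HahnSeries.C_mul_eq_smul, HahnSeries.coeff_smul, co, smul_eq_mul, map_mul]
  · obtain ⟨t, ht⟩ := k n
    have := congrArg (fun x : 𝓞 Qb => (x : Qb)) ht
    simp only [RingOfIntegers.coe_eq_algebraMap, map_sub, map_mul, map_natCast] at this
    convert ip_mul (ip_inv hG) (ip_int t) using 1
    have g0 := ne_of hG
    have p0 := pi_ne
    rw [← pi_coe] at p0 ⊢
    simp only [RingOfIntegers.coe_eq_algebraMap] at g0 p0 ⊢
    field_simp
    linear_combination this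
  · rw [map_mul, ← v g q σ τ τ' a1 a2 a3]
    rfl

variable {L} {U : ZMod D.f → GQ → Qb}

/-- inertia fixes the values -/
theorem fix (r1 : RC1) (r2 : RC2) (u : Uf L U) {i g : GQ} (a : Inert (e.P pp) i)
    (c : cy D.f i = 1) (m : g ∈ b.Γ) (t : ZMod D.f) : i (U t g) = U t g := by
  have k := b.le pp e.pm (inP_le_dec a)
  have h := P004R.Wr.inert_hc r2 b.iq (e.ov pp e.pm) (c_out L pp_prime e.pm) k a
  rw [u.gal t g m i k, c, Units.val_one, one_mul, show i * g = g * (g⁻¹ * i * g⁻¹⁻¹) by group,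
    u.inv t g m _ ((r1 _ b.j b.iq _ (c_pos L)).2.2.1.conj_mem i h _)]

theorem cy1 {P : Ideal (𝓞 Qb)} (o : Ov pp P) {i : GQ} (a : Inert P i) (z : oz pp i = 1) :
    cy D.f i = 1 := cy_one.2 fun x hx => by
  by_cases d : pp ∣ D.f
  swap
  · exact cy_one.1 (cy_inert o d a) x hx
  obtain ⟨f', e1⟩ := d
  have n : ¬ pp ∣ f' := fun k => D.dc.sq (by rw [e1, pow_two]; exact mul_dvd_mul_left _ k)
  have x0 : x ≠ 0 := fun k => by
    rw [k, zero_pow (NeZero.ne _)] at hx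
    exact zero_ne_one hx
  have e2 : i (x ^ pp) = x ^ pp := P014T.Dr.inert_Hm o n a _ (by rw [← pow_mul, ← e1, hx])
  have e3 : i (x ^ f') = x ^ f' := by
    obtain ⟨k, hk⟩ := P022K.G2.pw_ex (p := pp) (x := x ^ f') (by rw [← pow_mul, mul_comm, ← e1, hx])
    rw [hk, P022K.G2.oz_pw, z, one_mul]
  have := pow_gcd_eq_one.2 ⟨show (i x / x) ^ pp = 1 by
      rw [div_pow, ← map_pow, e2, div_self (pow_ne_zero _ x0)],
    show (i x / x) ^ f' = 1 by rw [div_pow, ← map_pow, e3, div_self (pow_ne_zero _ x0)]⟩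
  rwa [(pp_prime.coprime_iff_not_dvd.2 n).gcd_eq_one, pow_one, div_eq_one_iff_eq x0] at this

end Br

open Br

/-- **the leading terms of the unit** -/
theorem brv (hg1 : HG1) (r1 : RC1) (r2 : RC2) (gsz : GSZ) (fn0 : FN0) (fn1 : FN1) (prd : PRD)
    (wvx : WVX) (hol : HOL) : BRV := fun e D b n L a ha => by
  refine ⟨wvx e D b n L a ha, ?_⟩
  obtain ⟨U, u⟩ := prd e D b n L
  have o := e.ov pp e.pm
  have := o.2.1
  have : NeZero (pp ^ (n + 1)) := ⟨pow_ne_zero _ pp_prime.ne_zero⟩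
  obtain ⟨-, -, -, j1, j0⟩ := gsz e D a ha
  have mem : ∀ {m : ℕ}, ∀ g ∈ L.R.filter fun g => L.χ g = m, g ∈ b.Γ := fun g k =>
    L.tv.mem g (mem_filter.1 k).1
  have pz : Zp (e.P pp) (zt pp - 1) := zp_of (pi_mem o)
  obtain ⟨x, hx⟩ : ∃ x : GQ → Qb, ∀ g, x g = ∏ t : (ZMod D.f)ˣ, U t g ^ nx D.ψ a t :=
    ⟨_, fun _ => rfl⟩
  have x0 : ∀ g ∈ b.Γ, x g ≠ 0 := fun g m =>
    hx g ▸ prod_ne_zero_iff.2 fun t _ => pow_ne_zero _ (u.ne _ g m)
  have pr : ∀ m : ℕ, (L.γ ^ m) (L.X a) = ∏ g ∈ L.R with L.χ g = m, x g := fun m => by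
    simp only [u.prd, hx]
  by_cases d : pp ∣ D.f
  · obtain ⟨G, hG, W, E, k, hk⟩ := fn1 e D a _ _ _ ha L.sm d
    obtain ⟨z, hz⟩ : ∃ z : GQ → Qb, ∀ g, z g = ∏ t : (ZMod D.f)ˣ, U t g ^ k t := ⟨_, fun _ => rfl⟩
    have z0 : ∀ g ∈ b.Γ, z g ≠ 0 := fun g m =>
      hz g ▸ prod_ne_zero_iff.2 fun t _ => zpow_ne_zero _ (u.ne _ g m)
    have p0 := pow_ne_zero (lv D.k a) pi_ne
    obtain ⟨h, hh⟩ : ∃ h : GQ → Qb, ∀ g ∈ b.Γ,
        x g = z g ^ pp * (1 + (zt pp - 1) ^ lv D.k a * h g) :=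
      ⟨fun g => (x g / z g ^ pp - 1) / (zt pp - 1) ^ lv D.k a, fun g m => by
        have := z0 g m
        field_simp
        ring⟩
    obtain ⟨ip, w⟩ := ew L hg1 hol hG E (h := h) fun g m σ τ τ' a1 a2 a3 => by
      have := hk τ'
      simp only [fun t => u.vl t g m σ τ τ' a1 a2 a3, ← map_pow, ← map_zpow₀, ← map_prod, ← hx,
        ← hz] at this
      rw [hh g m, map_mul, mul_right_inj' ((map_ne_zero _).2 (pow_ne_zero _ (z0 g m))), map_add,
        map_one, map_mul, add_right_inj, mul_right_inj' ((map_ne_zero _).2 p0)] at this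
      exact this.symm
    refine ⟨_, fun m => ∑ g ∈ L.R with L.χ g = m, h g, w, fun m => ?_, fun l => ?_⟩
    · obtain ⟨i1, r, i2, i3⟩ := pr1 (L.R.filter fun g => L.χ g = m) (h := h)
        (w := (zt pp - 1) ^ lv D.k a) (by
          rw [show lv D.k a = lv D.k a - 1 + 1 by have := (j1 d).1; omega, pow_succ]
          exact zp_mul ((Ao _).pow_mem (zp_ip pz) _) pz) fun g q => ip g (mem g q)
      have y0 := prod_ne_zero_iff.2 fun g q => z0 g (mem (m := m) g q)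
      refine ⟨i1, _, y0, fun i a1 a2 => ?_, ?_⟩
      · rw [map_prod]
        refine prod_congr rfl fun g q => ?_
        simp only [hz, map_prod, map_zpow₀, fix r1 r2 u a1 (cy1 o a1 a2) (mem g q)]
      · rw [pr, prod_congr rfl fun g q => hh g (mem g q), prod_mul_distrib, prod_pow, i3,
          mul_div_cancel_left₀ _ (pow_ne_zero _ y0), add_sub_cancel_left, mul_div_cancel_left₀ _ p0,
          add_sub_cancel_left]
        exact i2
    · refine forall₂_congr fun i _ => ?_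
      simp only [fib, mul_left_comm _ (G : Qb)⁻¹, ← mul_sum, zp_unit' hG]
  obtain ⟨G, hG, W, E, hk⟩ := fn0 e D a _ _ _ ha L.sm d
  have fm : b.φ pp ∈ dec (e.P pp) := phi_mem pp_prime o.2.1 (b.ch.frb pp e.pm)
  have p0 : (pp : Qb) ≠ 0 := Nat.cast_ne_zero.2 pp_prime.ne_zero
  have pp0 : Zp (e.P pp) (pp : Qb) := by simpa using zp_of o.2.2
  obtain ⟨h, hh⟩ : ∃ h : GQ → Qb, ∀ g ∈ b.Γ, x g ^ pp = b.φ pp (x g) * (1 + pp * h g) :=
    ⟨fun g => (x g ^ pp / b.φ pp (x g) - 1) / pp, fun g m => by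
      have := (map_ne_zero (b.φ pp)).2 (x0 g m)
      field_simp
      ring⟩
  obtain ⟨ip, w⟩ := ew L hg1 hol hG E (h := h) fun g m σ τ τ' a1 a2 a3 => by
    obtain ⟨τ'', a4⟩ := P004R.Qf.ex_mul pp τ'
    have := hk τ' τ'' (a4 pp_prime.pos)
    simp only [fun t => u.vl t g m σ τ τ' a1 a2 a3, ← map_pow, ← map_prod, ← hx,
      fun t => u.sft d t g m σ τ τ' τ'' a1 a2 a3 (a4 pp_prime.pos)] at this
    rw [hh g m, map_mul, mul_right_inj' ((map_ne_zero _).2 ((map_ne_zero _).2 (x0 g m))), map_add,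
      map_one, map_mul, map_natCast, add_right_inj,
      mul_right_inj' (Nat.cast_ne_zero.2 pp_prime.ne_zero)] at this
    exact this.symm
  obtain ⟨ε, hε⟩ := ex_eps
  have e0 : (-ε : 𝓞 Qb) ∉ e.P pp := fun k => o.2.1.ne_top ((e.P pp).eq_top_of_isUnit_mem k ε.isUnit.neg)
  refine ⟨_, fun m => (-ε : 𝓞 Qb) * (b.φ pp)⁻¹ (∑ g ∈ L.R with L.χ g = m, h g), w, fun m => ?_,
    fun l => ?_⟩
  · obtain ⟨i1, r, i2, i3⟩ := pr1 (L.R.filter fun g => L.χ g = m) (h := h) pp0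
      fun g q => ip g (mem g q)
    have y0 := prod_ne_zero_iff.2 fun g q => x0 g (mem (m := m) g q)
    have k1 := ip_act (inv_mem fm) i1
    have k2 := zp_act' (inv_mem fm) i2
    have k3 : ((b.φ pp)⁻¹ (∏ g ∈ L.R with L.χ g = m, x g)) ^ pp = (∏ g ∈ L.R with L.χ g = m, x g) *
        (1 + pp * ((b.φ pp)⁻¹ (∑ g ∈ L.R with L.χ g = m, h g) + (b.φ pp)⁻¹ r)) := by
      rw [← map_pow, ← prod_pow, prod_congr rfl fun g q => hh g (mem g q), prod_mul_distrib, i3,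
        ← map_prod, map_mul, ← AlgEquiv.mul_apply, inv_mul_cancel, AlgEquiv.one_apply]
      simp only [map_add, map_mul, map_one, map_natCast]
    refine ⟨ip_mul (ip_int _) k1, _, (map_ne_zero (b.φ pp)⁻¹).2 y0, fun i a1 _ => ?_, ?_⟩
    · have a2 : Inert (e.P pp) (b.φ pp * i * (b.φ pp)⁻¹) := conj_inP fm a1
      have : (b.φ pp * i * (b.φ pp)⁻¹) (∏ g ∈ L.R with L.χ g = m, x g) =
          ∏ g ∈ L.R with L.χ g = m, x g := by
        rw [map_prod]
        refine prod_congr rfl fun g q => ?_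
        simp only [hx, map_prod, map_pow, fix r1 r2 u a2 (cy_inert o d a2) (mem g q)]
      conv_rhs => rw [← this]
      simp only [← AlgEquiv.mul_apply, ← mul_assoc, inv_mul_cancel, one_mul]
    · rw [pr, k3, j0 d]
      beta_reduce
      generalize (b.φ pp)⁻¹ (∑ g ∈ L.R with L.χ g = m, h g) = B at k1
      generalize (b.φ pp)⁻¹ r = r at k2
      have k4 : Zp (e.P pp) (pp * (B + r)) := by
        rw [mul_comm]
        exact zp_mul ((Ao _).add_mem k1 (zp_ip k2)) pp0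
      obtain ⟨n0, k5⟩ := ip_one k4
      have q0 := pow_ne_zero (pp - 1) pi_ne
      convert zp_mul (ip_mul (ip_int (-ε : 𝓞 Qb)) k5) (zp_add k2 (zp_mul ((Ao _).neg_mem k1) k4))
        using 1
      simp only [RingOfIntegers.coe_eq_algebraMap, map_neg] at hε ⊢
      generalize (zt pp - 1) ^ (pp - 1) = π at hε q0
      rw [← hε] at n0 ⊢
      field_simp
      ring
  · refine forall₂_congr fun i _ => ?_
    have : ∀ (m : ℕ) (y : Qb), (m.choose i : Qb) * (b.φ pp)⁻¹ y = (b.φ pp)⁻¹ (m.choose i * y) :=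
      fun m y => by rw [map_mul, map_natCast]
    simp only [mul_left_comm _ ((-ε : 𝓞 Qb) : Qb), this, ← map_sum, fib, mul_left_comm _ (G : Qb)⁻¹,
      ← mul_sum, zp_unit' hG, zp_unit e0, zp_act (inv_mem fm)]

end Vale.Agent.P014Z.Lk
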