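import Vale.Agent.P014Z.St
import Vale.Agent.P014Z.Inr
import Vale.Agent.P014Z.Lk.Kw
import Vale.Agent.P014Y.Mu.Rse

/-! # P014Z, row CHA: the two characters of a reducible curve -/

set_option autoImplicit false
set_option linter.all false

noncomputable section

namespace Vale.Agent.P014Z.Lk

open NumberField
open Vale.Agent.P022 (Qb GQ)
open Vale.Agent.P022.H853
open Vale.Agent.P027M.S (Inert)
open Vale.Agent.P022E.GW (Ov)
open Vale.Agent.P022K.G2 (oz)
open Vale.Agent.P014U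
open P014Y.F (Crv)
open P014Y.Mu (F rb)
open Ml (Tri)
open Gl

variable [Pp]

namespace Ca

theorem cyc_eq {f : ℕ} [NeZero f] {g : GQ} {a : ℕ} (h : ∀ ζ : Qb, ζ ^ f = 1 → g ζ = ζ ^ a) :
    (cyc f g : ZMod f) = a := by
  have z := zt_prim f
  have e := (cyc_spec g z.pow_eq_one).symm.trans (h _ z.pow_eq_one)
  rw [← ZMod.natCast_zmod_val (cyc f g : ZMod f), ZMod.natCast_eq_natCast_iff]
  have k := (z.isOfFinOrder (NeZero.ne f)).pow_eq_pow_iff_modEq.1 e
  rwa [← z.eq_orderOf] at k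

/-- a nontrivial character is a primitive Dirichlet character -/
theorem ex_dc {S : List ℕ} {η : Ch} (o : IsOpen (η.ker : Set GQ))
    (u : ∀ l P, Ov l P → l ∉ S → ∀ g, Inert P g → η g = 1) {g : GQ} (n : η g ≠ 1) :
    ∃ (f : ℕ) (_ : NeZero f) (ψ : DirichletCharacter F f), Dc S η f ψ := by
  have u' : ∀ l P, Ov l P → l ∉ S.toFinset → ∀ g, Inert P g → η.toHomUnits g = 1 :=
    fun l P a m g i => Units.ext (u l P a (fun k => m (List.mem_toFinset.2 k)) g i)
  obtain ⟨f, i, ψ, k⟩ := ex_kw η.toHomUnits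
    (Subgroup.isOpen_mono (H₁ := η.ker) (fun g m => Units.ext (show η g = 1 from m)) o) S.toFinset u'
  exact ⟨f, i, dc (MonoidHom.id _) ψ, k.one_lt (g := g) fun e => n (congrArg Units.val e),
    k.pm.prim Function.injective_id, fun l a d => List.mem_toFinset.1 (k.sub u' a d), k.pm.nsq,
    fun g a h => by
      rw [← cyc_eq h, dc_coe]; exact congrArg Units.val (k.eq g)⟩

/-- a stable line gives a triangular basis -/
theorem ex_tri {e : Crv} (h : Ri e) : ∃ θ θ' : Ch, Tri ⊤ (rb e) θ θ' := by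
  obtain ⟨v, n, h⟩ := h
  obtain ⟨x, y, d⟩ : ∃ x y, x * v 1 - v 0 * y = 1 := by
    by_cases a : v 1 = 0
    · have b : v 0 ≠ 0 := fun b => n (funext (Fin.forall_fin_two.2 ⟨b, a⟩))
      exact ⟨0, -(v 0)⁻¹, by rw [zero_mul, zero_sub, mul_neg, neg_neg, mul_inv_cancel₀ b]⟩
    · exact ⟨(v 1)⁻¹, 0, by rw [mul_zero, sub_zero, inv_mul_cancel₀ a]⟩
  obtain ⟨C, C', c, z⟩ : ∃ C C' : Matrix (Fin 2) (Fin 2) F, C * C' = 1 ∧
      ∀ g, (C' * rb e g * C) 0 1 = 0 := by
    refine ⟨!![x, v 0; y, v 1], !![v 1, -v 0; -y, x], ?_, fun g => ?_⟩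
    · ext i j
      fin_cases i <;> fin_cases j <;> simp [Matrix.mul_apply, Fin.sum_univ_two] <;>
        first | linear_combination d | ring
    · obtain ⟨t, k⟩ := h g
      have k0 := congrFun k 0
      have k1 := congrFun k 1
      simp [Matrix.mulVec, dotProduct, Fin.sum_univ_two] at k0 k1
      simp [Matrix.mul_apply, Fin.sum_univ_two, Matrix.vecMul, dotProduct]
      linear_combination v 1 * k0 - v 0 * k1
  have m : ∀ g h, C' * rb e (g * h) * C = (C' * rb e g * C) * (C' * rb e h * C) := fun g h => by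
    rw [map_mul, mul_assoc (C' * rb e g), ← mul_assoc C, ← mul_assoc C, c, one_mul]
    simp only [mul_assoc]
  have o : C' * rb e 1 * C = 1 := by rw [map_one, mul_one, mul_eq_one_comm.1 c]
  refine ⟨⟨⟨fun g => (C' * rb e g * C) 0 0, by rw [o]; rfl⟩, fun g h => ?_⟩,
    ⟨⟨fun g => (C' * rb e g * C) 1 1, by rw [o]; rfl⟩, fun g h => ?_⟩, C, C', c,
    fun g _ => ⟨z g, rfl, rfl⟩⟩
  · dsimp only
    rw [m, Matrix.mul_apply, Fin.sum_univ_two, z g, zero_mul, add_zero]
  · dsimp only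
    rw [m, Matrix.mul_apply, Fin.sum_univ_two, z h, mul_zero, zero_add]

variable {e : Crv} {θ θ' : GQ → F} (t : Tri ⊤ (rb e) θ θ')

include t

theorem det (g : GQ) : θ g * θ' g = oz pp g := by
  obtain ⟨C, C', c, h⟩ := t
  obtain ⟨a, b, d⟩ := h g trivial
  have k := Matrix.det_fin_two (C' * rb e g * C)
  rw [a, b, d, zero_mul, sub_zero, Matrix.det_mul, Matrix.det_mul, mul_right_comm,
    ← Matrix.det_mul, mul_eq_one_comm.1 c, Matrix.det_one, one_mul] at k
  exact k.symm.trans ((congrFun (P014Y.Mu.Re.r0 e).det g).trans (ZMod.cast_id _ _))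

theorem one {g : GQ} (m : rb e g = 1) : θ g = 1 ∧ θ' g = 1 := by
  obtain ⟨C, C', c, h⟩ := t
  obtain ⟨-, b, d⟩ := h g trivial
  rw [m, mul_one, mul_eq_one_comm.1 c] at b d
  exact ⟨b.symm, d.symm⟩

theorem ei (n : (∀ g, θ g = 1) ∨ ∀ g, θ' g = 1) : Ei e := by
  obtain ⟨C, C', c, h⟩ := t
  have c' := mul_eq_one_comm.1 c
  rcases n with n | n
  · refine ⟨C' 0, fun z => ?_, .inr fun g => ?_⟩
    · have := congrFun (congrFun c' 0) 0
      rw [Matrix.mul_apply, z] at this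
      simp at this
    · obtain ⟨a, b, -⟩ := h g trivial
      have k : C' * rb e g = C' * rb e g * C * C' := by rw [mul_assoc _ C, c, mul_one]
      funext i
      refine (congrFun (congrFun k 0) i).trans ?_
      rw [Matrix.mul_apply, Fin.sum_univ_two, a, b, n, one_mul, zero_mul, add_zero]
  · refine ⟨fun i => C i 1, fun z => ?_, .inl fun g => ?_⟩
    · have := congrFun (congrFun c' 1) 1
      rw [Matrix.mul_apply, Fin.sum_univ_two, congrFun z 0, congrFun z 1] at this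
      simp at this
    · obtain ⟨a, -, b⟩ := h g trivial
      have k : rb e g * C = C * (C' * rb e g * C) := by
        rw [← mul_assoc, ← mul_assoc, c, one_mul]
      funext i
      refine (congrFun (congrFun k i) 1).trans ?_
      rw [Matrix.mul_apply, Fin.sum_univ_two, a, b, n, mul_one, mul_zero, zero_add]

theorem unr {l : ℕ} {P : Ideal (𝓞 Qb)} (o : Ov l P) (m : l ∉ e.S) {g : GQ} (i : Inert P g) :
    θ g = 1 ∧ θ' g = 1 := one t (P014Y.Mu.Re.of e (e.r_inert o m i))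

end Ca

/-- **the characters** -/
theorem cha : CHA := by
  intro h5 e r
  obtain ⟨θ, θ', t⟩ := Ca.ex_tri r
  have o := (P014Y.Mu.Re.r0 e).opn
  have o1 : IsOpen (θ.ker : Set GQ) := Subgroup.isOpen_mono (fun g m => (Ca.one t m).1) o
  have o2 : IsOpen (θ'.ker : Set GQ) := Subgroup.isOpen_mono (fun g m => (Ca.one t m).2) o
  obtain ⟨j, -, ev, w | w⟩ := Inr.even (pp_prime.odd_of_ne_two Pp.odd) θ θ' o1 (Ca.det t)
  · by_cases n : ∀ g, θ g = 1
    · exact .inl (Ca.ei t (.inl n))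
    · obtain ⟨g, n⟩ := not_forall.1 n
      obtain ⟨f, i, ψ, d⟩ := Ca.ex_dc o1 (fun l P a m g i => (Ca.unr t a m i).1) n
      exact .inr ⟨⟨θ, θ', j, f, ψ, ⟨.inl t, Ca.det t, ev, fun P g a i => w P a g i⟩, d, h5⟩⟩
  · by_cases n : ∀ g, θ' g = 1
    · exact .inl (Ca.ei t (.inr n))
    · obtain ⟨g, n⟩ := not_forall.1 n
      obtain ⟨f, i, ψ, d⟩ := Ca.ex_dc o2 (fun l P a m g i => (Ca.unr t a m i).2) n
      exact .inr ⟨⟨θ', θ, j, f, ψ, ⟨.inr t, fun g => (mul_comm _ _).trans (Ca.det t g), ev,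
        fun P g a i => w P a g i⟩, d, h5⟩⟩

end Vale.Agent.P014Z.Lk
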