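import Vale.Agent.P014Z.Lk.St
import Vale.Agent.P014Z.Su.Dpf

/-! # P014Z, block LK: the function for `p` prime to the conductor -/

set_option autoImplicit false
set_option linter.all false

noncomputable section

namespace Vale.Agent.P014Z.Lk

open NumberField UpperHalfPlane CongruenceSubgroup Finset PowerSeries
open Vale.Agent.P022 (Qb GQ)
open Vale.Agent.P022.H218.L3 Vale.Agent.P022.H236.L3 Vale.Agent.P022.H236
open Vale.Agent.P022K.G2 (zt zt_prim)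
open Vale.Agent.P014U Vale.Agent.P014T.Sg
open P027M.M (io)
open P014Y.F (Crv)
open P014Y.Mu (F)
open Gl Su Su.Dp
open Cy (zq cy)
open Qf (ic)

namespace Fn

theorem exq_prod {ι : Type} (s : Finset ι) {N : ℕ} {w : ι → ℤ} {P : ι → ℂ⟦X⟧} {g : ι → ℍ → ℂ}
    (h : ∀ i, Exq N (w i) (P i) (g i)) :
    Exq N (∑ i ∈ s, w i) (∏ i ∈ s, P i) fun τ => ∏ i ∈ s, g i τ := by
  classical
  induction s using Finset.induction_on with
  | empty => exact Exq.one
  | insert i s k e => simpa only [prod_insert k, sum_insert k] using (h i).mul e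

theorem prim_of {R : Type} [CommMonoidWithZero R] {f : ℕ} [NeZero f]
    {ψ ψ' : DirichletCharacter R f} (pr : ψ.IsPrimitive)
    (h : ∀ u : (ZMod f)ˣ, ψ' u = 1 → ψ u = 1) : ψ'.IsPrimitive := by
  have d := ψ'.conductor_dvd_level
  have k : ψ.FactorsThrough ψ'.conductor :=
    (DirichletCharacter.factorsThrough_iff_ker_unitsMap d).2 fun u m => Units.ext (h u
      (congrArg Units.val ((DirichletCharacter.factorsThrough_iff_ker_unitsMap d).1
        ψ'.factorsThrough_conductor m)))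
  exact (Nat.le_of_dvd (NeZero.pos f) d).antisymm (pr.ge.trans (Nat.sInf_le k))

theorem cw_cast {p : ℕ} [hp : Fact p.Prime] (m : ℕ) : (cw p m : ZMod p) = -(m : ZMod p)⁻¹ := by
  by_cases h : p ∣ m
  · rw [cw_dvd h, (ZMod.natCast_eq_zero_iff _ _).2 h]
    simp
  have := (ZMod.intCast_zmod_eq_zero_iff_dvd _ _).2 (cw_mul hp.1 h)
  push_cast at this
  rw [← eq_inv_of_mul_eq_one_right (a := (m : ZMod p)) (b := -cw p m) (by
    linear_combination -this), neg_neg]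

theorem sum_units {f : ℕ} [NeZero f] {A : Type} [AddCommMonoid A] (g : ZMod f → A)
    (h : ∀ t, ¬ IsUnit t → g t = 0) : ∑ t : (ZMod f)ˣ, g t = ∑ t, g t :=
  Fintype.sum_of_injective _ Units.val_injective _ _ (fun t m => h t m) fun _ => rfl

/-- the quotient for a product of units -/
theorem pr_quo {A : Type} [CommRing A] {f p m : ℕ} [NeZero f] (hf : 1 < f) (hm : f ∣ m * Su.sq f)
    (hp : p.Prime) (h2 : p ≠ 2) (ι : A →+* ℂ) {ζ : A} (hζ : ζ ^ f = 1) (e : ι ζ = ee (1 / f)) (c : ℕ)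
    (n : (ZMod f)ˣ → ℕ) : ∃ (r : A⟦X⟧) (W : ℍ → ℂ) (h : W ∈ Hol), inc W h ∈ MF (Gamma0 (p * f ^ 2)) ∧
      ExM 1 (ls 0 (map ι (∑ t, (n t : A⟦X⟧) * Vz f p c m ζ t + p * r))) (inc W h) ∧
      ∀ τ τ' : ℍ, (τ' : ℂ) = p * τ → (∏ t : (ZMod f)ˣ, us f c m t τ ^ n t) ^ p =
        (∏ t : (ZMod f)ˣ, us f c m (p * t) τ' ^ n t) * (1 + p * W τ) := by
  obtain ⟨r, hr⟩ := Dw.prod univ fun (t : (ZMod f)ˣ) _ => (dw_Fz hf hζ hp h2 c m t).pow (n t)
  have mm := fun u : (ZMod f)ˣ → ZMod f => Mm.prod univ fun t => (us_mm hf hm c (u t)).pow (n t)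
  have ex := fun u : (ZMod f)ˣ → ZMod f => exq_prod univ fun t => (us_exq hf hm c (u t)).pow (n t)
  have ne : ∀ τ, ∏ t : (ZMod f)ˣ, us f c m (p * t) τ ^ n t ≠ 0 := fun τ =>
    prod_ne_zero_iff.2 fun t _ => pow_ne_zero _ (us_ne hf c m _ _)
  have p0 : (p : ℂ) ≠ 0 := Nat.cast_ne_zero.2 hp.ne_zero
  obtain ⟨a1, a2⟩ := (mm (↑)).pow p
  obtain ⟨b1, b2⟩ := mm (p * ·)
  obtain ⟨k1, k2, -, k4⟩ := quo (fun τ => ne (vp hp.pos τ)) (MF_mono (g0_le (dvd_mul_left _ p)) a2)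
    (vp_mem hp.pos (by positivity) b2) ((ex (↑)).pow p)
    ((ex (p * ·)).mulTau hp.ne_zero (vp_coe hp.pos)) (by simp [constantCoeff_expand, Fz_zero hf]) p0
    (W := map ι (∑ t, (n t : A⟦X⟧) * Vz f p c m ζ t + p * r)) (by
      have := congrArg (map ι) hr
      simp only [map_pow, map_prod, map_mul, map_add, map_one, map_natCast, map_expand,
        Fz_map hf, e] at this
      simp only [this, map_prod, map_pow, map_mul, map_add, map_natCast]
      ring)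
  refine ⟨r, _, k1, k2, k4, fun τ τ' t => ?_⟩
  have := ne τ'
  rw [show vp hp.pos τ = τ' from UpperHalfPlane.ext ((vp_coe _ _).trans t.symm)]
  field_simp
  ring

variable [Pp]

theorem pi_dvd : pi ∣ (pp : 𝓞 Qb) := by
  have z : ∑ i ∈ range pp, (pi + 1) ^ i = 0 := RingOfIntegers.ext (by
    simpa [pi_coe] using (zt_prim pp).geom_sum_eq_zero one_lt)
  have := dvd_sum (s := range pp) fun i _ => sub_dvd_pow_sub_pow (pi + 1) 1 i
  simpa [z] using this

theorem zi_pow (f : ℕ) [NeZero f] : zi f ^ f = 1 :=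
  RingOfIntegers.ext (by simpa using! (Cy.zq_prim f).pow_eq_one)

theorem ic_zi (f : ℕ) [NeZero f] : ic (RingHom.id _) (zi f) = ee (1 / f) :=
  (Cy.io_zq f).trans (by rw [P027M.M.ze, ee, mul_div_assoc, Int.cast_one])

variable {e : Crv} (D : Da e) {a : ℕ}

theorem eta_eq (g : GQ) : D.η g = D.ψ (cy D.f g) := by
  rw [D.dc.eq g _ fun _ h => Cy.cy_act g h, ZMod.natCast_zmod_val]

theorem prim_pow (h : a.Coprime (orderOf D.η)) : (D.ψ ^ a).IsPrimitive :=
  prim_of D.dc.prim fun u k => by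
    obtain ⟨g, rfl⟩ := Cy.cy_onto u
    rw [MulChar.pow_apply_coe, ← eta_eq] at k
    have := pow_gcd_eq_one.2 ⟨k, DFunLike.congr_fun (pow_orderOf_eq_one D.η) g⟩
    rwa [h, pow_one, eta_eq] at this

theorem a_ne (h : a.Coprime (orderOf D.η)) : a ≠ 0 := fun z => by
  have := prim_pow D h
  rw [z, pow_zero, DirichletCharacter.isPrimitive_def, DirichletCharacter.conductor_one] at this
  exact D.dc.one.ne this

theorem nx_cast (h : a.Coprime (orderOf D.η)) (t : ZMod D.f) :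
    (nx D.ψ a t : F) = (D.ψ ^ a)⁻¹ t := by
  rw [nx, ZMod.natCast_zmod_val, MulChar.inv_apply_eq_inv', MulChar.pow_apply' _ (a_ne D h), inv_pow]

theorem nx_zero (h : a.Coprime (orderOf D.η)) {t : ZMod D.f} (n : ¬ IsUnit t) : nx D.ψ a t = 0 := by
  rw [nx, D.ψ.map_nonunit n, inv_zero, zero_pow (a_ne D h), ZMod.val_zero]

/-- **the depleted logarithm of the component** -/
theorem vz_ec (h : a.Coprime (orderOf D.η)) {c c₀ m : ℕ} (s : Sm D.f D.ψ c c₀ m) (k : ℕ) :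
    (pp : 𝓞 Qb) ∣ coeff k (∑ t : (ZMod D.f)ˣ, (nx D.ψ a t : (𝓞 Qb)⟦X⟧) * Vz D.f pp c₀ m (zi D.f) t) -
      -(24 * m * (c₀ - 1)) * (∑ t : ZMod D.f, (nx D.ψ a t : 𝓞 Qb) * zi D.f ^ t.val) *
        ((ec D.ψ a k).val : 𝓞 Qb) := by
  have x := sum_mod (zi_pow D.f) (ψ := (D.ψ ^ a)⁻¹) (by
      rw [DirichletCharacter.isPrimitive_def, DirichletCharacter.conductor_inv]; exact prim_pow D h)
    (c := c₀) (by rw [← nx_cast D h, nx, s.ker]; simp) s.cop (n := fun t => nx D.ψ a t)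
    (n' := fun t => (D.ψ t ^ a).val) (fun t => by rw [Int.cast_natCast, nx_cast D h]) (fun t => by
      rw [Int.cast_natCast, ZMod.natCast_zmod_val, inv_inv, MulChar.pow_apply' _ (a_ne D h)]) m k
  obtain ⟨r, y⟩ : (pp : ℤ) ∣ ∑ x ∈ k.divisorsAntidiagonal, cw pp x.2 * nx D.ψ a x.1 *
      ((D.ψ x.2 ^ a).val : ℤ) + (ec D.ψ a k).val := by
    rw [← ZMod.intCast_zmod_eq_zero_iff_dvd]
    simp [cw_cast, nx, ec, ← sum_add_distrib, mul_comm, mul_left_comm]
  rw [eq_sub_of_add_eq y] at x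
  rw [sum_units (fun t => (nx D.ψ a t : (𝓞 Qb)⟦X⟧) * Vz D.f pp c₀ m (zi D.f) t) fun t n => by
    rw [nx_zero D h n, Nat.cast_zero, zero_mul]]
  simp only [Int.cast_natCast, Int.cast_sub, Int.cast_mul] at x
  convert x.add (Dvd.intro (24 * m * (c₀ - 1) *
    (∑ t : ZMod D.f, (nx D.ψ a t : 𝓞 Qb) * zi D.f ^ t.val) * r) rfl) using 1
  ring

theorem unit_of {c c₀ m : ℕ} (s : Sm D.f D.ψ c c₀ m) {G : 𝓞 Qb} (h : G ∉ e.P pp) :
    -(24 * m * (c₀ - 1)) * G ∉ e.P pp := fun k => by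
  have o := e.ov _ e.pm
  have := (ZMod.intCast_zmod_eq_zero_iff_dvd _ _).2 (P004S.ov_dvd o (a := -(2 ^ 3 * 3 * m * (c₀ - 1)))
    (by simpa [show (2 ^ 3 * 3 : 𝓞 Qb) = 24 by norm_num] using (o.2.1.mem_or_mem k).resolve_right h))
  have q : ∀ n : ℕ, 0 < n → n < 5 → (n : F) ≠ 0 := fun n a b z =>
    absurd (Nat.le_of_dvd a ((ZMod.natCast_eq_zero_iff _ _).1 z)) (by have := D.five; omega)
  have q2 := mul_ne_zero (pow_ne_zero 3 (q 2 (by decide) (by decide))) (q 3 (by decide) (by decide))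
  norm_num [sub_eq_zero, s.ne, ZMod.natCast_eq_zero_iff, s.np] at this q2
  exact q2 this

end Fn

open Fn

variable [Pp]

theorem fn0 (gsz : GSZ) : FN0 := fun e D a c c₀ m h s n => by
  obtain ⟨G, g1, g2, -⟩ := gsz e D a h
  rw [if_neg n, pow_zero, one_mul] at g2
  obtain ⟨r, W, k1, k2, k3, k4⟩ := pr_quo D.dc.one s.dv pp_prime Pp.odd _ (zi_pow D.f) (ic_zi D.f) c₀
    fun t => nx D.ψ a t
  refine ⟨_, unit_of D s g1, W, ⟨k1, _, MF_mono (g0_le ⟨pp, by ring⟩) k2, k3, fun k => ?_⟩, k4⟩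
  have := (vz_ec D h s k).add (Dvd.intro (coeff k r) rfl)
  rw [g2, ← coeff_C_mul, map_natCast, sub_add_eq_add_sub, ← map_add] at this
  exact pi_dvd.trans this

end Vale.Agent.P014Z.Lk
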