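import Vale.Agent.P014Z.Lk.St
import Vale.Agent.P014Z.Su.Dpr
import Vale.Agent.P014Z.Su.Dpf

/-! # P014Z, row FN1: the function when `p` divides the conductor -/

set_option autoImplicit false
set_option linter.all false

noncomputable section

namespace Vale.Agent.P014Z.Lk

open NumberField UpperHalfPlane CongruenceSubgroup Finset PowerSeries
open scoped Classical
open Vale.Agent.P022 (Qb GQ)
open Vale.Agent.P022.H236 Vale.Agent.P022.H218.L3 Vale.Agent.P022.H236.L3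
open Vale.Agent.P022K.G2 (zt zt_prim)
open Vale.Agent.P014T.Sg (ee)
open Vale.Agent.P014U
open P027M.M (io ze)
open P014Y.F (Crv)
open P014Y.Mu (F)
open Gl
open Cy (zq zq_prim cy io_zq cy_act cy_onto)
open Su Su.Dp Su.Dr
open Qf (ic)

namespace Fo

theorem exq_pp {ι : Type} (s : Finset ι) {w : ℤ} {P : ι → ℂ⟦X⟧} {g : ι → ℍ → ℂ} (n : ι → ℕ)
    (h : ∀ i, Exq 1 w (P i) (g i)) :
    Exq 1 ((∑ i ∈ s, n i : ℕ) * w) (∏ i ∈ s, P i ^ n i) fun τ => ∏ i ∈ s, g i τ ^ n i := by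
  induction s using Finset.induction_on with
  | empty => simpa using Exq.one
  | insert i s k e =>
    simpa only [prod_insert k, sum_insert k, Nat.cast_add, add_mul] using ((h i).pow (n i)).mul e

variable [Pp]

theorem pi_as : Associated (pi ^ (pp - 1)) (pp : 𝓞 Qb) := by
  have z : IsPrimitiveRoot (pi + 1) pp := IsPrimitiveRoot.of_map_of_injective
    (f := algebraMap (𝓞 Qb) Qb) (by
      rw [map_add, map_one]
      exact (sub_add_cancel (zt pp) 1).symm ▸ zt_prim pp) RingOfIntegers.coe_injective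
  have e : pp - 1 + 1 = pp := Nat.sub_add_cancel pp_prime.pos
  have h := IsPrimitiveRoot.prod_one_sub_pow_eq_order (n := pp - 1) (μ := pi + 1) (e.symm ▸ z)
  rw [← Nat.cast_succ, Nat.succ_eq_add_one, e] at h
  rw [← h, ← card_range (pp - 1), ← prod_const, card_range]
  refine Associated.prod _ _ _ fun k m => ?_
  have := z.associated_sub_one_pow_sub_one_of_coprime (j := k + 1)
    (Nat.coprime_of_lt_prime k.succ_ne_zero (by have := mem_range.1 m; omega) pp_prime).symm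
  rw [add_sub_cancel_right] at this
  exact this.trans (by rw [← neg_sub]; exact (Associated.refl _).neg_left)

theorem ic_zi (f : ℕ) [NeZero f] : ic (RingHom.id _) (zi f) = ee (1 / f) :=
  (io_zq f).trans (by rw [ze, ee, Int.cast_one, mul_div_assoc])

theorem zi_pow (f : ℕ) [NeZero f] : zi f ^ f = 1 :=
  RingOfIntegers.coe_injective (by rw [map_pow, map_one]; exact (zq_prim f).pow_eq_one)

variable {e : Crv} (D : Da e) {a : ℕ}

theorem eta (g : GQ) : D.η g = D.ψ (cy D.f g) := by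
  rw [D.dc.eq g _ fun _ h => cy_act g h, ZMod.natCast_zmod_val]

theorem ker (h : a.Coprime (orderOf D.η)) {u : (ZMod D.f)ˣ} (k : D.ψ u ^ a = 1) : D.ψ u = 1 := by
  obtain ⟨g, rfl⟩ := cy_onto u
  rw [← eta] at k ⊢
  have := pow_gcd_eq_one.2 ⟨k, DFunLike.congr_fun (pow_orderOf_eq_one D.η) g⟩
  rwa [h, pow_one] at this

theorem a0 (h : a.Coprime (orderOf D.η)) : a ≠ 0 := by
  rintro rfl
  have p := D.dc.prim
  rw [show D.ψ = 1 from MulChar.ext fun u => (ker D h (pow_zero _)).trans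
    (MulChar.one_apply_coe u).symm, DirichletCharacter.isPrimitive_def,
    DirichletCharacter.conductor_one] at p
  exact D.dc.one.ne p

theorem ch (h : a.Coprime (orderOf D.η)) (t : ZMod D.f) : (D.ψ⁻¹ ^ a) t = (D.ψ t)⁻¹ ^ a := by
  rw [MulChar.pow_apply' _ (a0 D h), MulChar.inv_apply_eq_inv']

/-- the faithful powers are primitive -/
theorem prim (h : a.Coprime (orderOf D.η)) : (D.ψ⁻¹ ^ a).IsPrimitive := by
  have b := (D.ψ⁻¹ ^ a).factorsThrough_conductor
  refine le_antisymm (Nat.le_of_dvd (NeZero.pos _) b.dvd) (D.dc.prim.ge.trans (Nat.sInf_le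
    ((DirichletCharacter.factorsThrough_iff_ker_unitsMap b.dvd).2 fun u m => Units.ext ?_)))
  have k : (D.ψ⁻¹ ^ a) u = 1 := congrArg Units.val
    ((DirichletCharacter.factorsThrough_iff_ker_unitsMap b.dvd).1 b m)
  rw [ch D h, inv_pow, inv_eq_one] at k
  exact ker D h k

theorem cw_eq (m : ℕ) : (cw pp m : F) = -(m : F)⁻¹ := by
  by_cases h : pp ∣ m
  · rw [cw_dvd h, (ZMod.natCast_eq_zero_iff m pp).2 h, inv_zero, neg_zero, Int.cast_zero]
  · have := (ZMod.intCast_zmod_eq_zero_iff_dvd _ _).2 (cw_mul pp_prime h)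
    have n : (m : F) ≠ 0 := mt (ZMod.natCast_eq_zero_iff m pp).1 h
    push_cast at this
    field_simp
    linear_combination this

/-- the coefficients -/
theorem co (a k : ℕ) : (pp : ℤ) ∣ (∑ x ∈ k.divisorsAntidiagonal,
    cw pp x.2 * nx D.ψ a x.1 * (D.ψ x.2 ^ a).val : ℤ) + (ec D.ψ a k).val := by
  rw [← ZMod.intCast_zmod_eq_zero_iff_dvd]
  push_cast
  simp only [nx, ZMod.natCast_zmod_val, cw_eq, ec]
  rw [← sum_add_distrib]
  exact sum_eq_zero fun x _ => by ring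

theorem nm {n : ℤ} (h : (n : F) ≠ 0) : (n : 𝓞 Qb) ∉ e.P pp := fun m =>
  h ((ZMod.intCast_zmod_eq_zero_iff_dvd _ _).2
    (P022.H20.dvd_of_mem pp_prime (e.ov pp e.pm).2.1 (e.ov pp e.pm).2.2 m))

/-- the constant is a unit -/
theorem un {c c₀ m : ℕ} (s : Sm D.f D.ψ c c₀ m) {G : 𝓞 Qb} (h : G ∉ e.P pp) :
    -(24 * m * (c₀ - 1) * G) ∉ e.P pp := fun k => by
  have n : ((24 * m * (c₀ - 1) : ℤ) : F) ≠ 0 := by
    push_cast
    refine mul_ne_zero (mul_ne_zero (fun z => ?_) (mt (ZMod.natCast_eq_zero_iff m pp).1 s.np))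
      (sub_ne_zero.2 s.ne)
    have f := D.five
    have d : pp ∣ 2 ^ 3 * 3 := (ZMod.natCast_eq_zero_iff 24 pp).1 (by exact_mod_cast z)
    rcases pp_prime.dvd_mul.1 d with d | d
    · have := Nat.le_of_dvd two_pos (pp_prime.dvd_of_dvd_pow d); omega
    · have := Nat.le_of_dvd three_pos d; omega
  exact ((e.ov pp e.pm).2.1.mem_or_mem (neg_mem_iff.1 k)).elim
    (fun z => nm n (by exact_mod_cast z)) h

end Fo

open Fo

variable [Pp]

/-- **the function**, `p` divides `f` -/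
theorem fn1 (gsz : GSZ) : FN1 := by
  intro e D a c c₀ m h s pf
  obtain ⟨G, g0, gs, lb, -⟩ := gsz e D a h
  obtain ⟨l2, l3⟩ := lb pf
  rw [if_pos pf] at gs
  have hf := D.dc.one
  have hn : ∀ t, ((nx D.ψ a t : ℤ) : F) = (D.ψ⁻¹ ^ a) t := fun t => by
    rw [ch D h, Int.cast_natCast, nx, ZMod.natCast_zmod_val]
  have hν : ∀ t : (ZMod D.f)ˣ, (nx D.ψ a t : F) = (1 : ℤ) * (D.ψ⁻¹ ^ a) t := fun t => by
    rw [Int.cast_one, one_mul, ← hn, Int.cast_natCast]
  have pd : pi ^ (lv D.k a + 1) ∣ (pp : 𝓞 Qb) := (pow_dvd_pow _ (by omega)).trans pi_as.dvd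
  have p0 : (pp : 𝓞 Qb) ≠ 0 := Nat.cast_ne_zero.2 pp_prime.ne_zero
  obtain ⟨κ, fb⟩ := ex_k pf (prim D h) hν
  obtain ⟨W, w1, w2⟩ := dpr_ser hf (zi_pow D.f) Pp.odd (fun x z => (mul_eq_zero.1 z).resolve_left p0)
    (prim D h) (c := c₀) (by rw [ch D h, s.ker, inv_one, one_pow]) s.cop hn
    (n' := fun t => (D.ψ t ^ a).val) (fun t => by
      rw [MulChar.inv_apply_eq_inv', ch D h, inv_pow, inv_inv, Int.cast_natCast,
        ZMod.natCast_zmod_val]) m l2 pi_as.symm.dvd pd (s := G)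
    (by simp only [Int.cast_natCast, gs, sub_self, dvd_zero]) hν fb
  have x := fun ν : (ZMod D.f)ˣ → ℕ => exq_pp univ ν fun t : (ZMod D.f)ˣ => us_exq hf s.dv c₀ t
  have y := fun ν : (ZMod D.f)ˣ → ℕ => (Mm.prod univ fun t : (ZMod D.f)ˣ =>
    (us_mm hf s.dv c₀ t).pow (ν t)).up (show D.f ^ 2 ∣ (D.f * pp) ^ 2 from
      pow_dvd_pow_of_dvd (dvd_mul_right _ _) 2)
  have n0 : ∀ τ, (∏ t : (ZMod D.f)ˣ, us D.f c₀ m t τ ^ κ t) ^ pp ≠ 0 := fun τ =>
    pow_ne_zero _ (prod_ne_zero_iff.2 fun t _ => pow_ne_zero _ (us_ne hf _ _ _ _))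
  have c0 : io (zt pp - 1) ^ lv D.k a ≠ 0 := pow_ne_zero _ ((map_ne_zero _).2
    (sub_ne_zero.2 ((zt_prim pp).ne_one pp_prime.one_lt)))
  have x1 := x fun t => nx D.ψ a t
  rw [fb.sum, ← sum_mul, Nat.cast_mul, mul_comm (_ : ℤ) (pp : ℤ), mul_assoc] at x1
  obtain ⟨k1, k2, -, k3⟩ := quo n0 (y fun t => nx D.ψ a t).2 ((y κ).pow pp).2 x1 ((x κ).pow pp)
    (by simp [Fz_zero hf]) c0 (W := map (ic (RingHom.id _)) W) (by
      have := congrArg (map (ic (RingHom.id _))) w1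
      simp only [map_prod, map_pow, map_mul, map_add, map_one, Fz_map hf, ic_zi, map_C] at this
      rw [this, map_pow]
      rfl)
  refine ⟨_, un D s g0, _, ⟨k1, W, k2, k3, fun k => ?_⟩, fun t => κ t, fun τ => ?_⟩
  · obtain ⟨z, hz⟩ := co D a k
    have hz' := congrArg (Int.cast : ℤ → 𝓞 Qb) hz
    rw [Int.cast_add, Int.cast_natCast, Int.cast_mul, Int.cast_natCast] at hz'
    have := (w2 k).add ((((dvd_pow_self pi (Nat.succ_ne_zero _)).trans pd).mul_right
      (z : 𝓞 Qb)).mul_left (24 * m * (c₀ - 1) * G))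
    rw [← hz'] at this
    exact this.trans (dvd_of_eq (by push_cast; ring))
  · simp only [zpow_natCast]
    have := n0 τ
    field_simp
    ring

end Vale.Agent.P014Z.Lk
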