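import Vale.Agent.P014Z.Lk.St
import Vale.Agent.P014Z.Su.Mod
import Vale.Agent.P014Z.Lk.Cyc2
import Vale.Agent.P004K.All

/-! # P014Z, block LK: the unit and its conjugates as values at conjugate Heegner points -/

set_option autoImplicit false
set_option linter.all false

noncomputable section

namespace Vale.Agent.P014Z.Lk

open NumberField UpperHalfPlane CongruenceSubgroup Finset
open scoped Classical
open Vale.Agent.P022 (Qb GQ GK below)
open Vale.Agent.P027M.S (Inert)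
open Vale.Agent.P022D.W (dec)
open Vale.Agent.P022E.GW (Ov Fb)
open Vale.Agent.P022K.G2 (Tv)
open Vale.Agent.P014U P004K
open P027M.M (io)
open P014Y.F (Crv Fld)
open P014Y.Mu (F Ly)
open Gl
open Lk.Cy hiding Uf
open Qf (il il_perm ar_list)

namespace Ga

variable [Pp] {e : Crv} (b : Fld e) {f g c : ℕ}

/-- the list of the primes of `f ^ 2` -/
def fl (f : ℕ) : List ℕ := f.primeFactorsList ++ f.primeFactorsList

theorem fl_prod (h : f ≠ 0) : (fl f).prod = f ^ 2 := by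
  rw [fl, List.prod_append, Nat.prod_primeFactorsList h, sq]

theorem fl_mem {l : ℕ} (h : l ∈ fl f) : l.Prime ∧ l ∣ f := by
  have := (List.mem_append.1 h).elim id id
  exact ⟨Nat.prime_of_mem_primeFactorsList this, Nat.dvd_of_mem_primeFactorsList this⟩

theorem fi_il (f : ℕ) : Fi b f = il b.j e.P (fl f) := by
  rw [il, Finset.prod_list_map_count, fl, List.toFinset_append, union_self, Nat.toFinset_factors]
  exact prod_congr rfl fun l _ => by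
    rw [List.count_append, Nat.primeFactorsList_count_eq, two_mul]

theorem fi_mul (h : f ≠ 0) (h' : g ≠ 0) : Fi b (f * g) = Fi b f * Fi b g := by
  have := il_perm (j := b.j) (P := e.P) (Nat.perm_primeFactorsList_mul h h')
  simp only [fi_il, fl, il, List.map_append, List.prod_append] at this ⊢
  rw [this, mul_mul_mul_comm]

theorem fi_prime {l : ℕ} (h : l.Prime) : Fi b l = below b.j (e.P l) ^ 2 := by
  simp [fi_il, fl, il, Nat.primeFactorsList_prime h, sq]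

/-- the primes of `f` are bad -/
def Sup (e : Crv) (f : ℕ) : Prop := f ≠ 0 ∧ ∀ l : ℕ, l.Prime → l ∣ f → l ∈ e.S

theorem Sup.mul (h : Sup e f) (h' : Sup e g) : Sup e (f * g) :=
  ⟨mul_ne_zero h.1 h'.1, fun l p d => ((Nat.Prime.dvd_mul p).1 d).elim (h.2 l p) (h'.2 l p)⟩

theorem sup_mem {l : ℕ} (h : l ∈ e.S) : Sup e l := ⟨(e.ov l h).1.ne_zero, fun l' p d => by
  rwa [(Nat.prime_dvd_prime_iff_eq p (e.ov l h).1).1 d]⟩

theorem Sup.pos (h : Sup e f) : 0 < f ^ 2 := pow_pos (Nat.pos_of_ne_zero h.1) 2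

theorem cn_il {A : List ℕ} (h : ∀ l ∈ A, l ∈ e.S) : Cn A.prod (il b.j e.P A) := by
  have := (P004R.Qf.sp_list (fun p k => (e.ov p k).1) b.ch.spl A h _ _ _ one_pos
    P004R.Qf.sp_one (by simp)).cn
  rwa [one_mul, Ideal.top_mul] at this

theorem Sup.cn (h : Sup e f) : Cn (f ^ 2) (Fi b f) := by
  rw [fi_il, ← fl_prod h.1]
  exact cn_il b fun l k => h.2 l (fl_mem k).1 (fl_mem k).2

variable {b} {N : ℕ} {χ : GQ → ℕ} {v : ℍ → ℂ} {V : GQ → Qb}

theorem Sup.cop (h : Sup e f) (ly : Ly b.Γ e.S.toFinset N c χ) : c.Coprime f :=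
  Nat.Coprime.symm (Nat.coprime_of_dvd fun l p d d' =>
    (ly.out l p d').1 (List.mem_toFinset.2 (h.2 l p d)))

theorem cop_S (ly : Ly b.Γ e.S.toFinset N c χ) : c.Coprime e.S.prod :=
  Nat.coprime_list_prod_right_iff.2 fun l k => (sup_mem k).cop ly

/-- **a higher level** -/
theorem vl_up (h : Sup e f) (h' : Sup e g) (ly : Ly b.Γ e.S.toFinset N c χ)
    (k : Vl b.j (f ^ 2) (Fi b f) c v V) : Vl b.j ((f * g) ^ 2) (Fi b (f * g)) c v V := by
  have := (h.mul h').cn b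
  rw [mul_pow, fi_mul b h.1 h'.1] at this ⊢
  exact k.up y_hg1 b.iq h.pos h'.pos (Nat.pos_of_ne_zero ly.c0) ((h.cop ly).pow_right 2)
    ((h'.cop ly).pow_right 2) (h.cn b) (h'.cn b) this

/-- **the value at `l τ`** -/
theorem vl_sh {l : ℕ} (h : Sup e f) (h' : l ∈ e.S) (ly : Ly b.Γ e.S.toFinset N c χ)
    (k : Vl b.j (f ^ 2) (Fi b f) c v V) : Vl b.j ((f * l) ^ 2) (Fi b (f * l)) c
      (fun τ => v (P004F.Qx.De.vv l τ)) fun g => V (g * b.φ l) := by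
  have s := sup_mem h'
  have l0 := Nat.pos_of_ne_zero s.1
  have c0 := Nat.pos_of_ne_zero ly.c0
  have n1 := cn_il b (A := [l]) (by simpa using h')
  have n2 := cn_il b (A := fl f ++ [l]) fun p m => (List.mem_append.1 m).elim
    (fun k => h.2 p (fl_mem k).1 (fl_mem k).2) fun k => by rwa [List.mem_singleton.1 k]
  have n3 := (h.mul s).cn b
  have ar := (ar_list x_rc2 b.iq (fun p k => (e.ov p k).1) h' (fun p k => (e.ov p k).2) b.ch c0
    (cop_S ly) [l] (by simpa using h')).2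
  simp only [il, List.map_append, List.prod_append, fl_prod h.1, List.map_singleton,
    List.prod_singleton] at n1 n2 ar
  rw [← il, ← fi_il] at n2
  rw [mul_pow, fi_mul b h.1 s.1, fi_prime b (e.ov l h').1, sq l, sq (below _ _), ← mul_assoc,
    ← mul_assoc] at n3 ⊢
  exact (k.sh y_hg1 b.iq h.pos l0 c0 ((h.cop ly).pow_right 2) (s.cop ly) (h.cn b) n1 n2 ar).up
    y_hg1 b.iq (mul_pos h.pos l0) l0 c0 (((h.cop ly).pow_right 2).mul_right (s.cop ly)) (s.cop ly)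
    n2 n1 n3

theorem vl_uniq {V' : GQ → Qb} (h : Sup e f) (ly : Ly b.Γ e.S.toFinset N c χ)
    (k : Vl b.j (f ^ 2) (Fi b f) c v V) (k' : Vl b.j (f ^ 2) (Fi b f) c v V') {g : GQ}
    (m : g ∈ b.Γ) : V g = V' g :=
  k.uniq y_hg1 b.iq h.pos (Nat.pos_of_ne_zero ly.c0) ((h.cop ly).pow_right 2) (h.cn b) k' m

variable [NeZero f]

theorem hf_eq (b : Fld e) (c : ℕ) : Hf b c f = Hc b.j c ⊓ (cy f).ker := by
  ext g
  simp only [Hf, Subgroup.mem_inf, Subgroup.mem_iInf, MonoidHom.mem_ker, cy_one]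
  rfl

theorem dc_cy {S : List ℕ} {η : Ch} {ψ : DirichletCharacter F f} (h : Dc S η f ψ) (g : GQ) :
    η g = ψ (cy f g) := by
  rw [h.eq g _ fun ζ k => cy_act g k, ZMod.natCast_zmod_val]

theorem Sup.onto (h : Sup e f) (ly : Ly b.Γ e.S.toFinset N c χ) (a : (ZMod f)ˣ) :
    ∃ t ∈ Hc b.j c, cy f t = a :=
  ex_hc x_rc1 x_rc2 b.iq (Nat.pos_of_ne_zero ly.c0) (h.cop ly) (fun l P o d g i =>
    (ly.fro l (List.mem_toFinset.2 (h.2 l o.1 d)) P o).1 (P022D.W.inP_le_dec i)) a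

theorem us_fam {c₀ m M : ℕ} (hf : 1 < f) (hm : f ∣ m * Su.sq f) (M0 : 0 < M) (d : f ^ 2 ∣ M) :
    Fam f M (Su.us f c₀ m) := fun _ _ _ _ q y a => Su.us_gal hf hm c₀ a M0 d q y

/-- **the values of the units** -/
theorem ex_us {c₀ m : ℕ} (h : Sup e f) (ly : Ly b.Γ e.S.toFinset N c χ) (hf : 1 < f)
    (hm : f ∣ m * Su.sq f) : ∃ U : ZMod f → GQ → Qb,
    (∀ t, Vl b.j (f ^ 2) (Fi b f) c (Su.us f c₀ m t) (U t)) ∧ Lk.Cy.Uf b.j c f U ∧
      ∀ s, Us b f c c₀ m s ↔ s = U 1 1 := by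
  have c0 := Nat.pos_of_ne_zero ly.c0
  have co := (h.cop ly).pow_right 2
  have fa := us_fam (c₀ := c₀) hf hm h.pos dvd_rfl
  obtain ⟨U, vl, uf⟩ := ex_uf y_hg1 b.iq h.pos c0 co (h.cn b) fa
  have o : ∀ τ, Cj0 1 (f ^ 2) τ τ := fun τ => (cj0_one h.pos).2 ⟨1, one_mem _, one_smul _ _⟩
  refine ⟨U, vl, uf, fun s => ⟨fun k => P004K.io_inj ?_, ?_⟩⟩
  · obtain ⟨τ, p⟩ := (y_hg1 b.K b.j b.iq _ c _ h.pos c0 co (h.cn b)).1
    have := k 1 (one_mem _) 1 τ τ 1 (fun _ => rfl) p (o τ) rfl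
    rw [Int.cast_one] at this
    exact this.trans (vl 1 1 (one_mem _) 1 τ τ (fun _ => rfl) p (o τ))
  · rintro rfl g _ σ τ τ' t x p q y
    rw [← x, ← vl 1 1 (one_mem _) 1 τ τ (fun _ => rfl) p (o τ), fa σ t τ τ' q y, mul_one]

section level

variable {D : Da e} {n : ℕ} (L : Lt D b n)

theorem sup_f (D : Da e) : Sup e D.f := ⟨NeZero.ne _, D.dc.sup⟩

theorem chi_pow (m : ℕ) : L.χ (L.γ ^ m) = m := by
  induction m with
  | zero => simpa using L.lz.ker 1 (one_mem _)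
  | succ m k => rw [pow_succ L.γ, L.lz.add _ (pow_mem L.lz.g0 m) _ L.lz.g0, k, L.lz.g2, Nat.cast_succ]

/-- the values of the units of a level -/
structure Uv (U : ZMod D.f → GQ → Qb) : Prop where
  vl : ∀ t, Vl b.j (D.f ^ 2) (Fi b D.f) L.c (Su.us D.f L.c₀ L.m t) (U t)
  uf : Lk.Cy.Uf b.j L.c D.f U
  one : U 1 1 = L.s

theorem ex_uv : ∃ U, Uv L U := by
  obtain ⟨U, a, u, k⟩ := ex_us (c₀ := L.c₀) (sup_f D) L.lz.ly D.dc.one L.sm.dv
  exact ⟨U, a, u, ((k _).1 L.us).symm⟩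

variable {L} {U : ZMod D.f → GQ → Qb}

theorem Uv.up (h : Uv L U) {g : ℕ} (s : Sup e g) (t : ZMod D.f) :
    Vl b.j ((D.f * g) ^ 2) (Fi b (D.f * g)) L.c (Su.us D.f L.c₀ L.m t) (U t) :=
  vl_up (sup_f D) s L.lz.ly (h.vl t)

theorem Uv.ne (h : Uv L U) (t : ZMod D.f) {g : GQ} (m : g ∈ b.Γ) : U t g ≠ 0 := fun z => by
  have s := sup_f D
  obtain ⟨τ, p⟩ := (y_hg1 b.K b.j b.iq _ L.c _ s.pos (Nat.pos_of_ne_zero L.lz.ly.c0)
    ((s.cop L.lz.ly).pow_right 2) (s.cn b)).1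
  obtain ⟨σ, x⟩ := ex_ex g
  obtain ⟨τ', q⟩ := (cj0 σ _ s.pos).1 τ
  exact Su.us_ne D.dc.one _ _ t τ' (by rw [h.vl t g m σ τ τ' x p q, z, map_zero])

theorem Uv.act (h : Uv L U) {g : GQ} (m : g ∈ b.Γ) : g L.s = U (cy D.f g) g := by
  rw [← h.one, h.uf.one m]

/-- weighted products of the conjugates of the unit -/
theorem Uv.cmp (h : Uv L U) (w : F → ℕ) {γ : GQ} (m : γ ∈ b.Γ) :
    γ (∏ g ∈ L.R' with L.χ g = 0, g L.s ^ w (D.η g)) =
      ∏ g ∈ L.R with L.χ g = L.χ γ, ∏ t : (ZMod D.f)ˣ, U t g ^ w ((D.η γ)⁻¹ * D.ψ t) := by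
  have := h.uf.cmp ((sup_f D).onto L.lz.ly) (hf_eq (f := D.f) b L.c ▸ L.tv') L.tv L.lz.add L.lz.ker
    (fun t => w (D.ψ t)) m
  simp only [h.one, ← dc_cy D.dc, Units.val_mul, map_mul, ← map_inv (cy D.f)] at this
  rw [← eq_inv_of_mul_eq_one_left (show D.η γ⁻¹ * D.η γ = 1 by
    rw [← map_mul, inv_mul_cancel, map_one])]
  convert this

/-- **the conjugates of the component** -/
theorem Uv.xa (h : Uv L U) (a m : ℕ) : (L.γ ^ m) (L.X a) =
    ∏ g ∈ L.R with L.χ g = m, ∏ t : (ZMod D.f)ˣ, U t g ^ ((D.ψ t)⁻¹ ^ a).val := by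
  have := h.cmp (fun x => (x⁻¹ ^ a).val) (pow_mem L.lz.g0 m)
  rwa [chi_pow, map_pow D.η, L.lz.g1, one_pow, inv_one, funext one_mul] at this

theorem Uv.sft (h : Uv L U) {l : ℕ} (hl : l ∈ e.S) (nd : ¬ l ∣ D.f) (t : ZMod D.f) :
    Vl b.j ((D.f * l) ^ 2) (Fi b (D.f * l)) L.c
      (fun τ => Su.us D.f L.c₀ L.m (l * t) (P004F.Qx.De.vv l τ)) fun g => b.φ l (U t g) :=
  fun g m σ τ τ' x p q => by
  rw [vl_sh (sup_f D) hl L.lz.ly (h.vl (l * t)) g m σ τ τ' x p q]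
  show io (U _ _) = io (b.φ l _)
  rw [h.uf.sh x_rc1 b.iq (Nat.pos_of_ne_zero L.lz.ly.c0) m (b.ch.mem l hl),
    cy_fb (e.ov l hl) nd (b.ch.frb l hl)]

end level

end Ga

open Ga in
/-- **the values of the units** -/
theorem prd [Pp] : PRD := fun e D b n L => by
  obtain ⟨U, h⟩ := ex_uv L
  refine ⟨U, h.up (sup_mem e.pm), fun t _ => h.ne t, h.uf.act, h.uf.inv,
    fun nd t g m σ τ τ' τ'' x p q k => ?_, h.xa⟩
  rw [show τ'' = P004F.Qx.De.vv pp τ' from UpperHalfPlane.ext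
    (k.trans (P004F.Qx.De.coe_vv pp_prime.pos τ').symm)]
  exact h.sft e.pm nd t g m σ τ τ' x p q

end Vale.Agent.P014Z.Lk
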