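import Vale.Agent.P014Z.Lk.Gs
import Vale.Agent.P014Z.Lk.Kw

/-! # P014Z, block LK: Gauss sums with integral coefficients (helper16) -/

set_option autoImplicit false
set_option linter.all false

open Finset NumberField

noncomputable section

namespace Vale.Agent.P014Z.Lk.Gz

open Vale.Agent.P022 (Qb)
open Gs

variable {Γ : Type} [LinearOrderedCommGroupWithZero Γ] (V : Valuation Qb Γ) {p : ℕ} [Fact p.Prime]

/-- the lift of Teichmüller -/
theorem tch (h1 : V p < 1) : ∃ ι : (ZMod p)ˣ →* Qbˣ, Function.Injective ι ∧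
    ∀ u, V (ι u - (u : ZMod p).val) ≤ V p := by
  have hp : p.Prime := Fact.out
  have p0 : p - 1 ≠ 0 := by have := hp.one_lt; omega
  have := NeZero.mk p0
  have z := P022.H853.zt_prim (p - 1)
  have fm : ∀ u : (ZMod p)ˣ, V (((u : ZMod p).val : Qb) ^ (p - 1) - 1) ≤ V p := fun u => by
    simpa using v_cong V (p := p) (a := (u : ZMod p).val ^ (p - 1)) (b := 1)
      (by simp [ZMod.pow_card_sub_one_eq_one u.ne_zero])
  have ex : ∀ u : (ZMod p)ˣ, ∃ w : Qb, w ^ (p - 1) = 1 ∧ V (w - (u : ZMod p).val) ≤ V p :=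
      fun u => by
    have a := (fm u).trans_lt h1
    have n := v_val V h1 u.ne_zero
    rw [← one_pow (M := Qb) (p - 1), z.pow_sub_pow_eq_prod_sub_mul _ _ (Nat.pos_of_ne_zero p0), map_prod] at a
    obtain ⟨w, m, k⟩ : ∃ w ∈ Polynomial.nthRootsFinset (p - 1) (1 : Qb),
        V (((u : ZMod p).val : Qb) - w * 1) < 1 := by
      by_contra! c
      exact a.not_ge (one_le_prod' c)
    have w1 := (Polynomial.mem_nthRootsFinset (Nat.pos_of_ne_zero p0) _).1 m
    have w0 := v_root V p0 w1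
    have w' : w ≠ 0 := V.ne_zero_iff.1 (w0 ▸ one_ne_zero)
    have e : V (((u : ZMod p).val : Qb) / w - 1) = V (w - (u : ZMod p).val) := by
      rw [div_sub_one w', map_div₀, w0, div_one, V.map_sub_swap]
    refine ⟨w, w1, ?_⟩
    rw [← e, tei V hp h1 (by rwa [e, V.map_sub_swap, ← mul_one w]), div_pow, w1, div_one]
    exact fm u
  choose w w1 w2 using ex
  have uq : ∀ a b : Qb, a ^ (p - 1) = 1 → b ^ (p - 1) = 1 → V (a - b) < 1 → a = b :=
      fun a b x y l => by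
    have b0 := v_root V p0 y
    have b' : b ≠ 0 := V.ne_zero_iff.1 (b0 ▸ one_ne_zero)
    have := tei V hp h1 (y := a / b) (by rwa [div_sub_one b', map_div₀, b0, div_one])
    rwa [div_pow, x, y, div_one, sub_self, map_zero, V.zero_iff, sub_eq_zero, div_eq_one_iff_eq b']
      at this
  let ι : (ZMod p)ˣ →* Qb := ⟨⟨w, uq _ _ (w1 1) (one_pow _) (by
    simpa [ZMod.val_one] using (w2 1).trans_lt h1)⟩, fun a b => uq _ _ (w1 _)
      (by rw [mul_pow, w1, w1, one_mul]) (by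
      have t := v_cong V (p := p) (a := ((a * b : (ZMod p)ˣ) : ZMod p).val)
        (b := (a : ZMod p).val * (b : ZMod p).val) (by simp)
      have x := (mul_le_of_le_one_left' (v_root V p0 (w1 a)).le).trans (w2 b)
      have y := (mul_le_of_le_one_right' (v_nat V (b : ZMod p).val)).trans (w2 a)
      rw [← V.map_mul] at x y
      refine lt_of_eq_of_lt (congrArg V ?_)
        ((V.map_sub_le (V.map_sub_le (V.map_add_le (w2 (a * b)) t) x) y).trans_lt h1)
      push_cast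
      ring)⟩
  refine ⟨ι.toHomUnits, (injective_iff_map_eq_one _).2 fun u e => Units.ext ?_, w2⟩
  have e : w u = 1 := congrArg Units.val e
  by_contra n
  have := v_val V h1 (x := u - 1) (sub_ne_zero.2 n)
  have t := v_cong V (p := p) (a := ((u : ZMod p) - 1).val + 1) (b := (u : ZMod p).val) (by simp)
  have s := V.map_sub_le t (e ▸ w2 u)
  push_cast at s
  rw [show ∀ a b : Qb, a + 1 - b - (1 - b) = a from fun a b => by ring, this] at s
  exact h1.not_ge s

variable {f : ℕ} [NeZero f] {χ : (ZMod f)ˣ →* (ZMod p)ˣ} {n : ZMod f → ℕ} {ζ ξ : Qb}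

theorem near (h1 : V p < 1) (c : Pm χ) (a : ∀ u : (ZMod f)ˣ, (n u : ZMod p) = χ u)
    (b : ∀ t, ¬ IsUnit t → (n t : ZMod p) = 0) (z : IsPrimitiveRoot ζ f) :
    ∃ (ψ : DirichletCharacter Qb f) (e : AddChar (ZMod f) Qb), ψ.IsPrimitive ∧ e.IsPrimitive ∧
      (∀ t, V (ψ t - n t) ≤ V p) ∧ V (∑ t, (n t : Qb) * ζ ^ t.val - gaussSum ψ e) ≤ V p := by
  obtain ⟨ι, i, k⟩ := tch V h1
  obtain ⟨e, e1, -, e2⟩ := gs_root z
  have w : ∀ t, V (dc ι χ t - n t) ≤ V p := fun t => by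
    by_cases u : IsUnit t
    · obtain ⟨u, rfl⟩ := u
      simpa [dc_coe] using V.map_add_le (k (χ u))
        (v_cong V (p := p) (a := (χ u : ZMod p).val) (b := n u) (by simp [a]))
    · simpa [(dc ι χ).map_nonunit u] using
        v_cong V (p := p) (a := 0) (b := n t) (by simp [b t u])
  refine ⟨dc ι χ, e, c.prim i, e1, w, ?_⟩
  rw [e2, ← sum_sub_distrib]
  refine V.map_sum_le fun t _ => ?_
  rw [← sub_mul, V.map_mul, V.map_pow, v_root V (NeZero.ne f) z.pow_eq_one, one_pow, mul_one,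
    V.map_sub_swap]
  exact w t

theorem val0 (h1 : V p < 1) (c : Pm χ) (a : ∀ u : (ZMod f)ˣ, (n u : ZMod p) = χ u)
    (b : ∀ t, ¬ IsUnit t → (n t : ZMod p) = 0) (z : IsPrimitiveRoot ζ f) (d : ¬ p ∣ f) :
    V (∑ t, (n t : Qb) * ζ ^ t.val) = 1 := by
  obtain ⟨ψ, e, x, y, -, k⟩ := near V h1 c a b z
  have := Gs.val0 V h1 (((Fact.out : p.Prime).coprime_iff_not_dvd.2 d).symm) x y
  rw [V.map_eq_of_sub_lt (k.trans_lt (this ▸ h1)), this]

theorem val1 (h1 : V p < 1) (c : Pm χ) (a : ∀ u : (ZMod f)ˣ, (n u : ZMod p) = χ u)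
    (b : ∀ t, ¬ IsUnit t → (n t : ZMod p) = 0) (z : IsPrimitiveRoot ζ f) {m j : ℕ} (q : f = p * m)
    (d : ¬ p ∣ m) (j0 : 0 < j) (hj : j < p - 1) (r : ∀ u : (ZMod f)ˣ, (u : ZMod f).val ≡ 1 [MOD m] →
      (χ u : ZMod p) * ((u : ZMod f).val : ZMod p) ^ j = 1) (h : IsPrimitiveRoot ξ p) :
    V (∑ t, (n t : Qb) * ζ ^ t.val) = V (ξ - 1) ^ j := by
  have hp : p.Prime := Fact.out
  obtain ⟨ψ, e, x, y, w, k⟩ := near V h1 c a b z
  subst q
  have : NeZero m := ⟨by rintro rfl; exact d (dvd_zero _)⟩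
  have := val3 V h1 (hp.coprime_iff_not_dvd.2 d) x y j0 hj (fun s s1 s2 => by
    have cp : s.Coprime (p * m) := .mul_right (hp.coprime_iff_not_dvd.2 s1).symm
      (s2.gcd_eq.trans (Nat.gcd_one_left _))
    have v : (s : ZMod (p * m)).val ≡ s [MOD p * m] := ZMod.val_natCast _ s ▸ Nat.mod_modEq _ _
    have t := r (ZMod.unitOfCoprime s cp) ((v.of_mul_left p).trans s2)
    rw [← a, ZMod.coe_unitOfCoprime, (ZMod.natCast_eq_natCast_iff _ _ _).2 (v.of_mul_right m)] at t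
    have t' := v_cong V (p := p) (a := n s * s ^ j) (b := 1) (by simpa using t)
    have t'' := (mul_le_of_le_one_right' (v_nat V (s ^ j))).trans (w s)
    rw [← V.map_mul] at t''
    refine lt_of_eq_of_lt (congrArg V ?_) ((V.map_add_le t' t'').trans_lt h1)
    push_cast
    ring) h
  rw [V.map_eq_of_sub_lt (k.trans_lt ?_), this]
  rw [this, v_p V hp h]
  exact pow_right_strictAnti₀ (zero_lt_iff.2 (pi_ne V hp h)) (pi_lt V hp h1 h) hj

theorem int_iff {x : Qb} : IsIntegral ℤ x ↔ ∀ B : ValuationSubring Qb, B.valuation x ≤ 1 := by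
  refine ⟨fun h B => ?_, fun h => ?_⟩
  · exact (B.valuation_le_one_iff x).2 (LocalSubring.mem_of_isMax_of_isIntegral
      B.isMax_toLocalSubring h.tower_top)
  · by_contra n
    obtain ⟨B, -, k⟩ := Subring.exists_le_valuationSubring_of_isIntegrallyClosedIn
      (R := (integralClosure ℤ Qb).toSubring) n
    exact k ((B.valuation_le_one_iff x).1 (h B))

/-- from all valuations to the integers -/
theorem glob {P : Ideal (𝓞 Qb)} (o : P ≠ ⊤) (m : (p : 𝓞 Qb) ∈ P) (h : IsPrimitiveRoot ξ p)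
    {S : Qb} (i : IsIntegral ℤ S) (j : ℕ) (k : ∀ B : ValuationSubring Qb, B.valuation p < 1 →
      B.valuation S = B.valuation (ξ - 1) ^ j) : ∃ G ∉ P, S = (ξ - 1) ^ j * (G : 𝓞 Qb) := by
  have hp : p.Prime := Fact.out
  have n : (ξ - 1) ^ j ≠ 0 := pow_ne_zero _ (sub_ne_zero.2 (h.ne_one hp.one_lt))
  have e : ∀ B : ValuationSubring Qb, B.valuation p < 1 → B.valuation (S / (ξ - 1) ^ j) = 1 :=
    fun B l => by rw [map_div₀, map_pow, k B l, div_self (pow_ne_zero _ (pi_ne _ hp h))]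
  refine ⟨⟨S / (ξ - 1) ^ j, int_iff.2 fun B => ?_⟩, fun g => ?_, (mul_div_cancel₀ S n).symm⟩
  · rcases (v_nat B.valuation p).lt_or_eq with l | l
    · exact (e B l).le
    · rw [v_p _ hp h, pow_eq_one_iff_of_nonneg zero_le' (by have := hp.one_lt; omega)] at l
      rw [map_div₀, map_pow, l, one_pow, div_one]
      exact int_iff.1 i B
  · obtain ⟨B, -, s⟩ := Ideal.image_subset_nonunits_valuationSubring
      (A := (integralClosure ℤ Qb).toSubring) P o
    exact (e B (s ⟨_, m, rfl⟩)).not_lt (s ⟨_, g, rfl⟩)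

end Vale.Agent.P014Z.Lk.Gz
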