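import Vale.Agent.P014Z.Lk.St
import Vale.Agent.P014Z.Lk.Gsz0
import Vale.Agent.P014Z.Inr

/-! # P014Z, block LK: the Gauss sum (row `GSZ`, helper16) -/

set_option autoImplicit false
set_option linter.all false

open Finset NumberField

noncomputable section

namespace Vale.Agent.P014Z.Lk

open Vale.Agent.P022 (Qb GQ)
open Vale.Agent.P022.H853 (cyc cyc_spec)
open Vale.Agent.P022K.G2 (oz zt zt_prim)
open Vale.Agent.P014U Gl
open P014Y.F (Crv)
open P014Y.Mu (F)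

variable [Pp] {e : Crv} (D : Da e) {a : ℕ}

namespace Gz

theorem eta (g : GQ) : D.η g = D.ψ (cyc D.f g) :=
  (D.dc.eq g _ fun _ h => cyc_spec g h).trans (by rw [ZMod.natCast_zmod_val])

theorem pm0 : Pm D.ψ.toUnitHom := fun d h k => le_antisymm (Nat.le_of_dvd (NeZero.pos _) h)
  (D.dc.prim.ge.trans (Nat.sInf_le
    ((DirichletCharacter.factorsThrough_iff_ker_unitsMap h).2 k)))

/-- the character of the exponents is primitive -/
theorem pm (h : a.Coprime (orderOf D.η)) : Pm (D.ψ.toUnitHom⁻¹ ^ a) := (pm0 D).of_ker fun x m => by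
  obtain ⟨g, rfl⟩ := P022.H790.CT.cyc_surj D.f x
  have k : (D.ψ.toUnitHom (cyc D.f g))⁻¹ ^ a = 1 := m
  rw [inv_pow, inv_eq_one] at k
  refine (pow_eq_one_iff_of_coprime h).1 ⟨k, Units.ext ?_⟩
  rw [Units.val_pow_eq_pow_val, MulChar.coe_toUnitHom, ← eta, ← MonoidHom.pow_apply,
    pow_orderOf_eq_one]
  rfl

theorem a0 (h : a.Coprime (orderOf D.η)) : a ≠ 0 := by
  rintro rfl
  exact D.dc.one.ne (pm D h 1 (one_dvd _) fun x _ => by simp)

theorem nx_unit (a : ℕ) (u : (ZMod D.f)ˣ) :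
    (nx D.ψ a u : F) = (D.ψ.toUnitHom⁻¹ ^ a : (ZMod D.f)ˣ →* Fˣ) u := by
  simp [nx]

theorem nx_non (h : a.Coprime (orderOf D.η)) {t : ZMod D.f} (n : ¬ IsUnit t) : nx D.ψ a t = 0 := by
  simp [nx, D.ψ.map_nonunit n, a0 D h]

theorem lv_pow (k a : ℕ) {x : F} (n : x ≠ 0) : x ^ lv k a = x ^ (k * a) := by
  have := pp_prime.two_le
  rw [lv, pow_succ, ← Inr.pw_mod n, ← pow_succ, show k * a + (pp - 2) + 1 = k * a + (pp - 1) by omega,
    pow_add, ZMod.pow_card_sub_one_eq_one n, mul_one]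

/-- the part at `p` of the character -/
theorem loc {m : ℕ} (q : D.f = pp * m) (d : ¬ pp ∣ m) (u : (ZMod D.f)ˣ)
    (h : (u : ZMod D.f).val ≡ 1 [MOD m]) : D.ψ u = ((u : ZMod D.f).val : F) ^ D.k := by
  have o := e.ov pp e.pm
  obtain ⟨g, i, rfl⟩ := P022.H297.L3.inert_cyc pp_prime (k := 1) (by rw [pow_one, q])
    (pp_prime.coprime_iff_not_dvd.2 d) o.2.1 o.2.2 u h
  rw [← eta, D.ec.ine _ g o i, oz, om_cyc, ← um_cyc ⟨m, q⟩, ZMod.unitsMap_val, ZMod.cast_eq_val]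

theorem loc' {m : ℕ} (q : D.f = pp * m) (d : ¬ pp ∣ m) (a : ℕ) (u : (ZMod D.f)ˣ)
    (h : (u : ZMod D.f).val ≡ 1 [MOD m]) :
    ((u : ZMod D.f).val : F) ≠ 0 ∧ ((D.ψ.toUnitHom⁻¹ ^ a : (ZMod D.f)ˣ →* Fˣ) u : F) *
      ((u : ZMod D.f).val : F) ^ lv D.k a = 1 := by
  have n : ((u : ZMod D.f).val : F) ≠ 0 := ((ZMod.isUnit_iff_coprime _ _).2
    ((ZMod.val_coe_unit_coprime u).coprime_dvd_right ⟨m, q⟩)).ne_zero
  refine ⟨n, ?_⟩
  rw [← nx_unit, nx, ZMod.natCast_zmod_val, loc D q d u h, lv_pow _ _ n, pow_mul, ← mul_pow,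
    inv_mul_cancel₀ (pow_ne_zero _ n), one_pow]

theorem lv1 (h : a.Coprime (orderOf D.η)) {m : ℕ} (q : D.f = pp * m) (d : ¬ pp ∣ m) :
    2 ≤ lv D.k a ∧ lv D.k a + 3 ≤ pp := by
  have := D.five
  have o := Nat.odd_iff.1 (pp_prime.odd_of_ne_two pp_ne_two)
  have b := Nat.even_iff.1 (D.ec.ev.mul_right a)
  have c := Nat.mod_mod_of_dvd (D.k * a + (pp - 2)) (by omega : 2 ∣ pp - 1)
  have l := Nat.mod_lt (D.k * a + (pp - 2)) (by omega : 0 < pp - 1)
  have n : lv D.k a ≠ pp - 1 := fun n => by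
    have z := pm D h m ⟨pp, q.trans (mul_comm _ _)⟩ fun u w => Units.ext (by
      obtain ⟨x, y⟩ := loc' D q d a u ((um_one _ u).1 w)
      rwa [n, ZMod.pow_card_sub_one_eq_one x, mul_one] at y)
    have := D.dc.one
    nlinarith
  unfold lv at *
  omega

theorem lv0 (a : ℕ) (d : ¬ pp ∣ D.f) : lv D.k a = pp - 1 := by
  have := D.five
  have o := e.ov pp e.pm
  obtain ⟨γ, h⟩ := IsCyclic.exists_generator (α := Fˣ)
  obtain ⟨g, i, r⟩ := Inr.oz_in o γ.ne_zero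
  have k := D.ec.ine _ g o i
  rw [eta, in_cyc o d i, r, Units.val_one, map_one] at k
  obtain ⟨c, hc⟩ := orderOf_dvd_of_pow_eq_one (x := γ) (Units.ext k.symm)
  rw [orderOf_eq_card_of_forall_mem_zpowers h, Nat.card_eq_fintype_card, ZMod.card_units] at hc
  rw [lv, hc, mul_assoc, Nat.mul_add_mod, Nat.mod_eq_of_lt (by omega)]
  omega

end Gz

open Gz in
/-- **GSZ** -/
theorem gsz : GSZ := fun e D a h => by
  have o := e.ov pp e.pm
  have sq : ∀ m, D.f = pp * m → ¬ pp ∣ m := fun m q ⟨c, z⟩ => D.dc.sq ⟨c, by rw [q, z]; ring⟩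
  have b : ∀ t, ¬ IsUnit t → (nx D.ψ a t : F) = 0 := fun t n => by rw [nx_non D h n, Nat.cast_zero]
  obtain ⟨G, g, k⟩ := glob o.2.1.ne_top o.2.2 (zt_prim pp)
    (S := (∑ t : ZMod D.f, (nx D.ψ a t : 𝓞 Qb) * zi D.f ^ t.val : 𝓞 Qb)) (RingOfIntegers.isIntegral_coe _)
    (if pp ∣ D.f then lv D.k a else 0) fun B l => by
      simp only [map_sum (algebraMap (𝓞 Qb) Qb), map_mul (algebraMap (𝓞 Qb) Qb), map_natCast,
        map_pow (algebraMap (𝓞 Qb) Qb), RingOfIntegers.coe_eq_algebraMap]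
      split_ifs with d
      · obtain ⟨m, q⟩ := d
        have := lv1 D h q (sq m q)
        exact val1 _ l (pm D h) (nx_unit D a) b (Cy.zq_prim _) q (sq m q) (by omega) (by omega)
          (fun u w => (loc' D q (sq m q) a u w).2) (zt_prim pp)
      · exact (val0 _ l (pm D h) (nx_unit D a) b (Cy.zq_prim _) d).trans (pow_zero _).symm
  exact ⟨G, g, RingOfIntegers.ext (k.trans (by rw [← pi_coe]; push_cast; rfl)),
    fun ⟨m, q⟩ => lv1 D h q (sq m q), lv0 D a⟩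

end Vale.Agent.P014Z.Lk
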