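import Vale.Agent.P014Z.Lk.St
import Vale.Agent.P014Z.Gl.Dat
import Vale.Agent.P014Z.Qf.Valu

/-! # P014Z, block LK: the maximum principle at the conjugates of the Heegner point -/

set_option autoImplicit false
set_option linter.all false

noncomputable section

namespace Vale.Agent.P014Z.Lk

open NumberField UpperHalfPlane CongruenceSubgroup
open Vale.Agent.P022 (Qb GQ GK below)
open Vale.Agent.P022.H218.L3 Vale.Agent.P022.H236.L3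
open Vale.Agent.P014U P004K P004F.Qx
open P027M.M (io)
open P014Y.F (Crv Fld)
open Gl

variable [Pp]

namespace Ho

variable {e : Crv} (b : Fld e) {M c : ℕ}

theorem fi_le (M0 : 0 < M) (d : pp ∣ M) : Fi b M ≤ below b.j (e.P pp) :=
  Ideal.le_of_dvd ((dvd_pow_self _ (mul_ne_zero two_ne_zero
    (pp_prime.factorization_pos_of_dvd M0.ne' d).ne')).trans (Finset.dvd_prod_of_mem
      (fun l => below b.j (e.P l) ^ (2 * M.factorization l))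
      (Nat.mem_primeFactors.2 ⟨pp_prime, d, M0.ne'⟩)))

theorem p0 (e : Crv) : e.P pp ≠ ⊥ := fun z =>
  pp_prime.ne_zero (Nat.cast_eq_zero.1 (Ideal.mem_bot.1 (z ▸ (e.ov pp e.pm).2.2)))

theorem ov {V : AbsoluteValue ℂ ℝ} (hV : Vp V (e.P pp)) : P004Z.Fin.Ov V pp :=
  hV.ov (e.ov pp e.pm).2.1 pp_prime (e.ov pp e.pm).2.2

theorem pi_mem {P : Ideal (𝓞 Qb)} (hP : P.IsPrime) (h : (pp : 𝓞 Qb) ∈ P) : pi ∈ P := by
  obtain ⟨r, k⟩ := exists_add_pow_prime_eq pp_prime (pi : 𝓞 Qb) 1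
  have z : (pi + 1 : 𝓞 Qb) ^ pp = 1 := RingOfIntegers.ext (by
    simpa [pi_coe] using P022K.G2.zt_pow (p := pp))
  refine hP.mem_of_pow_mem pp ?_
  rw [show (pi : 𝓞 Qb) ^ pp = pp * -(pi * r) by rw [z] at k; linear_combination -k]
  exact P.mul_mem_right _ h

theorem pi_zp {P : Ideal (𝓞 Qb)} (hP : P.IsPrime) (h : (pp : 𝓞 Qb) ∈ P) :
    Zp P (P022K.G2.zt pp - 1) :=
  ⟨1, pi, (Ideal.ne_top_iff_one P).1 hP.ne_top, pi_mem hP h, by simp [pi_coe]⟩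

/-- the conjugates are typical points -/
theorem ty (M0 : 0 < M) (d : pp ∣ M) (sup : ∀ l : ℕ, l.Prime → l ∣ M → l ∈ e.S) (hc : ¬ pp ∣ c)
    {V : AbsoluteValue ℂ ℝ} (hV : Vp V (e.P pp)) {g : GQ} (hg : g ∈ b.Γ) {σ τ τ'} (ex : Ex σ g)
    (h1 : Hp (JJ b.j) (M ^ 2) (Fi b M) c τ) (h2 : Cj0 σ (M ^ 2) τ τ') : ∃ E, Ty V (M ^ 2) E τ' :=
  have o := (e.ov pp e.pm).2
  (typ b.K b.j b.iq _ c b.δ' b.θ _ _ _ V (pow_pos M0 2) b.th b.adm.sq.ne_zero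
    (Dt.sp_fi b M0.ne' sup) o.1 hV (fi_le b M0 d) (P004R.Qf.not_mem o.1 o.2
      (pp_prime.coprime_iff_not_dvd.2 hc) (p0 e)) g hg σ τ τ' ex h1 h2).imp fun _ k => k.1

end Ho

/-- **the maximum principle** -/
theorem hol (vex : VEX) : HOL := fun e b M c M0 d sup hc W h s hm hs hi g hg σ τ τ' ex h1 h2 y hy => by
  obtain ⟨V, hV⟩ := vex (e.P pp) (e.ov pp e.pm).2.1 (Ho.p0 e)
  obtain ⟨E, H⟩ := Ho.ty b M0 d sup hc hV hg ex h1 h2
  rw [(hV.2 y).1, ← hy]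
  refine Qf.mph (Ho.ov hV) (pow_pos M0 2) (d.pow two_ne_zero) h hm hs (fun n => ?_) H
  obtain ⟨z, e1, e2⟩ := hi n
  exact e1 ▸ (hV.2 z).1.1 e2

/-- **two functions with the same expansion modulo `π` have the same values modulo `P`** -/
theorem ew_cmp (vex : VEX) {e : Crv} (D : Da e) (b : Fld e) (hg1 : HG1) {a c : ℕ} (c0 : 0 < c)
    (cf : c.Coprime (D.f * pp)) {Φ Φ' : GQ → Qb} (h : Ew b D.ψ a c Φ) (h' : Ew b D.ψ a c Φ') :
    ∀ g ∈ b.Γ, Ip (e.P pp) (Φ g) ∧ Zp (e.P pp) (Φ g - Φ' g) := fun g hg => by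
  obtain ⟨V, hV⟩ := vex (e.P pp) (e.ov pp e.pm).2.1 (Ho.p0 e)
  obtain ⟨W, hW, s, m, x, n0, co, v⟩ := h
  obtain ⟨W', hW', s', m', x', n0', co', v'⟩ := h'
  have M0 : 0 < D.f * pp := Nat.mul_pos (NeZero.pos _) pp_prime.pos
  have sup : ∀ l : ℕ, l.Prime → l ∣ D.f * pp → l ∈ e.S := fun l p k => (p.dvd_mul.1 k).elim
    (D.dc.sup l p) fun k => (Nat.prime_dvd_prime_iff_eq p pp_prime).1 k ▸ e.pm
  obtain ⟨τ, h1⟩ := (hg1 b.K b.j b.iq _ c _ (pow_pos M0 2) c0 (cf.pow_right 2)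
    (Dt.sp_fi b M0.ne' sup).cn).1
  obtain ⟨σ, ex⟩ := ex_ex g
  obtain ⟨τ', h2⟩ := ex_cj0 σ (pow_pos M0 2) τ
  obtain ⟨E, H⟩ := Ho.ty b M0 (dvd_mul_left _ _) sup
    (pp_prime.coprime_iff_not_dvd.1 cf.coprime_mul_left_right.symm) hV hg ex h1 h2
  have o := Ho.ov hV
  have z := P022K.G2.zt_prim pp
  have p0 : io (P022K.G2.zt pp - 1) ≠ 0 := fun k =>
    z.ne_one pp_prime.one_lt (sub_eq_zero.1 (P004K.io_inj (k.trans (map_zero _).symm)))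
  have p1 : V (io (P022K.G2.zt pp - 1)) < 1 :=
    (hV.2 _).2.1 (Ho.pi_zp (e.ov pp e.pm).2.1 (e.ov pp e.pm).2.2)
  have cv : ∀ {z : Qb} {k : ℕ}, Ip (e.P pp) ((z - k) / (P022K.G2.zt pp - 1)) →
      V (io z - k) ≤ V (io (P022K.G2.zt pp - 1)) := fun k => by
    have := (hV.2 _).1.1 k
    rwa [map_div₀, map_div₀, div_le_one (V.pos p0), map_sub io, map_natCast] at this
  have d2 : pp ∣ (D.f * pp) ^ 2 := (dvd_mul_left _ _).pow two_ne_zero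
  rw [(hV.2 _).1, (hV.2 _).2, map_sub, v g hg σ τ τ' ex h1 h2, v' g hg σ τ τ' ex h1 h2]
  refine ⟨Qf.mph o (pow_pos M0 2) d2 hW m x (fun n => ?_) H,
    (Qf.agree o (pow_pos M0 2) d2 hW hW' m m' x x' p0 (fun n => ?_) H).trans_lt p1⟩
  · rcases lt_or_ge n 0 with k | k
    · simp [n0 n k]
    obtain ⟨n, rfl⟩ := Int.eq_ofNat_of_zero_le k
    obtain ⟨z, e1, e2⟩ := co n
    have := hV.1 (io z - (ec D.ψ a n).val) (ec D.ψ a n).val
    rw [sub_add_cancel] at this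
    exact e1 ▸ this.trans (max_le ((cv e2).trans p1.le) (by
      simpa only [Int.cast_natCast] using P004R.Qf.v_int hV.1 ((ec D.ψ a n).val : ℕ)))
  · rcases lt_or_ge n 0 with k | k
    · simp [n0 n k, n0' n k]
    obtain ⟨n, rfl⟩ := Int.eq_ofNat_of_zero_le k
    obtain ⟨z, e1, e2⟩ := co n
    obtain ⟨z', e3, e4⟩ := co' n
    have := hV.1 (io z - (ec D.ψ a n).val) (-(io z' - (ec D.ψ a n).val))
    rw [V.map_neg, ← sub_eq_add_neg, sub_sub_sub_cancel_right] at this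
    rw [e1, e3]
    exact this.trans (max_le (cv e2) (cv e4))

end Vale.Agent.P014Z.Lk
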