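import Vale.Agent.P004N.Defs

/-!
# P014Z: Eisenstein congruences for all coefficients, for a pair of characters
-/

set_option autoImplicit false
set_option linter.all false

open Finset

noncomputable section

namespace Vale.Agent.P014Z.Lk

variable {A : Type} [CommRing A]

/-- completely multiplicative -/
structure Cm (χ : ℕ → A) : Prop where
  one : χ 1 = 1
  mul : ∀ a b, χ (a * b) = χ a * χ b

/-- the convolution -/
def cv (χ χ' : ℕ → A) (n : ℕ) : A := ∑ x ∈ n.divisorsAntidiagonal, χ x.1 * χ' x.2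

variable {χ χ' : ℕ → A}

theorem Cm.nat (h : Cm χ) : Cm fun n => n * χ n :=
  ⟨by simp [h.one], fun a b => by rw [h.mul]; push_cast; ring⟩

theorem cv_zero : cv χ χ' 0 = 0 := by simp [cv]

theorem cv_nat (n : ℕ) : n * cv χ χ' n = cv (fun d => d * χ d) (fun d => d * χ' d) n := by
  rw [cv, cv, mul_sum]
  refine sum_congr rfl fun x m => ?_
  rw [← (Nat.mem_divisorsAntidiagonal.1 m).1]
  push_cast
  ring

theorem cv_map {B : Type} [CommRing B] (f : A →+* B) (n : ℕ) :
    f (cv χ χ' n) = cv (fun d => f (χ d)) (fun d => f (χ' d)) n := by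
  simp only [cv, map_sum, map_mul]

/-- the convolution only depends on the values at the divisors -/
theorem cv_dvd {π : A} {θ θ' : ℕ → A} {n : ℕ} (h : ∀ d, d ∣ n → π ∣ χ d - θ d ∧ π ∣ χ' d - θ' d) :
    π ∣ cv χ χ' n - cv θ θ' n := by
  rw [cv, cv, ← sum_sub_distrib]
  refine dvd_sum fun x m => ?_
  have e := (Nat.mem_divisorsAntidiagonal.1 m).1
  convert dvd_add ((h x.1 ⟨_, e.symm⟩).1.mul_right (χ' x.2))
    ((h x.2 (Dvd.intro_left _ e)).2.mul_left (θ x.1)) using 1
  ring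

variable (h : Cm χ) (h' : Cm χ')
include h h'

theorem cv_one : cv χ χ' 1 = 1 := by simp [cv, h.one, h'.one]

theorem cv_sc {a b : ℕ} (ha : 0 < a) (hb : 0 < b) (n : ℕ) :
    ∑ x ∈ (a * b * n).divisorsAntidiagonal with a ∣ x.1 ∧ b ∣ x.2, χ x.1 * χ' x.2 =
      χ a * χ' b * cv χ χ' n := by
  rw [cv, mul_sum]
  refine (sum_nbij' (fun y => (a * y.1, b * y.2)) (fun x => (x.1 / a, x.2 / b)) ?_ ?_ ?_ ?_ ?_).symm
  · intro y m
    obtain ⟨e, z⟩ := Nat.mem_divisorsAntidiagonal.1 m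
    exact mem_filter.2 ⟨Nat.mem_divisorsAntidiagonal.2 ⟨by rw [← e]; ring, by positivity⟩,
      dvd_mul_right _ _, dvd_mul_right _ _⟩
  · rintro ⟨x, y⟩ m
    obtain ⟨m, ⟨s, rfl : x = _⟩, t, rfl : y = _⟩ := mem_filter.1 m
    obtain ⟨e, z⟩ := Nat.mem_divisorsAntidiagonal.1 m
    refine Nat.mem_divisorsAntidiagonal.2 ⟨?_, right_ne_zero_of_mul z⟩
    simp only [Nat.mul_div_cancel_left _ ha, Nat.mul_div_cancel_left _ hb]
    exact Nat.eq_of_mul_eq_mul_left (mul_pos ha hb) (by rw [← e]; ring)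
  · intro y _
    simp only [Nat.mul_div_cancel_left _ ha, Nat.mul_div_cancel_left _ hb]
  · intro x m
    obtain ⟨-, s, t⟩ := mem_filter.1 m
    simp only [Nat.mul_div_cancel' s, Nat.mul_div_cancel' t]
  · intro y _
    rw [h.mul, h'.mul]
    ring

/-- **the recursion at a prime** -/
theorem cv_rec {l : ℕ} (hl : l.Prime) (m : ℕ) :
    cv χ χ' (l * m) + (if l ∣ m then χ l * χ' l * cv χ χ' (m / l) else 0) =
      (χ l + χ' l) * cv χ χ' m := by
  have e1 := cv_sc h h' hl.pos one_pos m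
  have e2 := cv_sc h h' one_pos hl.pos m
  have e3 : ∑ x ∈ (l * m).divisorsAntidiagonal with l ∣ x.1 ∧ l ∣ x.2, χ x.1 * χ' x.2 =
      if l ∣ m then χ l * χ' l * cv χ χ' (m / l) else 0 := by
    split_ifs with d
    · rw [← cv_sc h h' hl.pos hl.pos, mul_assoc, Nat.mul_div_cancel' d]
    · refine sum_eq_zero fun x k => (d ?_).elim
      obtain ⟨k, s, t⟩ := mem_filter.1 k
      exact Nat.dvd_of_mul_dvd_mul_left hl.pos
        ((Nat.mem_divisorsAntidiagonal.1 k).1 ▸ mul_dvd_mul s t)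
  rw [mul_one, h'.one, mul_one] at e1
  rw [one_mul, h.one, one_mul] at e2
  rw [add_mul, ← e1, ← e2, ← e3, cv, sum_filter, sum_filter, sum_filter, ← sum_add_distrib,
    ← sum_add_distrib]
  refine sum_congr rfl fun x k => ?_
  have := (hl.dvd_mul (m := x.1) (n := x.2)).1 ⟨_, (Nat.mem_divisorsAntidiagonal.1 k).1⟩
  by_cases s : l ∣ x.1 <;> by_cases t : l ∣ x.2 <;> simp_all

/-- **Eisenstein congruences for all coefficients** -/
theorem csg0 {N : ℕ} {G : UpperHalfPlane → ℂ} {a : ℕ → ℤ} (rn : P004N.RN N G a) {π : A} {M : ℕ}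
    (H : ∀ l : ℕ, l.Prime → ¬ l ∣ M → ¬ l ∣ N ∧ π ∣ a l - (χ l + χ' l) ∧ π ∣ l - χ l * χ' l)
    (n : ℕ) (hn : n.Coprime M) : π ∣ a n - cv χ χ' n := by
  induction n using Nat.strong_induction_on with
  | _ n ih =>
    rcases eq_or_ne n 1 with rfl | n1
    · simp [rn.one, cv_one h h']
    rcases eq_or_ne n 0 with rfl | n0
    · simp [rn.zero, cv_zero]
    obtain ⟨p, hp, m, rfl⟩ := Nat.exists_prime_and_dvd n1
    have m0 := right_ne_zero_of_mul n0
    have cm : m.Coprime M := Nat.Coprime.coprime_mul_left hn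
    obtain ⟨k1, ⟨s, k2⟩, w, k5⟩ := H p hp
      (hp.coprime_iff_not_dvd.1 (Nat.Coprime.coprime_mul_right hn))
    obtain ⟨t, k3⟩ := ih m (lt_mul_of_one_lt_left (Nat.pos_of_ne_zero m0) hp.one_lt) cm
    have e1 := rn.te p hp k1 m
    have e2 := cv_rec h h' hp m
    beta_reduce at e1
    split_ifs at e1 e2 with d
    · obtain ⟨u, k4⟩ := ih (m / p) ((Nat.div_le_self _ _).trans_lt
        (lt_mul_of_one_lt_left (Nat.pos_of_ne_zero m0) hp.one_lt))
        (cm.coprime_dvd_left (Nat.div_dvd_of_dvd d))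
      have e3 : a (p * m) + p * a (m / p) = a p * a m := by exact_mod_cast e1
      have e4 := congrArg (Int.cast : ℤ → A) e3
      push_cast at e4
      exact ⟨s * a m + (χ p + χ' p) * t - p * u - w * cv χ χ' (m / p), by
        linear_combination e4 - e2 + a m * k2 + (χ p + χ' p) * k3 - p * k4 - cv χ χ' (m / p) * k5⟩
    · have e3 : a (p * m) + 0 = a p * a m := by exact_mod_cast e1
      have e4 := congrArg (Int.cast : ℤ → A) e3
      push_cast at e4
      exact ⟨s * a m + (χ p + χ' p) * t, by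
        linear_combination e4 - e2 + a m * k2 + (χ p + χ' p) * k3⟩

end Vale.Agent.P014Z.Lk
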