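import Vale.Agent.P014Z.St
import Vale.Agent.P004F.Lt.Grp

/-! # P014Z, block Lk: the trace of Frobenius in the words of the Dirichlet character (helper17) -/

set_option autoImplicit false
set_option linter.all false

noncomputable section

namespace Vale.Agent.P014Z.Lk

open NumberField Matrix
open Vale.Agent.P022 (Qb GQ)
open Vale.Agent.P022E.GW (Ov Fb)
open Vale.Agent.P022K.G2 (oz zt oz_spec zt_prim)
open Vale.Agent.P014U
open P014Y.F (Crv Fld)
open P014Y.Mu (F rb)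
open Ml (Tri)
open Gl

variable [Pp]

namespace Tc

theorem tri_tr {Γ : Subgroup GQ} {b : GQ → Matrix (Fin 2) (Fin 2) (ZMod pp)} {α δ : GQ → ZMod pp}
    (h : Tri Γ b α δ) {g : GQ} (m : g ∈ Γ) : (b g).trace = α g + δ g := by
  obtain ⟨C, C', i, k⟩ := h
  rw [← (k g m).2.1, ← (k g m).2.2, ← trace_fin_two, trace_mul_cycle, i, one_mul]

variable {l : ℕ} {P : Ideal (𝓞 Qb)} {φ : GQ}

theorem oz_fb (o : Ov l P) (n : l ≠ pp) (f : Fb l P φ) : oz pp φ = l := by
  have e := (oz_spec φ).symm.trans (P004F.Lt.root o (fun c => n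
    ((Nat.prime_dvd_prime_iff_eq o.1 pp_prime).1 c)) (zt_prim pp).pow_eq_one f)
  rw [((zt_prim pp).isOfFinOrder pp_ne).pow_eq_pow_iff_modEq, ← (zt_prim pp).eq_orderOf,
    ← ZMod.natCast_eq_natCast_iff, ZMod.natCast_zmod_val] at e
  exact e

variable {e : Crv}

theorem rb_fb (o : Ov l P) (k : l ∉ e.S) (f : Fb l P φ) : (rb e φ).trace = e.a l := by
  rw [show rb e φ = (e.r φ).map PadicInt.toZMod from rfl, ← AddMonoidHom.map_trace,
    show (e.r φ).trace = e.a l from (e.bad l o.1 k).2.2 φ ⟨P, o.2.1, o.2.2, f⟩, map_intCast]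

variable (D : Da e)

theorem tr (g : GQ) : (rb e g).trace = D.η g + D.η' g :=
  D.ec.tri.elim (fun h => tri_tr h trivial) fun h => (tri_tr h trivial).trans (add_comm _ _)

theorem ne0 (g : GQ) : D.η g ≠ 0 := ((Group.isUnit g).map D.η).ne_zero

/-- the value at a Frobenius element -/
theorem eta_fb (o : Ov l P) (n : ¬ l ∣ D.f) (f : Fb l P φ) : D.η φ = D.ψ l :=
  D.dc.eq φ l fun _ z => P004F.Lt.root o n z f

theorem eta' (g : GQ) : D.η' g = oz pp g * (D.η g)⁻¹ := by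
  rw [← D.ec.det g, mul_comm (D.η g), mul_assoc, mul_inv_cancel₀ (ne0 D g), mul_one]

end Tc

open Tc

/-- **the trace of Frobenius** -/
theorem trc {e : Crv} (D : Da e) {l : ℕ} (hl : l.Prime) (k : l ∉ e.S) :
    ¬ l ∣ e.N ∧ (e.a l : F) = D.ψ l + l * (D.ψ l)⁻¹ ∧ D.ψ l ≠ 0 := by
  obtain ⟨P, a, b⟩ := P022.H916.exists_prime hl
  have o : Ov l P := ⟨hl, a, b⟩
  obtain ⟨φ, f⟩ := P022D.W.exists_phi hl a b
  have h := eta_fb D o (fun d => k (D.dc.sup l hl d)) f
  exact ⟨(e.bad l hl k).1, by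
    rw [← rb_fb o k f, tr D, eta', h, oz_fb o (fun c => k (c ▸ e.pm)) f], h ▸ ne0 D φ⟩

end Vale.Agent.P014Z.Lk
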