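import Vale.Agent.P014Z.Lk.St
import Vale.Agent.P014Z.Lk.Csg0
import Vale.Agent.P014Z.Lk.Trc
import Vale.Agent.P014Z.Qf.Ser

/-! # P014Z, block LK: the hypotheses on the series (helper54) -/

set_option autoImplicit false
set_option linter.all false

noncomputable section

namespace Vale.Agent.P014Z.Lk

open NumberField Finset PowerSeries
open scoped Classical
open Vale.Agent.P022 (Qb)
open Vale.Agent.P022K.G2 (zt zt_prim)
open Vale.Agent.P014U
open P014Y.F (Crv)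
open P014Y.Mu (F)
open Gl

variable [Pp]

namespace Se

/-- the coefficients of the curve modulo `p` -/
theorem crv (trc : TRC) (e : Crv) (D : Da e) (n : ℕ) (hn : n.Coprime e.S.prod) :
    (e.a n : F) = n * ec D.ψ 1 n := by
  haveI : Fact pp.Prime := ⟨pp_prime⟩
  have c1 : Cm fun d : ℕ => (D.ψ d)⁻¹ := ⟨by simp, fun a b => by
    rw [Nat.cast_mul, map_mul, mul_inv]⟩
  have c2 : Cm fun d : ℕ => D.ψ d * (d : F)⁻¹ := ⟨by simp, fun a b => by
    rw [Nat.cast_mul, Nat.cast_mul, map_mul, mul_inv]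
    ring⟩
  have k := csg0 c1.nat c2.nat e.rn (π := 0) (M := e.S.prod) (fun l hl h => by
    have s : l ∉ e.S := fun m => h (List.dvd_prod m)
    have l0 : (l : F) ≠ 0 := fun z => s (by
      rw [← (Nat.prime_dvd_prime_iff_eq pp_prime hl).1 ((ZMod.natCast_eq_zero_iff _ _).1 z)]
      exact e.pm)
    have p0 : D.ψ l ≠ 0 := (((ZMod.isUnit_iff_coprime l D.f).2
      (hl.coprime_iff_not_dvd.2 fun d => s (D.dc.sup l hl d))).map D.ψ).ne_zero
    refine ⟨(e.bad l hl s).1, ?_, ?_⟩ <;> rw [zero_dvd_iff]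
    · rw [trc e D l hl s]
      field_simp
      ring
    · field_simp
      ring) n hn
  rw [zero_dvd_iff, sub_eq_zero, ← cv_nat] at k
  rw [k]
  simp only [cv, ec, pow_one]
  exact congrArg _ (sum_congr rfl fun x _ => (mul_assoc _ _ _).symm)

theorem pi_dvd : (pi : 𝓞 Qb) ∣ pp := by
  haveI : Fact pp.Prime := ⟨pp_prime⟩
  have g : ∑ i ∈ range pp, (pi + 1 : 𝓞 Qb) ^ i = 0 := RingOfIntegers.coe_injective (by
    have := (zt_prim pp).geom_sum_eq_zero pp_prime.one_lt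
    have e : algebraMap (𝓞 Qb) Qb pi = zt pp - 1 := rfl
    simpa [e] using this)
  have : (pi : 𝓞 Qb) ∣ ∑ i ∈ range pp, ((pi + 1) ^ i - 1 ^ i) := dvd_sum fun i _ => by
    simpa using sub_dvd_pow_sub_pow (pi + 1 : 𝓞 Qb) 1 i
  simpa [sum_sub_distrib, g] using this

end Se

open Se in
/-- **the hypotheses on the series** -/
theorem ser (trc : TRC) : SER := fun e D G s h => by
  haveI : Fact pp.Prime := ⟨pp_prime⟩
  let q := Ideal.Quotient.mk (Ideal.span {(pi : 𝓞 Qb)})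
  have hq : ∀ x, q x = 0 ↔ pi ∣ x := fun x =>
    Ideal.Quotient.eq_zero_iff_mem.trans Ideal.mem_span_singleton
  have z : ((pp : ℕ) : 𝓞 Qb ⧸ Ideal.span {(pi : 𝓞 Qb)}) = 0 := by
    rw [← map_natCast q, hq]
    exact pi_dvd
  haveI := ringChar.charP (𝓞 Qb ⧸ Ideal.span {(pi : 𝓞 Qb)})
  let φ : F →+* 𝓞 Qb ⧸ Ideal.span {(pi : 𝓞 Qb)} := ZMod.castHom (ringChar.dvd z) _
  have v : ∀ x : F, ((x.val : ℕ) : 𝓞 Qb ⧸ Ideal.span {(pi : 𝓞 Qb)}) = φ x := fun x => by
    rw [← map_natCast φ, ZMod.natCast_zmod_val]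
  have c : ∀ n, φ (ec D.ψ 1 n) =
      Qf.cv (fun d : ℕ => φ (D.ψ d)⁻¹) (fun d : ℕ => φ (D.ψ d * (d : F)⁻¹)) n := fun n => by
    simp only [Qf.cv, ec, pow_one, map_sum, mul_assoc]
    exact sum_congr rfl fun x _ => map_mul _ _ _
  refine Qf.sr_of q (fun x => (hq x).1) (f := fun d : ℕ => φ (D.ψ d)⁻¹)
    (g := fun d : ℕ => φ (D.ψ d * (d : F)⁻¹)) (fun a b => ?_) (fun a b => ?_) (fun n => ?_)
    (fun l m => (e.ov l m).1) (fun _ m => m) (fun l _ => ?_) (fun _ m n => (n m).elim) fun n hn => ?_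
  · beta_reduce
    rw [← map_mul, Nat.cast_mul, map_mul D.ψ, mul_inv]
  · beta_reduce
    rw [← map_mul, Nat.cast_mul, Nat.cast_mul, map_mul D.ψ, mul_inv]
    exact congrArg φ (by ring)
  · have := (hq _).2 (h n)
    rwa [map_sub, map_mul, map_natCast, v, c, sub_eq_zero] at this
  · simp only [Int.cast_add, Int.cast_mul, Int.cast_natCast, v, and_self]
  · rw [← c, ← map_natCast φ, ← map_mul, ← crv trc e D n hn, map_intCast]

theorem x_trc : TRC := fun _ D _ hl k => (trc D hl k).2.1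

theorem x_ser : SER := ser x_trc

end Vale.Agent.P014Z.Lk
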