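import Vale.Agent.P014Z.Lk.Lnk
import Vale.Agent.P014Z.Lk.Ser
import Vale.Agent.P004K.Rc.All
import Vale.Agent.P004K.Hg.At
import Vale.Agent.P004K.Tr
import Vale.Agent.P004F.Qx.Exp
import Vale.Agent.P004F.Qx.Dep
import Vale.Agent.P004F.Qx.Vex

/-! # P014Z, block LK: the link with the curve, without hypotheses -/

set_option autoImplicit false

namespace Vale.Agent.P014Z.Lk

open P004K P004F P014U

theorem x_lnk [Pp] : Gl.LNK :=
  have h := hg1 Rc.iq jh x_rc1 cj0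
  lnk h x_rc1 (Qx.qexp Qx.vex h (Qx.dep_row h x_rc2)) x_trc (vu_of Qx.mpc Qx.vex h x_rc2 tr0)

end Vale.Agent.P014Z.Lk
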