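import Vale.Agent.P014Z.Lk.St
import Vale.Agent.P014Z.Lk.Brv0

/-! # P014Z, block LK, row WVX -/

set_option autoImplicit false
set_option linter.all false

namespace Vale.Agent.P014Z.Lk

open Vale.Agent.P014U P004K

theorem wvx [Pp] (hg1 : HG1) : WVX := fun _ _ _ _ L _ h => B0.wv L hg1 h

end Vale.Agent.P014Z.Lk
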