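import Vale.Agent.P004K.All
import Vale.Agent.P004F.Qx.Vex
import Vale.Agent.P014Z.Lk.Brv
import Vale.Agent.P014Z.Lk.Cha
import Vale.Agent.P014Z.Lk.Fn0
import Vale.Agent.P014Z.Lk.Fn1
import Vale.Agent.P014Z.Lk.Gal
import Vale.Agent.P014Z.Lk.Gsz
import Vale.Agent.P014Z.Lk.Hol
import Vale.Agent.P014Z.Lk.Lnk1
import Vale.Agent.P014Z.Lk.Wvx

/-! # P014Z, block LK: the three exports, closed (`x_lnk` is in `Lnk1`) -/

set_option autoImplicit false

namespace Vale.Agent.P014Z.Lk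

open P004K (x_rc1 x_rc2 y_hg1)
open P004F.Qx (vex)

variable [P014U.Pp]

/-- **the characters** -/
theorem x_cha : Gl.CHA := cha

/-- **the leading terms of the unit** -/
theorem x_brv : Gl.BRV :=
  brv y_hg1 x_rc1 x_rc2 gsz (fn0 gsz) (fn1 gsz) prd (wvx y_hg1) (hol vex)

end Vale.Agent.P014Z.Lk
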