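import Vale.Agent.P014Z.Lk.Shf0
import Vale.Agent.P014Z.Qf.Gen

/-!
# P014Z: the cost of the depletion with integral coefficients
-/

set_option autoImplicit false
set_option linter.all false

open NumberField

noncomputable section

namespace Vale.Agent.P014Z.Lk

open Vale.Agent.P022 P004K
open Vale.Agent.P022E.GW (Ov)
open Vale.Agent.P022K.G2 (Tv)
open P004R (Vn)
open P004R.Sf (conj Ao Zo)
open Qf (dpl)

variable {Γ U : Subgroup GQ} {R : Finset GQ} {p m N : ℕ} (hN : N = p ^ m) {e : GQ → ZMod N}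
  {P : Ideal (𝓞 Qb)} (o : Ov p P) (T : Tv Γ U R) (hU : U ≤ Γ)
  (hc : ∀ g ∈ Γ, ∀ g' ∈ Γ, g * g' * g⁻¹ * g'⁻¹ ∈ U)

namespace Sf

variable [hP : P.IsPrime] {a b : Qb}

theorem zp_ip (h : Zp P a) : P004K.Ip P a := let ⟨s, t, x, _, y⟩ := h; ⟨s, t, x, y⟩

theorem zp_add (h : Zp P a) (k : Zp P b) : Zp P (a + b) :=
  (Zo P).add_mem (a := ⟨a, zp_ip h⟩) (b := ⟨b, zp_ip k⟩) h k

theorem zp_mul (h : P004K.Ip P a) (k : Zp P b) : Zp P (a * b) :=
  (Zo P).mul_mem_left ⟨a, h⟩ (b := ⟨b, zp_ip k⟩) k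

theorem zp_sum {ι : Type} {s : Finset ι} {f : ι → Qb} (h : ∀ i ∈ s, Zp P (f i)) :
    Zp P (∑ i ∈ s, f i) :=
  Finset.sum_induction f _ (fun _ _ => zp_add) (Zo P).zero_mem h

theorem vn_congr {f f' : GQ → Qb} {l : ℕ} (h : ∀ g ∈ R, Zp P (f' g - f g)) (k : Vn P R e f l) :
    Vn P R e f' l := fun i m => by
  convert zp_add (k i m) (zp_sum fun g x => zp_mul (natCast_mem (Ao P) ((e g).val.choose i))
    (h g x)) using 1
  rw [← Finset.sum_add_distrib]
  exact Finset.sum_congr rfl fun g _ => by ring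

omit hP in
include o in
theorem zp_int {n : ℤ} : Zp P n ↔ (p : ℤ) ∣ n := by
  have := o.2.1
  refine ⟨fun ⟨s, t, x, y, z⟩ => P004S.ov_dvd o ((this.mem_or_mem (show s * n ∈ P from
    (show s * n = t from RingOfIntegers.ext (by simpa using z)) ▸ y)).resolve_left x), ?_⟩
  rintro ⟨k, rfl⟩
  rw [mul_comm, Int.cast_mul]
  exact zp_mul (intCast_mem (Ao P) k)
    ⟨1, p, (Ideal.ne_top_iff_one P).1 this.ne_top, by simpa using o.2.2, by simp⟩

end Sf

open Sf

include o in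
/-- integral coefficients -/
theorem ct_int {a : ℤ} {ψ : GQ} {r : ℕ} (h : (p : ℤ) ∣ a - 1 → 0 < r ∧ IsUnit (e ψ)) :
    Ct P e a ψ r :=
  have := o.2.1
  ⟨intCast_mem (Ao P) a, or_iff_not_imp_left.2 fun k =>
    h ((zp_int o).1 (by simpa using not_not.1 k))⟩

include o hU hc in
theorem Fn.dpl {h : GQ → Qb} (hh : Fn Γ U P h) {φ : ℕ → GQ} (α β : ℕ → ℤ) {L : List ℕ}
    (hL : ∀ l ∈ L, φ l ∈ Γ) : Fn Γ U P (dpl α β φ h L) := by
  have := o.2.1
  induction L with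
  | nil => exact hh
  | cons l L ih =>
    intro g hg
    have i := ih fun q m => hL q (List.mem_cons_of_mem _ m)
    have p1 := hL l List.mem_cons_self
    have p2 := pow_mem p1 2
    refine ⟨(Ao P).add_mem ((Ao P).sub_mem (i g hg).1 ((Ao P).mul_mem (intCast_mem _ _)
      (i _ (mul_mem hg p1)).1)) ((Ao P).mul_mem (intCast_mem _ _) (i _ (mul_mem hg p2)).1),
      fun u hu => ?_⟩
    simp only [Qf.dpl]
    rw [(i g hg).2 u hu, ← (i _ (mul_mem hg p1)).2 _ (conj hU hc (inv_mem p1) hu),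
      ← (i _ (mul_mem hg p2)).2 _ (conj hU hc (inv_mem p2) hu)]
    simp only [mul_assoc, mul_inv_cancel_left, inv_inv]

variable (ha : ∀ g ∈ Γ, ∀ g' ∈ Γ, e (g * g') = e g + e g') (h0 : ∀ g ∈ U, e g = 0)

include hN o T hU hc ha h0

/-- **the cost of the depletion**: `1 - α V + β V ^ 2 = (1 - a V) (1 - b V)` modulo `p` -/
theorem shfz {h : GQ → Qb} (hh : Fn Γ U P h) {φ : ℕ → GQ} {α β a b : ℕ → ℤ} {r s : ℕ → ℕ}
    {L : List ℕ} (hL : ∀ q ∈ L, φ q ∈ Γ ∧ (p : ℤ) ∣ α q - (a q + b q) ∧ (p : ℤ) ∣ β q - a q * b q ∧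
      ((p : ℤ) ∣ a q - 1 → 0 < r q ∧ IsUnit (e (φ q))) ∧
      ((p : ℤ) ∣ b q - 1 → 0 < s q ∧ IsUnit (e (φ q)))) {l : ℕ}
    (hl : l + (L.map fun q => r q + s q).sum ≤ N)
    (H : Vn P R e (dpl α β φ h L) (l + (L.map fun q => r q + s q).sum)) : Vn P R e h l := by
  have := o.2.1
  induction L with
  | nil => exact H
  | cons q L ih =>
    have k := fun q m => hL q (List.mem_cons_of_mem _ m)
    have i := hh.dpl o hU hc α β fun q m => (k q m).1
    obtain ⟨x, y, z, c, d⟩ := hL q List.mem_cons_self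
    rw [List.map_cons, List.sum_cons, add_comm (r q + s q), ← add_assoc, ← add_assoc] at hl H
    refine ih k (by omega) (shf1 hN o T hU hc ha h0 i x (ct_int o c) (by omega)
      (shf1 hN o T hU hc ha h0 (i.one o hU hc x (intCast_mem (Ao P) _)) x (ct_int o d) hl
        (vn_congr (fun g m => ?_) H)))
    convert zp_add (zp_mul (i _ (mul_mem (T.mem g m) x)).1 ((zp_int o).2 y))
      (zp_mul (i _ (mul_mem (T.mem g m) (pow_mem x 2))).1 ((zp_int o).2 z.neg_right)) using 1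
    simp only [Qf.dpl, pow_two, ← mul_assoc]
    push_cast
    ring

end Vale.Agent.P014Z.Lk
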