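import Vale.Agent.P014Z.Lk.La0
import Vale.Agent.P027M.D.Over
import Vale.Agent.P004K.St2
import Vale.Agent.P022K.G2.Tam

/-! # P014Z, block Lk: the valuation of a prime of `ℚ̄`, leading terms modulo powers -/

set_option autoImplicit false
set_option linter.all false

open NumberField

noncomputable section

namespace Vale.Agent.P014Z.Lk.La

open Vale.Agent.P022 (Qb GQ)
open Vale.Agent.P027M.S (Inert)
open Vale.Agent.P022D.W (dec)
open Vale.Agent.P022E.GW (Ov Fb)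
open Vale.Agent.P022K.G2 (oz zt zt_prim oz_spec oz_mul oz_one oz_ne)
open P004K (Ip Zp)

/-- the valuation of `P` -/
structure Vp (P : Ideal (𝓞 Qb)) {Γ₀ : Type} [LinearOrderedCommGroupWithZero Γ₀]
    (V : Valuation Qb Γ₀) : Prop where
  ip : ∀ x, Ip P x ↔ V x ≤ 1
  zp : ∀ x, Zp P x ↔ V x < 1

variable {l : ℕ} {P : Ideal (𝓞 Qb)}

theorem ex_vp (o : Ov l P) : ∃ O : ValuationSubring Qb, Vp P O.valuation := by
  obtain ⟨O, hO, -⟩ := P027M.D.over_ok l P o.1 o.2.1 o.2.2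
  have i : ∀ x, Ip P x ↔ O.valuation x ≤ 1 := fun x => ((O.valuation_le_one_iff x).trans (hO x)).symm
  refine ⟨O, i, fun x => ⟨fun ⟨s, t, a, b, e⟩ => P027M.D.Ov.lt_one o.2.1 hO a b e, fun h => ?_⟩⟩
  obtain ⟨s, t, a, e⟩ := (i x).2 h.le
  refine ⟨s, t, a, by_contra fun b => ?_, e⟩
  have t0 : (t : Qb) ≠ 0 := fun c => b (by rw [show t = 0 from RingOfIntegers.ext c]; exact zero_mem _)
  have := mul_lt (mul_lt' ((i s).1 ⟨1, s, o.2.1.one_notMem, by simp⟩) h)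
    ((i (t : Qb)⁻¹).1 ⟨t, 1, b, by simpa using mul_inv_cancel₀ t0⟩)
  rw [e, mul_inv_cancel₀ t0, map_one] at this
  exact this.false

/-- finite orbits -/
theorem ex_per (g : GQ) (x : Qb) : ∃ k, 0 < k ∧ (g ^ k) x = x := by
  have : Algebra.IsIntegral ℚ Qb := (AlgebraicClosure.isAlgebraic ℚ).isIntegral
  have i : (MulAction.stabilizer GQ x).index ≠ 0 := by
    have := (Subgroup.quotient_finite_of_isOpen _ (stabilizer_isOpen_of_isIntegral (K := ℚ) x))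
    exact Subgroup.index_ne_zero_of_finite
  obtain ⟨k, k0, -, m⟩ := Subgroup.exists_pow_mem_of_index_ne_zero i g
  exact ⟨k, k0, m⟩

theorem fb_dec {g : GQ} (o : Ov l P) (hg : Fb l P g) : g ∈ dec P := fun x =>
  ⟨fun m => o.2.1.mem_of_pow_mem l (by simpa using sub_mem m (hg x)),
    fun m => by simpa using add_mem (hg x) (Ideal.pow_mem_of_mem _ m l o.1.pos)⟩

namespace Vp

variable {Γ₀ : Type} [LinearOrderedCommGroupWithZero Γ₀] {V : Valuation Qb Γ₀} (h : Vp P V)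
  (o : Ov l P) {g : GQ}
include h o

theorem int (x : 𝓞 Qb) : V x ≤ 1 := (h.ip _).1 ⟨1, x, o.2.1.one_notMem, by simp⟩

theorem mem (x : 𝓞 Qb) : V x < 1 ↔ x ∈ P := by
  rw [← h.zp]
  refine ⟨fun ⟨s, t, a, b, e⟩ => (o.2.1.mem_or_mem (show s * x ∈ P from ?_)).resolve_left a,
    fun m => ⟨1, x, o.2.1.one_notMem, m, by simp⟩⟩
  rwa [show s * x = t from RingOfIntegers.ext e]

theorem unit {x : 𝓞 Qb} (n : x ∉ P) : V x = 1 :=
  (h.int o x).eq_or_lt.resolve_right fun c => n ((h.mem o x).1 c)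

theorem lt : V (l : Qb) < 1 := by simpa using (h.mem o l).2 o.2.2

theorem dec_le (hg : g ∈ dec P) {x : Qb} (a : V x ≤ 1) : V (g x) ≤ 1 := by
  obtain ⟨s, t, b, e⟩ := (h.ip x).2 a
  exact (h.ip _).1 ⟨g • s, g • t, fun c => b ((hg s).1 c), (map_mul g _ _).symm.trans (congrArg g e)⟩

theorem dec_lt (hg : g ∈ dec P) {x : Qb} (a : V x < 1) : V (g x) < 1 := by
  obtain ⟨s, t, b, c, e⟩ := (h.zp x).2 a
  exact (h.zp _).1 ⟨g • s, g • t, fun c => b ((hg s).1 c), (hg t).2 c,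
    (map_mul g _ _).symm.trans (congrArg g e)⟩

/-- the decomposition group acts by isometries -/
theorem dec_eq (hg : g ∈ dec P) (x : Qb) : V (g x) = V x := by
  have key : ∀ g ∈ dec P, ∀ x, ¬ V (g x) < V x := fun g hg x c => by
    have x0 : x ≠ 0 := by rintro rfl; simp at c
    have st : ∀ k : ℕ, V ((g ^ (k + 1)) x) < V x := fun k => by
      induction k with
      | zero => simpa using c
      | succ k ih =>
        have := h.dec_lt o hg (x := (g ^ (k + 1)) x / x)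
          (by rwa [map_div₀, div_lt_one₀ (V.pos_iff.2 x0)])
        rw [map_div₀, map_div₀, div_lt_one₀ (V.pos_iff.2 ((map_ne_zero g).2 x0))] at this
        rw [pow_succ']
        exact this.trans c
    obtain ⟨k, k0, e⟩ := ex_per g x
    have := st (k - 1)
    rw [Nat.sub_add_cancel k0, e] at this
    exact this.false
  refine le_antisymm (not_lt.1 fun c => key g⁻¹ (inv_mem hg) (g x) ?_) (not_lt.1 (key g hg x))
  rwa [show g⁻¹ (g x) = x from g.symm_apply_apply x]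

theorem cg {n : ℕ} (hg : g ∈ dec P) (e : ∀ x : 𝓞 Qb, g • x - x ^ n ∈ P) {x : Qb} (a : V x ≤ 1) :
    V (g x - x ^ n) < 1 := by
  obtain ⟨s, t, b, c⟩ := (h.ip x).2 a
  have c' : g s * g x = g t := by simpa using congrArg g c
  have u := h.unit o b
  have k : ∀ y : 𝓞 Qb, V (g y - (y : Qb) ^ n) < 1 := fun y => by
    have := (h.mem o _).2 (e y)
    rwa [RingOfIntegers.coe_eq_algebraMap, map_sub, map_pow] at this
  have : V (g s * (g x - x ^ n)) < 1 := by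
    rw [show g s * (g x - x ^ n) = (g t - (t : Qb) ^ n) - x ^ n * (g s - (s : Qb) ^ n) by
      rw [← c', ← c]; ring]
    exact V.map_sub_lt (k t) (mul_lt' (pow_le a n) (k s))
  rwa [map_mul, h.dec_eq o hg, u, one_mul] at this

theorem ine (hg : Inert P g) {x : Qb} (a : V x ≤ 1) : V (g x - x) < 1 := by
  simpa using h.cg o (n := 1) (P022D.W.inP_le_dec hg) (fun x => by simpa using hg x) a

theorem frob (hg : Fb l P g) {x : Qb} (a : V x ≤ 1) : V (g x - x ^ l) < 1 :=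
  h.cg o (fb_dec o hg) hg a

theorem frob_pow (hg : Fb l P g) {x : Qb} (a : V x ≤ 1) (k : ℕ) : V ((g ^ k) x - x ^ l ^ k) < 1 := by
  induction k with
  | zero => simp
  | succ k ih =>
    have b := le_of ih (pow_le a _)
    have := V.map_add_lt (h.frob o hg b) (pow_cg ih (pow_le a _) l)
    rwa [sub_add_sub_cancel, ← pow_mul, ← pow_succ, ← AlgEquiv.mul_apply, ← pow_succ'] at this

/-- units have finite order modulo `P` -/
theorem ex_ord (hg : Fb l P g) {x : Qb} (a : V x = 1) : ∃ k, 0 < k ∧ V (x ^ (l ^ k - 1) - 1) < 1 := by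
  obtain ⟨k, k0, e⟩ := ex_per g x
  refine ⟨k, k0, ?_⟩
  have := h.frob_pow o hg a.le k
  rw [e, V.map_sub_swap, ← Nat.sub_add_cancel (Nat.one_le_pow k l o.1.pos), pow_succ,
    ← sub_one_mul, map_mul, a, mul_one] at this
  exact this

end Vp

section lm

variable (p : ℕ) [Fact p.Prime]

/-- fixed by the inertia group over `ℚ(ζ_p)` -/
def Wf (P : Ideal (𝓞 Qb)) (y : Qb) : Prop := y ≠ 0 ∧ ∀ g, Inert P g → oz p g = 1 → g y = y

/-- the text of `Gl.Lm` -/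
def Lg (P : Ideal (𝓞 Qb)) (i : ℕ) (x z : Qb) : Prop := Ip P z ∧ ∃ y : Qb, y ≠ 0 ∧
  (∀ g, Inert P g → oz p g = 1 → g y = y) ∧ Zp P ((x / y ^ p - 1) / (zt p - 1) ^ i - z)

variable {p} {x x' y y' z z' : Qb} {i : ℕ} {g : GQ}

theorem Wf.one : Wf p P 1 := ⟨one_ne_zero, fun g _ _ => map_one g⟩

theorem Wf.mul (h : Wf p P y) (h' : Wf p P y') : Wf p P (y * y') :=
  ⟨mul_ne_zero h.1 h'.1, fun g a b => by rw [map_mul, h.2 g a b, h'.2 g a b]⟩

theorem Wf.inv (h : Wf p P y) : Wf p P y⁻¹ :=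
  ⟨inv_ne_zero h.1, fun g a b => by rw [map_inv₀, h.2 g a b]⟩

theorem Wf.zpow (h : Wf p P y) (n : ℤ) : Wf p P (y ^ n) :=
  ⟨zpow_ne_zero _ h.1, fun g a b => by rw [map_zpow₀, h.2 g a b]⟩

theorem Wf.pow (h : Wf p P y) (n : ℕ) : Wf p P (y ^ n) := by simpa using h.zpow n

theorem Wf.gal (h : Wf p P y) (hg : g ∈ dec P) : Wf p P (g y) :=
  ⟨(map_ne_zero g).2 h.1, fun i a b => by
    have := h.2 (g⁻¹ * i * g) (fun x => (hg _).1 (by
      simpa [smul_sub, mul_smul] using a (g • x))) (by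
      rw [oz_mul, oz_mul, b, mul_one, ← oz_mul, inv_mul_cancel, oz_one])
    simpa using congrArg g this⟩

theorem pi_ne : zt p - 1 ≠ 0 := sub_ne_zero.2 ((zt_prim p).ne_one (Fact.out : p.Prime).one_lt)

variable {Γ₀ : Type} [LinearOrderedCommGroupWithZero Γ₀] {V : Valuation Qb Γ₀}

theorem lg_iff (h : Vp P V) :
    Lg p P i x z ↔ ∃ y, Wf p P y ∧ Lm V ((zt p - 1) ^ i) (x / y ^ p) z :=
  ⟨fun ⟨a, y, b, c, d⟩ => ⟨y, ⟨b, c⟩, (h.ip _).1 a, (h.zp _).1 d⟩,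
    fun ⟨y, b, c⟩ => ⟨(h.ip _).2 c.int, y, b.1, b.2, (h.zp _).2 c.cg⟩⟩

theorem Vp.pi (h : Vp P V) (o : Ov p P) : V (zt p - 1) < 1 :=
  V.map_sub_swap 1 (zt p) ▸ pi_lt o.1 (zt_prim p) (h.lt o)

theorem Vp.pi_pow (h : Vp P V) (o : Ov p P) (i0 : i ≠ 0) : V ((zt p - 1) ^ i) < 1 := by
  rw [map_pow]; exact pow_lt_one₀ zero_le (h.pi o) i0

/-- the two signs of the uniformiser -/
theorem Lm.sgn (h : Lm V ((1 - zt p) ^ i) x z) : Lm V ((zt p - 1) ^ i) x ((-1) ^ i * z) :=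
  h.par (pow_ne_zero _ (neg_sub (zt p) 1 ▸ neg_ne_zero.2 pi_ne)) (by
    rw [← div_pow, ← neg_sub (zt p) 1, neg_div, div_self pi_ne]; simp) (by simp)

theorem Lm.sgn' (h : Lm V ((zt p - 1) ^ i) x z) : Lm V ((1 - zt p) ^ i) x ((-1) ^ i * z) :=
  h.par (pow_ne_zero _ pi_ne) (by
    rw [← div_pow, ← neg_sub (zt p) 1, div_neg, div_self pi_ne]; simp) (by simp)

variable (o : Ov p P)
include o

theorem Lg.of (h : Vp P V) (a : Lm V ((zt p - 1) ^ i) x z) : Lg p P i x z :=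
  (lg_iff h).2 ⟨1, Wf.one, by simpa using a⟩

theorem Lg.one : Lg p P i 1 0 := by
  obtain ⟨O, h⟩ := ex_vp o
  exact .of o h Lm.one

theorem Lg.congr (a : Lg p P i x z) (e : Zp P (z - z')) : Lg p P i x z' := by
  obtain ⟨O, h⟩ := ex_vp o
  obtain ⟨y, b, c⟩ := (lg_iff h).1 a
  exact (lg_iff h).2 ⟨y, b, c.congr ((h.zp _).1 e)⟩

theorem Lg.pth (a : Lg p P i x z) (b : Wf p P y') : Lg p P i (x * y' ^ p) z := by
  obtain ⟨O, h⟩ := ex_vp o
  obtain ⟨y, c, d⟩ := (lg_iff h).1 a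
  exact (lg_iff h).2 ⟨_, c.mul b, by rwa [mul_pow, mul_div_mul_right _ _ (pow_ne_zero _ b.1)]⟩

/-- **equivariance** -/
theorem Lg.gal (hg : g ∈ dec P) (a : Lg p P i x z) :
    Lg p P i (g x) (((oz p g).val : Qb) ^ i * g z) := by
  obtain ⟨O, h⟩ := ex_vp o
  obtain ⟨y, c, d⟩ := (lg_iff h).1 a
  refine (lg_iff h).2 ⟨_, c.gal hg, ?_⟩
  have := (d.sgn'.gal o.1 (zt_prim p) (h.lt o) g (h.dec_eq o hg) (oz_spec g)).sgn
  rw [map_div₀, map_pow] at this
  convert this using 1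
  rw [map_mul, map_pow, map_neg, map_one, mul_left_comm, ← mul_assoc ((-1 : Qb) ^ i), ← mul_pow]
  simp

/-- **the link for `p ∤ f`**: `x ^ p = φ x (1 + p w)` -/
theorem Lg.link (h2 : p ≠ 2) {φ : GQ} (hφ : Fb p P φ) {w : Qb} (a : Wf p P x) (u : Ip P x)
    (u' : Ip P x⁻¹) (hw : Ip P w) (e : Zp P ((x ^ p / φ x - 1) / p - w)) :
    Lg p P (p - 1) (φ x) w := by
  obtain ⟨O, h⟩ := ex_vp o
  have v : O.valuation x = 1 := le_antisymm ((h.ip _).1 u) (by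
    have := (h.ip _).1 u'
    rwa [map_inv₀, inv_le_one₀ (O.valuation.pos_iff.2 a.1)] at this)
  obtain ⟨k, k0, s⟩ := h.ex_ord o hφ v
  have p0 : (p : Qb) ≠ 0 := Nat.cast_ne_zero.2 o.1.ne_zero
  have l := h.lt o
  have d := fb_dec o hφ
  have m := ((link_pow' o.1 φ (h.dec_eq o d) p0 l s ⟨(h.ip _).1 hw, (h.zp _).1 e⟩).inv p0 l).to_pi
    o.1 (zt_prim p) l p0
  obtain ⟨k, rfl⟩ := Nat.exists_eq_succ_of_ne_zero k0.ne'
  have n1 := Nat.one_le_pow (k + 1) p o.1.pos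
  refine (lg_iff h).2 ⟨_, (a.gal d).pow (p ^ k), ?_⟩
  have e1 : φ x / (φ x ^ p ^ k) ^ p = (φ x ^ (p ^ (k + 1) - 1))⁻¹ := by
    have := (a.gal d).1
    rw [← pow_mul, ← pow_succ, ← Nat.sub_add_cancel n1, pow_succ]
    field_simp
    simp
  rw [e1]
  refine m.sgn.congr ?_
  rw [(o.1.even_sub_one h2).neg_one_pow, Nat.cast_sub n1, show 1 * - - -((((p ^ (k + 1) : ℕ) : Qb) -
    (1 : ℕ)) * w) - w = p * -(p ^ k * w) by push_cast; ring]
  exact mul_lt l (by simpa using mul_le (pow_le l.le k) ((h.ip _).1 hw))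

variable (i0 : i ≠ 0)
include i0

theorem Lg.mul (a : Lg p P i x z) (a' : Lg p P i x' z') : Lg p P i (x * x') (z + z') := by
  obtain ⟨O, h⟩ := ex_vp o
  obtain ⟨y, b, c⟩ := (lg_iff h).1 a
  obtain ⟨y', b', c'⟩ := (lg_iff h).1 a'
  exact (lg_iff h).2 ⟨_, b.mul b', by
    rw [mul_pow, mul_div_mul_comm]; exact c.mul (pow_ne_zero _ pi_ne) (h.pi_pow o i0) c'⟩

theorem Lg.zpow (a : Lg p P i x z) (n : ℤ) : Lg p P i (x ^ n) (n * z) := by
  obtain ⟨O, h⟩ := ex_vp o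
  obtain ⟨y, b, c⟩ := (lg_iff h).1 a
  refine (lg_iff h).2 ⟨_, b.zpow n, ?_⟩
  rw [← zpow_natCast (y ^ n), ← zpow_mul, mul_comm n, zpow_mul, zpow_natCast, ← div_zpow]
  exact c.zpow (pow_ne_zero _ pi_ne) (h.pi_pow o i0) n

theorem Lg.pow (a : Lg p P i x z) (n : ℕ) : Lg p P i (x ^ n) (n * z) := by
  simpa using a.zpow o i0 n

theorem Lg.inv (a : Lg p P i x z) : Lg p P i x⁻¹ (-z) := by simpa using a.zpow o i0 (-1)

theorem Lg.div (a : Lg p P i x z) (a' : Lg p P i x' z') : Lg p P i (x / x') (z - z') := by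
  simpa [div_eq_mul_inv, sub_eq_add_neg] using a.mul o i0 (a'.inv o i0)

theorem Lg.prod {ι : Type} (s : Finset ι) {x z : ι → Qb} (a : ∀ k ∈ s, Lg p P i (x k) (z k)) :
    Lg p P i (∏ k ∈ s, x k) (∑ k ∈ s, z k) := by
  classical
  induction s using Finset.induction_on with
  | empty => simpa using Lg.one o
  | insert k s hk ih =>
    rw [Finset.prod_insert hk, Finset.sum_insert hk]
    exact (a k (Finset.mem_insert_self _ _)).mul o i0 (ih fun k m => a k (Finset.mem_insert_of_mem m))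

theorem Lg.ne (a : Lg p P i x z) : x ≠ 0 := by
  obtain ⟨O, h⟩ := ex_vp o
  obtain ⟨y, b, c⟩ := (lg_iff h).1 a
  rintro rfl
  simpa using c.lt (pow_ne_zero _ pi_ne) (h.pi_pow o i0)

end lm

end Vale.Agent.P014Z.Lk.La
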