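import Vale.Agent.P014Z.Lk.St
import Vale.Agent.P014Z.Lk.Shf1

/-! # P014Z, block LK: local algebra for the leading terms -/

set_option autoImplicit false
set_option linter.all false

noncomputable section

namespace Vale.Agent.P014Z.Lk.Br

open NumberField UpperHalfPlane CongruenceSubgroup Finset PowerSeries
open scoped Classical
open Vale.Agent.P022 (Qb GQ GK below)
open Vale.Agent.P027M.S (Inert)
open Vale.Agent.P022D.W (dec)
open Vale.Agent.P022E.GW (Ov Fb)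
open Vale.Agent.P022K.G2 (oz zt zt_pow zt_prim Tv)
open Vale.Agent.P014U P004K
open P014Y.F (Crv Fld)
open P004R (Vn)
open P004R.Sf (Ao Zo)
open Gl Sf
open Qf (il)
open P004F.Qx (Sp)

section

variable {P : Ideal (𝓞 Qb)} [hP : P.IsPrime] {a b w : Qb} {g : GQ}

theorem one_not : (1 : 𝓞 Qb) ∉ P := (Ideal.ne_top_iff_one P).1 hP.ne_top

theorem ip_int (x : 𝓞 Qb) : Ip P x := ⟨1, x, one_not, by simp⟩

theorem zp_of {x : 𝓞 Qb} (h : x ∈ P) : Zp P x := ⟨1, x, one_not, h, by simp⟩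

theorem ip_mul (h : Ip P a) (k : Ip P b) : Ip P (a * b) := (Ao P).mul_mem h k

theorem ip_inv {x : 𝓞 Qb} (h : x ∉ P) : Ip P (x : Qb)⁻¹ :=
  ⟨x, 1, h, by
    rw [mul_inv_cancel₀ fun e => h (by rw [show x = 0 from RingOfIntegers.ext e]; exact P.zero_mem)]
    rfl⟩

theorem ne_of {x : 𝓞 Qb} (h : x ∉ P) : (x : Qb) ≠ 0 := fun e =>
  h (by rw [show x = 0 from RingOfIntegers.ext e]; exact P.zero_mem)

theorem zp_unit {x : 𝓞 Qb} (h : x ∉ P) : Zp P (x * a) ↔ Zp P a :=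
  ⟨fun k => by simpa [← mul_assoc, ne_of h] using zp_mul (ip_inv h) k, zp_mul (ip_int x)⟩

theorem zp_unit' {x : 𝓞 Qb} (h : x ∉ P) : Zp P ((x : Qb)⁻¹ * a) ↔ Zp P a := by
  rw [← zp_unit h, mul_inv_cancel_left₀ (ne_of h)]

omit hP in
theorem ip_act (m : g ∈ dec P) (h : Ip P a) : Ip P (g a) :=
  let ⟨s, t, x, y⟩ := h
  ⟨g • s, g • t, mt (m s).1 x, by
    show g s * g a = g t
    rw [← map_mul, y]⟩

omit hP in
theorem zp_act' (m : g ∈ dec P) (h : Zp P a) : Zp P (g a) :=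
  let ⟨s, t, x, z, y⟩ := h
  ⟨g • s, g • t, mt (m s).1 x, (m t).2 z, by
    show g s * g a = g t
    rw [← map_mul, y]⟩

omit hP in
theorem zp_act (m : g ∈ dec P) : Zp P (g a) ↔ Zp P a :=
  ⟨fun h => by simpa using zp_act' (inv_mem m) h, zp_act' m⟩

/-- `1 + w` is a unit -/
theorem ip_one (h : Zp P w) : 1 + w ≠ 0 ∧ Ip P (1 + w)⁻¹ := by
  obtain ⟨s, t, x, z, y⟩ := h
  have n : s + t ∉ P := fun k => x (by simpa using P.sub_mem k z)
  have e : ((s + t : 𝓞 Qb) : Qb) = s * (1 + w) := by rw [mul_add, y, mul_one]; rfl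
  have n0 : 1 + w ≠ 0 := fun k => ne_of n (by rw [e, k, mul_zero])
  exact ⟨n0, s + t, s, n, by rw [e, mul_inv_cancel_right₀ n0]⟩

/-- products of one-units -/
theorem pr1 {ι : Type} (s : Finset ι) {h : ι → Qb} (hw : Zp P w) (hh : ∀ i ∈ s, Ip P (h i)) :
    Ip P (∑ i ∈ s, h i) ∧ ∃ r, Zp P r ∧ ∏ i ∈ s, (1 + w * h i) = 1 + w * (∑ i ∈ s, h i + r) := by
  induction s using Finset.induction_on with
  | empty => exact ⟨(Ao P).zero_mem, 0, (Zo P).zero_mem, by simp⟩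
  | insert i s n ih =>
    obtain ⟨i1, r, i2, i3⟩ := ih fun j m => hh j (mem_insert_of_mem m)
    have k := hh i (mem_insert_self i s)
    rw [sum_insert n, prod_insert n, i3]
    exact ⟨(Ao P).add_mem k i1, r + h i * (∑ i ∈ s, h i + r) * w,
      zp_add i2 (zp_mul (ip_mul k ((Ao P).add_mem i1 (zp_ip i2))) hw), by ring⟩

end

/-- sums over the fibres -/
theorem fib {N : ℕ} [NeZero N] (R : Finset GQ) (e : GQ → ZMod N) (h : GQ → Qb) (i : ℕ) :
    ∑ m ∈ range N, (m.choose i : Qb) * ∑ g ∈ R with e g = m, h g =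
      ∑ g ∈ R, ((e g).val.choose i : Qb) * h g := by
  rw [← sum_fiberwise_of_maps_to (s := R) (t := range N) (g := fun g => (e g).val)
    fun g _ => mem_range.2 (ZMod.val_lt _)]
  refine sum_congr rfl fun m k => ?_
  have e1 : ∀ x : ZMod N, x = m ↔ x.val = m := fun x =>
    ⟨fun z => by rw [z, ZMod.val_natCast_of_lt (mem_range.1 k)],
      fun z => by rw [← z, ZMod.natCast_zmod_val]⟩
  rw [mul_sum, filter_congr fun g _ => e1 (e g)]
  exact sum_congr rfl fun g z => by rw [(mem_filter.1 z).2]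

variable [Pp]

/-- `p = π ^ (p - 1) ε` -/
theorem ex_eps : ∃ ε : (𝓞 Qb)ˣ, (zt pp - 1) ^ (pp - 1) * ((ε : 𝓞 Qb) : Qb) = pp := by
  have h : IsPrimitiveRoot (pi + 1 : 𝓞 Qb) (pp - 1 + 1) := by
    rw [Nat.sub_add_cancel pp_prime.pos]
    exact IsPrimitiveRoot.of_map_of_injective (f := algebraMap (𝓞 Qb) Qb)
      (by rw [map_add, map_one]; exact (sub_add_cancel (zt pp) 1).symm ▸ zt_prim pp)
      RingOfIntegers.coe_injective
  have a : Associated (pi ^ (pp - 1)) ((pp - 1 + 1 : ℕ) : 𝓞 Qb) := by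
    rw [Nat.cast_succ, ← h.prod_one_sub_pow_eq_order, ← card_range (pp - 1), ← prod_const,
      card_range]
    refine Associated.prod _ _ _ fun k hk => ?_
    have := h.associated_sub_one_pow_sub_one_of_coprime (j := k + 1) (Nat.coprime_of_lt_prime
      (Nat.succ_ne_zero k) (Nat.succ_lt_succ (mem_range.1 hk))
      ((Nat.sub_add_cancel pp_prime.pos).symm ▸ pp_prime)).symm
    rw [add_sub_cancel_right] at this
    rw [← neg_sub (_ ^ _)]
    exact this.neg_right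
  rw [Nat.sub_add_cancel pp_prime.pos] at a
  obtain ⟨ε, e⟩ := a
  exact ⟨ε, by simpa [pi_coe] using congrArg (fun x : 𝓞 Qb => (x : Qb)) e⟩

theorem pi_ne : zt pp - 1 ≠ 0 := sub_ne_zero.2 ((zt_prim pp).ne_one pp_prime.one_lt)

theorem pi_mem {P : Ideal (𝓞 Qb)} (o : Ov pp P) : pi ∈ P := by
  obtain ⟨ε, e⟩ := ex_eps
  have : pi ^ (pp - 1) * (ε : 𝓞 Qb) = pp := RingOfIntegers.ext (by simpa [pi_coe] using e)
  exact o.2.1.mem_of_pow_mem _ ((o.2.1.mem_or_mem (this ▸ o.2.2)).resolve_right fun k =>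
    o.2.1.ne_top (P.eq_top_of_isUnit_mem k ε.isUnit))

variable {e : Crv} (b : Fld e) {M : ℕ}

theorem fi_eq (M0 : 0 < M) : Fi b M = il b.j e.P M.primeFactorsList ^ 2 := by
  rw [Fi, il, Finset.prod_list_map_count, ← prod_pow, Nat.toFinset_factors]
  exact prod_congr rfl fun l _ => by rw [Nat.primeFactorsList_count_eq, ← pow_mul, mul_comm]

theorem sp_fi (M0 : 0 < M) (h : ∀ l : ℕ, l.Prime → l ∣ M → l ∈ e.S) :
    ∃ I', Sp (M ^ 2) (Fi b M) I' := by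
  have := P004R.Qf.sp_sq (fun p m => (e.ov p m).1) b.ch.spl (L := M.primeFactorsList)
    (fun p m => h p (Nat.prime_of_mem_primeFactorsList m) (Nat.dvd_of_mem_primeFactorsList m))
    one_pos P004R.Qf.sp_one (by simp)
  rw [one_mul, Ideal.top_mul, Nat.prod_primeFactorsList M0.ne'] at this
  exact ⟨_, (fi_eq b M0).symm ▸ this⟩

/-- the points exist -/
theorem ex_pt (hg1 : HG1) (M0 : 0 < M) (h : ∀ l : ℕ, l.Prime → l ∣ M → l ∈ e.S) {c : ℕ} (c0 : 0 < c)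
    (co : c.Coprime M) (g : GQ) :
    ∃ σ τ τ', Ex σ g ∧ Hp (JJ b.j) (M ^ 2) (Fi b M) c τ ∧ Cj0 σ (M ^ 2) τ τ' := by
  obtain ⟨I', s⟩ := sp_fi b M0 h
  obtain ⟨τ, k⟩ := (hg1 b.K b.j b.iq _ c _ (pow_pos M0 2) c0 (co.pow_right 2) s.cn).1
  obtain ⟨σ, x⟩ := ex_ex g
  obtain ⟨τ', y⟩ := (cj0 σ _ (pow_pos M0 2)).1 τ
  exact ⟨σ, τ, τ', x, k, y⟩

end Vale.Agent.P014Z.Lk.Br
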