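import Mathlib

/-! # P014Z, block LK: the valuation of a Gauss sum -/

set_option autoImplicit false
set_option linter.all false

open Finset Polynomial

noncomputable section

namespace Vale.Agent.P014Z.Lk.Gs

variable {L Γ : Type*} [Field L] [LinearOrderedCommGroupWithZero Γ] (V : Valuation L Γ) {p : ℕ}

theorem v_int (n : ℤ) : V n ≤ 1 := by
  have k : ∀ m : ℕ, V m ≤ 1 := fun m => by
    induction m with
    | zero => simp
    | succ m i => rw [Nat.cast_succ]; exact V.map_add_le i V.map_one.le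
  rcases n.eq_nat_or_neg with ⟨m, rfl | rfl⟩
  · simpa using k m
  · simpa using k m

theorem v_nat (n : ℕ) : V n ≤ 1 := by simpa using v_int V n

theorem v_dvd {n : ℤ} (h : (p : ℤ) ∣ n) : V n ≤ V p := by
  obtain ⟨k, rfl⟩ := h
  push_cast
  rw [V.map_mul]
  exact mul_le_of_le_one_right' (v_int V k)

theorem v_cop (h1 : V p < 1) {n : ℕ} (h : n.Coprime p) : V n = 1 := by
  refine (v_nat V n).antisymm (not_lt.1 fun k => ?_)
  obtain ⟨a, b, e⟩ := Nat.isCoprime_iff_coprime.2 h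
  have : ((a : L) * n + b * p) = 1 := by exact_mod_cast congrArg (Int.cast : ℤ → L) e
  have t := V.map_add_lt (x := (a : L) * n) (y := b * p) (g := 1)
    (by rw [V.map_mul]; exact (mul_le_of_le_one_left' (v_int V a)).trans_lt k)
    (by rw [V.map_mul]; exact (mul_le_of_le_one_left' (v_int V b)).trans_lt h1)
  rw [this, V.map_one] at t
  exact t.false

theorem v_root {x : L} {n : ℕ} (hn : n ≠ 0) (h : x ^ n = 1) : V x = 1 :=
  (pow_eq_one_iff_of_nonneg zero_le' hn).1 (by rw [← V.map_pow, h, V.map_one])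

theorem v_geom {x : L} (h : V x ≤ 1) (k : ℕ) : V (x ^ k - 1) ≤ V (x - 1) := by
  rw [← mul_geom_sum, V.map_mul]
  exact mul_le_of_le_one_right' (V.map_sum_le fun i _ => by
    rw [V.map_pow]; exact pow_le_one' h i)

theorem v_eq {ζ ξ : L} (hp : p ≠ 0) (h : IsPrimitiveRoot ζ p) (h' : IsPrimitiveRoot ξ p) :
    V (ζ - 1) = V (ξ - 1) := by
  have := NeZero.mk hp
  obtain ⟨i, -, a⟩ := h.eq_pow_of_pow_eq_one h'.pow_eq_one
  obtain ⟨k, -, b⟩ := h'.eq_pow_of_pow_eq_one h.pow_eq_one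
  exact le_antisymm (b ▸ v_geom V (v_root V hp h'.pow_eq_one).le k)
    (a ▸ v_geom V (v_root V hp h.pow_eq_one).le i)

/-- `p` is the power `p - 1` of `ζ - 1` up to a unit -/
theorem v_p (hp : p.Prime) {ζ : L} (h : IsPrimitiveRoot ζ p) : V p = V (ζ - 1) ^ (p - 1) := by
  obtain ⟨n, rfl⟩ := Nat.exists_eq_succ_of_ne_zero hp.ne_zero
  have e := h.prod_one_sub_pow_eq_order
  rw [Nat.cast_succ, ← e, map_prod, Nat.succ_sub_one, ← card_range n, ← prod_const, card_range]
  refine prod_congr rfl fun k m => ?_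
  rw [V.map_sub_swap]
  exact v_eq V hp.ne_zero (h.pow_of_coprime _ (Nat.coprime_of_lt_prime k.succ_ne_zero
    (Nat.succ_lt_succ (mem_range.1 m)) hp).symm) h

theorem pi_lt (hp : p.Prime) (h1 : V p < 1) {ζ : L} (h : IsPrimitiveRoot ζ p) : V (ζ - 1) < 1 :=
  not_le.1 fun k => h1.not_ge (v_p V hp h ▸ one_le_pow_of_one_le' k _)

theorem pi_ne (hp : p.Prime) {ζ : L} (h : IsPrimitiveRoot ζ p) : V (ζ - 1) ≠ 0 :=
  V.ne_zero_iff.2 (sub_ne_zero.2 (h.ne_one hp.one_lt))

/-- from a congruence modulo the prime to a congruence modulo `p` -/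
theorem tei (hp : p.Prime) (h1 : V p < 1) {y : L} (a : V (y - 1) < 1) :
    V (y - 1) = V (y ^ (p - 1) - 1) := by
  have y1 : V y ≤ 1 := by simpa using V.map_add_le a.le V.map_one.le
  have n1 : V ((p - 1 : ℕ) : L) = 1 := v_cop V h1 ((Nat.coprime_self_sub_left hp.one_le).2 (by simp))
  have : V (∑ i ∈ range (p - 1), y ^ i - (p - 1 : ℕ)) < V ((p - 1 : ℕ) : L) := by
    rw [n1, show ∑ i ∈ range (p - 1), y ^ i - ((p - 1 : ℕ) : L) =
      ∑ i ∈ range (p - 1), (y ^ i - 1) by simp [sum_sub_distrib]]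
    exact V.map_sum_lt one_ne_zero fun i _ => (v_geom V y1 i).trans_lt a
  rw [← mul_geom_sum, V.map_mul, V.map_eq_of_sub_lt this, n1, mul_one]

section one

variable [Fact p.Prime] (h1 : V p < 1) {χ : ZMod p → L} {j : ℕ} (hj : j < p - 1) (h0 : χ 0 = 0)
  (hχ : ∀ x : ZMod p, x ≠ 0 → ∃ a : ℕ, (a : ZMod p) = x ∧ V (χ x * a ^ j - 1) ≤ V p)

theorem v_val (h1 : V p < 1) {x : ZMod p} (h : x ≠ 0) : V (x.val : L) = 1 :=
  v_cop V h1 (Nat.Coprime.symm ((Nat.Prime.coprime_iff_not_dvd Fact.out).2 fun d =>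
    h ((ZMod.val_eq_zero x).1 (Nat.eq_zero_of_dvd_of_lt d x.val_lt))))

theorem v_cast {a : ℤ} (h : (a : ZMod p) = 0) : V a ≤ V p :=
  v_dvd V ((ZMod.intCast_zmod_eq_zero_iff_dvd _ _).1 h)

theorem v_cong {a b : ℕ} (h : (a : ZMod p) = b) : V (a - b) ≤ V p := by
  simpa using v_cast V (p := p) (a := a - b) (by simp [h])

include h1 h0 hχ

theorem chi_le (x : ZMod p) : V (χ x) ≤ 1 ∧ (x ≠ 0 → V (χ x * x.val ^ j - 1) ≤ V p) := by
  by_cases n : x = 0
  · simp [n, h0]
  obtain ⟨a, e, k⟩ := hχ x n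
  have a1 : V (a : L) = 1 := v_cop V h1 (Nat.Coprime.symm
    ((Nat.Prime.coprime_iff_not_dvd Fact.out).2 fun d => n (e ▸ (ZMod.natCast_eq_zero_iff _ _).2 d)))
  have c : V (χ x) ≤ 1 := by
    simpa [a1] using V.map_add_le (k.trans h1.le) V.map_one.le
  refine ⟨c, fun _ => ?_⟩
  have t := v_cong V (p := p) (a := x.val ^ j) (b := a ^ j) (by simp [e])
  rw [Nat.cast_pow, Nat.cast_pow] at t
  rw [show χ x * x.val ^ j - 1 = χ x * (x.val ^ j - a ^ j) + (χ x * a ^ j - 1) by ring]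
  exact V.map_add_le (by rw [V.map_mul]; exact (mul_le_of_le_one_left' c).trans t) k

include hj

theorem mom (i : ℕ) (hi : i ≤ j) :
    V (∑ x : ZMod p, χ x * x.val ^ i + if i = j then 1 else 0) ≤ V p := by
  have hp : p.Prime := Fact.out
  have k : ∀ x : ZMod p, V (χ x * x.val ^ i - x.val ^ (p - 1 - (j - i))) ≤ V p := fun x => by
    by_cases n : x = 0
    · simp [n, h0, zero_pow (by omega : p - 1 - (j - i) ≠ 0)]
    have t := v_cong V (p := p) (a := 1) (b := x.val ^ (p - 1)) (by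
      simp [ZMod.pow_card_sub_one_eq_one n])
    rw [Nat.cast_pow, Nat.cast_one] at t
    have := V.map_add_le ((chi_le V h1 h0 hχ x).2 n) t
    rwa [show χ x * x.val ^ j - 1 + (1 - x.val ^ (p - 1)) = (x.val : L) ^ (j - i) *
      (χ x * x.val ^ i - x.val ^ (p - 1 - (j - i))) by
        rw [mul_sub, mul_left_comm, ← pow_add, ← pow_add, show j - i + i = j by omega,
          show j - i + (p - 1 - (j - i)) = p - 1 by omega]; ring,
      V.map_mul, V.map_pow, v_val V h1 n, one_pow, one_mul] at this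
  have t := v_cong V (p := p) (b := 0)
    (a := ∑ x : ZMod p, x.val ^ (p - 1 - (j - i)) + if i = j then 1 else 0) (by
      simp only [Nat.cast_add, Nat.cast_sum, Nat.cast_pow, ZMod.natCast_zmod_val, Nat.cast_ite,
        Nat.cast_one, Nat.cast_zero]
      split_ifs with e
      · rw [e, Nat.sub_self, Nat.sub_zero, ← sum_erase_add _ _ (mem_univ 0),
          zero_pow (by omega), add_zero, sum_congr rfl fun x m =>
            ZMod.pow_card_sub_one_eq_one (ne_of_mem_erase m), sum_const, card_erase_of_mem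
            (mem_univ _), card_univ, ZMod.card, nsmul_one, ← Nat.cast_succ, Nat.succ_eq_add_one,
            Nat.sub_add_cancel hp.one_le, ZMod.natCast_self]
      · rw [add_zero]
        exact FiniteField.sum_pow_lt_card_sub_one _ _ (by rw [ZMod.card]; omega))
  simp only [Nat.cast_add, Nat.cast_sum, Nat.cast_pow, Nat.cast_ite, Nat.cast_one, Nat.cast_zero,
    sub_zero] at t
  have := V.map_add_le (V.map_sum_le (s := univ) fun x _ => k x) t
  rwa [sum_sub_distrib, ← add_assoc, sub_add_cancel] at this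

theorem pol (Q : ℤ[X]) (hQ : Q.natDegree ≤ j) :
    V (∑ x : ZMod p, χ x * (Q.eval (x.val : ℤ) : ℤ) + (Q.coeff j : ℤ)) ≤ V p := by
  have : ∑ x : ZMod p, χ x * (Q.eval (x.val : ℤ) : ℤ) + (Q.coeff j : ℤ) = ∑ i ∈ range (j + 1),
      (Q.coeff i : L) * (∑ x : ZMod p, χ x * x.val ^ i + if i = j then 1 else 0) := by
    simp only [eval_eq_sum_range' (Nat.lt_succ_of_le hQ), mul_add, sum_add_distrib, mul_ite,
      mul_one, mul_zero, sum_ite_eq', mem_range, Nat.lt_succ_self, if_true, mul_sum]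
    push_cast
    simp only [mul_sum]
    rw [sum_comm]
    congr 1
    exact sum_congr rfl fun i _ => sum_congr rfl fun x _ => by ring
  rw [this]
  exact V.map_sum_le fun i m => by
    rw [V.map_mul]
    exact (mul_le_of_le_one_left' (v_int V _)).trans
      (mom V h1 hj h0 hχ i (Nat.lt_succ_iff.1 (mem_range.1 m)))

/-- **the leading term of a Gauss sum modulo `p`** -/
theorem lead {ζ : L} (h : IsPrimitiveRoot ζ p) :
    V (∑ x : ZMod p, χ x * ζ ^ x.val + (ζ - 1) ^ j / j.factorial) < V (ζ - 1) ^ j := by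
  have hp : p.Prime := Fact.out
  have l := pi_lt V hp h1 h
  have n := pi_ne V hp h
  have an : StrictAnti fun k => V (ζ - 1) ^ k := pow_right_strictAnti₀ (zero_lt_iff.2 n) l
  have vf : ∀ k ≤ j, V (k.factorial : L) = 1 := fun k m =>
    v_cop V h1 (hp.coprime_factorial_of_lt (by omega)).symm
  have e : ∑ x : ZMod p, χ x * ζ ^ x.val + (ζ - 1) ^ j / j.factorial = ∑ k ∈ range p,
      (ζ - 1) ^ k * (∑ x : ZMod p, χ x * x.val.choose k +
        if k = j then (j.factorial : L)⁻¹ else 0) := by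
    simp only [mul_add, sum_add_distrib, mul_ite, mul_zero, sum_ite_eq', mem_range,
      show j < p by omega, if_true, mul_sum]
    rw [sum_comm, div_eq_mul_inv]
    congr 1
    refine sum_congr rfl fun x _ => ?_
    conv_lhs => rw [← sub_add_cancel ζ 1, add_pow]
    rw [sum_subset (range_subset_range.2 (Nat.succ_le_of_lt x.val_lt)) fun k _ m => by
      simp [Nat.choose_eq_zero_of_lt (by simpa using m : x.val < k)], mul_sum]
    exact sum_congr rfl fun k _ => by ring
  rw [e]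
  refine V.map_sum_lt (pow_ne_zero _ n) fun k _ => ?_
  rw [V.map_mul, V.map_pow]
  rcases lt_or_ge j k with m | m
  · refine (mul_le_of_le_one_right' ?_).trans_lt (an m)
    rw [if_neg m.ne', add_zero]
    exact V.map_sum_le fun x _ => by
      rw [V.map_mul]; exact mul_le_one' (chi_le V h1 h0 hχ x).1 (v_nat V _)
  have t := pol V h1 hj h0 hχ (descPochhammer ℤ k) (by rwa [descPochhammer_natDegree])
  have f0 : (k.factorial : L) ≠ 0 := V.ne_zero_iff.1 (vf k m ▸ one_ne_zero)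
  rw [show ∑ x : ZMod p, χ x * ((descPochhammer ℤ k).eval (x.val : ℤ) : ℤ) +
      ((descPochhammer ℤ k).coeff j : ℤ) = (k.factorial : L) * (∑ x : ZMod p,
        χ x * x.val.choose k + if k = j then (j.factorial : L)⁻¹ else 0) by
    rw [mul_add, mul_sum]
    congr 1
    · refine sum_congr rfl fun x _ => ?_
      rw [descPochhammer_eval_eq_descFactorial, Nat.descFactorial_eq_factorial_mul_choose]
      push_cast
      ring
    · split_ifs with c
      · have := (monic_descPochhammer ℤ k).coeff_natDegree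
        rw [descPochhammer_natDegree] at this
        rw [← c, this, mul_inv_cancel₀ f0, Int.cast_one]
      · rw [coeff_eq_zero_of_natDegree_lt (by rw [descPochhammer_natDegree]; omega)]
        simp, V.map_mul, vf k m, one_mul, v_p V hp h] at t
  exact (mul_le_of_le_one_left' (pow_le_one' l.le k)).trans_lt (t.trans_lt (an hj))

theorem val1 {ζ : L} (h : IsPrimitiveRoot ζ p) :
    V (∑ x : ZMod p, χ x * ζ ^ x.val) = V (ζ - 1) ^ j := by
  have hp : p.Prime := Fact.out
  have e : V (-((ζ - 1) ^ j / j.factorial)) = V (ζ - 1) ^ j := by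
    rw [V.map_neg, map_div₀, V.map_pow,
      v_cop V h1 (hp.coprime_factorial_of_lt (by omega : j < p)).symm, div_one]
  rw [← e]
  exact V.map_eq_of_sub_lt (by rw [sub_neg_eq_add, e]; exact lead V h1 hj h0 hχ h)

end one

section all

variable {f : ℕ} [NeZero f] {ψ : DirichletCharacter L f} {e : AddChar (ZMod f) L}

theorem inv_prim (hψ : ψ.IsPrimitive) : (ψ⁻¹).IsPrimitive := by
  rw [DirichletCharacter.isPrimitive_def, DirichletCharacter.conductor_inv]
  exact hψ

/-- the product of the two Gauss sums -/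
theorem gs_mul (hψ : ψ.IsPrimitive) (he : e.IsPrimitive) :
    gaussSum ψ e * gaussSum ψ⁻¹ e⁻¹ = f := by
  classical
  have : gaussSum ψ e * gaussSum ψ⁻¹ e⁻¹ = ∑ b, ψ b * ∑ a, e (a * (b - 1)) := by
    conv_lhs => rw [gaussSum.eq_1 ψ⁻¹, mul_sum]
    simp only [mul_sum]
    rw [sum_comm]
    refine sum_congr rfl fun a _ => ?_
    rw [← mul_assoc, mul_comm _ (ψ⁻¹ a), ← gaussSum_mulShift_of_isPrimitive e hψ, gaussSum, sum_mul]
    refine sum_congr rfl fun b _ => ?_
    rw [AddChar.mulShift_apply, AddChar.inv_apply, mul_assoc, ← e.map_add_eq_mul, mul_sub, mul_one,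
      sub_eq_add_neg]
  rw [this]
  simp [AddChar.sum_mulShift _ he, sub_eq_zero]

theorem psi_le (ψ : DirichletCharacter L f) (a : ZMod f) : V (ψ a) ≤ 1 := by
  by_cases u : IsUnit a
  · obtain ⟨u, rfl⟩ := u
    refine (v_root V Fintype.card_ne_zero (n := Fintype.card (ZMod f)ˣ) ?_).le
    rw [← map_pow, ← Units.val_pow_eq_pow_val, pow_card_eq_one, Units.val_one, map_one]
  · simp [ψ.map_nonunit u]

theorem e_le (e : AddChar (ZMod f) L) (a : ZMod f) : V (e a) ≤ 1 :=
  (v_root V (NeZero.ne f) (by rw [← e.map_nsmul_eq_pow]; simp)).le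

theorem one_of {a b : Γ} (ha : a ≤ 1) (hb : b ≤ 1) (h : a * b = 1) : a = 1 :=
  ha.antisymm (h ▸ mul_le_of_le_one_right' hb)

/-- **the conductor is prime to `p`** -/
theorem val0 (h1 : V p < 1) (hf : f.Coprime p) (hψ : ψ.IsPrimitive) (he : e.IsPrimitive) :
    V (gaussSum ψ e) = 1 := by
  have k : ∀ (ψ : DirichletCharacter L f) e, V (gaussSum ψ e) ≤ 1 := fun ψ e =>
    V.map_sum_le fun x _ => by rw [V.map_mul]; exact mul_le_one' (psi_le V ψ x) (e_le V e x)
  exact one_of (k _ _) (k ψ⁻¹ e⁻¹) (by rw [← V.map_mul, gs_mul hψ he, v_cop V h1 hf])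

end all

section two

variable [Fact p.Prime] {f : ℕ} [NeZero f] (h1 : V p < 1) (hf : p.Coprime f)

include h1 hf

theorem fac {ψ : DirichletCharacter L (p * f)} {e : AddChar (ZMod (p * f)) L} (he : e.IsPrimitive)
    {j : ℕ} (hj : j < p - 1)
    (hψ : ∀ a : ℕ, ¬ p ∣ a → a ≡ 1 [MOD f] → V (ψ a * a ^ j - 1) ≤ V p) {ζ : L}
    (h : IsPrimitiveRoot ζ p) : ∃ t ≤ 1, V (gaussSum ψ e) = V (ζ - 1) ^ j * t := by
  have hp : p.Prime := Fact.out
  let E := (ZMod.chineseRemainder hf).symm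
  have pw : ∀ x : ZMod p, e (E (x, 0)) = e (E (1, 0)) ^ x.val := fun x => by
    rw [← e.map_nsmul_eq_pow, ← map_nsmul]
    simp
  have pr : IsPrimitiveRoot (e (E (1, 0))) p := by
    have a : e (E (1, 0)) ^ p = 1 := by
      rw [← e.map_nsmul_eq_pow, ← map_nsmul]
      simp [Prod.mk_zero_zero]
    have b : e (E (1, 0)) ≠ 1 := fun b => he (a := E (1, 0)) (by simp) (by
      ext x
      obtain ⟨y, rfl⟩ := E.surjective x
      rw [AddChar.mulShift_apply, ← map_mul, show ((1, 0) : ZMod p × ZMod f) * y = (y.1, 0) by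
        ext <;> simp, pw, b, one_pow, AddChar.one_apply])
    have := IsPrimitiveRoot.orderOf (e (E (1, 0)))
    rwa [orderOf_eq_prime a b] at this
  have s : gaussSum ψ e = (∑ x : ZMod p, ψ (E (x, 1)) * e (E (1, 0)) ^ x.val) *
      ∑ y : ZMod f, ψ (E (1, y)) * e (E (0, y)) := by
    rw [gaussSum, ← E.toEquiv.sum_comp, Fintype.sum_prod_type, sum_mul_sum]
    refine sum_congr rfl fun x _ => sum_congr rfl fun y _ => ?_
    rw [← pw, mul_mul_mul_comm, ← map_mul, ← map_mul, ← e.map_add_eq_mul, ← map_add]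
    simp
  refine ⟨_, V.map_sum_le (s := univ) fun y _ => (V.map_mul _ _).trans_le
    (mul_le_one' (psi_le V ψ (E (1, y))) (e_le V e (E (0, y)))), ?_⟩
  have key := val1 V h1 hj (χ := fun x => ψ (E (x, 1))) (ψ.map_nonunit fun u => ?_)
    (fun x n => ?_) pr
  · rw [s, V.map_mul, key, v_eq V hp.ne_zero pr h]
  · simpa using (u.map E.symm).map (RingHom.fst _ _)
  · have c : ((E (x, 1)).val : ZMod p × ZMod f) = (x, 1) := by
      rw [← map_natCast E.symm, ZMod.natCast_zmod_val, E.symm_apply_apply]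
    have c1 : ((E (x, 1)).val : ZMod p) = x := congrArg Prod.fst c
    have c2 : ((E (x, 1)).val : ZMod f) = 1 := congrArg Prod.snd c
    refine ⟨_, c1, ?_⟩
    have := hψ (E (x, 1)).val (fun d => n (c1 ▸ (ZMod.natCast_eq_zero_iff _ _).2 d))
      ((ZMod.natCast_eq_natCast_iff _ _ _).1 (by rw [c2, Nat.cast_one]))
    rwa [ZMod.natCast_zmod_val] at this

/-- **the conductor is exactly divisible by `p`** -/
theorem val2 {ψ : DirichletCharacter L (p * f)} {e : AddChar (ZMod (p * f)) L}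
    (hψ : ψ.IsPrimitive) (he : e.IsPrimitive) {j : ℕ} (j0 : 0 < j) (hj : j < p - 1)
    (hv : ∀ a : ℕ, ¬ p ∣ a → a ≡ 1 [MOD f] → V (ψ a * a ^ j - 1) ≤ V p) {ζ : L}
    (h : IsPrimitiveRoot ζ p) : V (gaussSum ψ e) = V (ζ - 1) ^ j := by
  have hp : p.Prime := Fact.out
  obtain ⟨t, t1, a⟩ := fac V h1 hf he hj hv h
  obtain ⟨t', t1', b⟩ := fac V h1 hf (ψ := ψ⁻¹) (e := e⁻¹) (j := p - 1 - j)
    (fun x n => by
      rw [AddChar.inv_mulShift, AddChar.mulShift_mulShift]
      exact he (by simpa using n)) (by omega) (fun a n m => by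
      have u : IsUnit (a : ZMod (p * f)) := (ZMod.isUnit_iff_coprime _ _).2
        (Nat.Coprime.mul_right ((hp.coprime_iff_not_dvd.2 n).symm)
          (by rw [Nat.Coprime, m.gcd_eq]; simp))
      have i : ψ⁻¹ a * ψ a = 1 := by rw [← MulChar.mul_apply, inv_mul_cancel, MulChar.one_apply u]
      have t := v_cast V (p := p) (a := a ^ (p - 1) - 1) (by
        push_cast
        rw [ZMod.pow_card_sub_one_eq_one (mt (ZMod.natCast_eq_zero_iff _ _).1 n), sub_self])
      push_cast at t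
      have a1 : V (a : L) = 1 := v_cop V h1 (hp.coprime_iff_not_dvd.2 n).symm
      have := V.map_sub_le (g := V p) (x := ψ⁻¹ a * (a ^ (p - 1) - 1))
        (y := ψ⁻¹ a * (ψ a * a ^ j - 1))
        (by rw [V.map_mul]; exact (mul_le_of_le_one_left' (psi_le V _ _)).trans t)
        (by rw [V.map_mul]; exact (mul_le_of_le_one_left' (psi_le V _ _)).trans (hv a n m))
      rwa [show ψ⁻¹ a * (a ^ (p - 1) - 1) - ψ⁻¹ a * (ψ a * a ^ j - 1) =
        (a : L) ^ j * (ψ⁻¹ a * a ^ (p - 1 - j) - 1) by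
          rw [mul_sub (a ^ j : L), mul_left_comm, ← pow_add, show j + (p - 1 - j) = p - 1 by omega]
          linear_combination (-(a : L) ^ j) * i,
        V.map_mul, V.map_pow, a1, one_pow, one_mul] at this) h
  have c := congrArg V (gs_mul hψ he)
  rw [V.map_mul, a, b, Nat.cast_mul, V.map_mul, v_cop V h1 hf.symm, v_p V hp h, mul_mul_mul_comm,
    ← pow_add, show j + (p - 1 - j) = p - 1 by omega,
    mul_right_inj' (pow_ne_zero _ (pi_ne V hp h))] at c
  rw [a, one_of t1 t1' c, mul_one]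

/-- a congruence modulo the prime is enough -/
theorem weak (ψ : DirichletCharacter L (p * f)) {j a : ℕ} (n : ¬ p ∣ a) (m : a ≡ 1 [MOD f])
    (hv : V (ψ a * a ^ j - 1) < 1) : V (ψ a * a ^ j - 1) ≤ V p := by
  have c : ((a ^ (p - 1) : ℕ) : ZMod p) = (1 : ℕ) := by
    rw [Nat.cast_pow, ZMod.pow_card_sub_one_eq_one (mt (ZMod.natCast_eq_zero_iff _ _).1 n),
      Nat.cast_one]
  have d : ((a ^ (p - 1) : ℕ) : ZMod (p * f)) = (1 : ℕ) :=
    (ZMod.natCast_eq_natCast_iff _ _ _).2 ((Nat.modEq_and_modEq_iff_modEq_mul hf).1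
      ⟨(ZMod.natCast_eq_natCast_iff _ _ _).1 c, by simpa using m.pow (p - 1)⟩)
  have t := v_cong V (p := p) (a := (a ^ (p - 1)) ^ j) (b := 1) (by rw [Nat.cast_pow, c]; simp)
  rw [tei V Fact.out h1 hv, mul_pow, ← map_pow, ← Nat.cast_pow, d, Nat.cast_one, map_one, one_mul,
    pow_right_comm]
  simpa using t

theorem val3 {ψ : DirichletCharacter L (p * f)} {e : AddChar (ZMod (p * f)) L}
    (hψ : ψ.IsPrimitive) (he : e.IsPrimitive) {j : ℕ} (j0 : 0 < j) (hj : j < p - 1)
    (hv : ∀ a : ℕ, ¬ p ∣ a → a ≡ 1 [MOD f] → V (ψ a * a ^ j - 1) < 1) {ζ : L}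
    (h : IsPrimitiveRoot ζ p) : V (gaussSum ψ e) = V (ζ - 1) ^ j :=
  val2 V h1 hf hψ he j0 hj (fun a n m => weak V h1 hf ψ n m (hv a n m)) h

end two

/-- the Gauss sum of a root of unity -/
theorem gs_root {f : ℕ} [NeZero f] {ζ : L} (h : IsPrimitiveRoot ζ f) :
    ∃ e : AddChar (ZMod f) L, e.IsPrimitive ∧ (∀ x, e x = ζ ^ x.val) ∧
      ∀ ψ : DirichletCharacter L f, gaussSum ψ e = ∑ x, ψ x * ζ ^ x.val :=
  ⟨AddChar.zmodChar f h.pow_eq_one, AddChar.zmodChar_primitive_of_primitive_root f h,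
    fun _ => rfl, fun _ => rfl⟩

end Vale.Agent.P014Z.Lk.Gs
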