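import Vale.Agent.P014Z.Lk.La1
import Vale.Agent.P014Z.In.Eig

/-! # P014Z, block Lk: uniqueness of the leading term -/

set_option autoImplicit false
set_option linter.all false

open NumberField

noncomputable section

namespace Vale.Agent.P014Z.Lk.La

open Vale.Agent.P022 (Qb GQ)
open Vale.Agent.P022E.GW (Ov)
open Vale.Agent.P022K.G2 (oz zt zt_prim)
open P004K (Ip Zp)

variable {p : ℕ} [Fact p.Prime] {P : Ideal (𝓞 Qb)} {x y z z' : Qb} {i : ℕ}
  {Γ₀ : Type} [LinearOrderedCommGroupWithZero Γ₀] {V : Valuation Qb Γ₀}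

/-- `ζ - 1` is a uniformiser -/
theorem Vp.dis (h : Vp P V) (o : Ov p P) (a : Wf p P y) (e : V (y - 1) < 1) :
    V (y - 1) ≤ V (zt p - 1) := by
  have := (h.ip _).1 (In.Ei.dis o (fun g b c => by rw [map_sub, map_one, a.2 g b c]) ((h.zp _).2 e))
  rwa [map_div₀, V.map_sub_swap 1, div_le_one₀ (V.pos_iff.2 pi_ne)] at this

/-- roots of principal units are principal -/
theorem Vp.root (h : Vp P V) (o : Ov p P) (e : V (y ^ p - 1) < 1) : V (y - 1) < 1 := by
  have v : V y = 1 := (pow_eq_one_iff_of_nonneg zero_le o.1.ne_zero).1 (by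
    rw [← map_pow]; exact eq_one e)
  have l : V (y - 1) ≤ 1 := V.map_sub_le v.le (by simp)
  obtain ⟨r, hr, k⟩ := pow_sub o.1 y l
  have := V.map_sub_lt e (mul_lt (mul_lt (h.lt o) l) hr)
  rw [k, add_sub_cancel_right, map_pow] at this
  exact lt_of_le_of_ne l fun c => by simp [c] at this

/-- powers are invisible -/
theorem Vp.pth (h : Vp P V) (o : Ov p P) (a : Wf p P y) (e : V (y ^ p - 1) < 1) (hi : i < p) :
    Lm V ((zt p - 1) ^ i) (y ^ p) 0 :=
  Lm.pth o.1 pi_ne (h.pi o) (V.map_sub_swap 1 (zt p) ▸ (pi_val o.1 (zt_prim p) (h.lt o)).le)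
    (h.dis o a (h.root o e)) hi

/-- a principal representative has the same leading term -/
theorem Lg.lm (h : Vp P V) (o : Ov p P) (i0 : i ≠ 0) (hi : i < p) (a : Lg p P i x z) (b : Wf p P y)
    (e : V (x / y ^ p - 1) < 1) : Lm V ((zt p - 1) ^ i) (x / y ^ p) z := by
  have x0 := a.ne o i0
  obtain ⟨y', b', c⟩ := (lg_iff h).1 a
  have π0 := pow_ne_zero i (pi_ne (p := p))
  have l := c.lt π0 (h.pi_pow o i0)
  have q : x / y ^ p = x / y' ^ p * (y' * y⁻¹) ^ p := by
    have := b.1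
    have := b'.1
    rw [mul_pow, inv_pow]
    field_simp
  have := c.mul π0 (h.pi_pow o i0) (h.pth o (b'.mul b.inv) (by
    have := V.map_sub_lt e l
    rwa [sub_sub_sub_cancel_right, q, ← mul_sub_one, map_mul, eq_one l, one_mul] at this) hi)
  rwa [← q, add_zero] at this

/-- **uniqueness** -/
theorem Lg.uniq (o : Ov p P) (i0 : i ≠ 0) (hi : i < p) (a : Lg p P i x z) (a' : Lg p P i x z') :
    Zp P (z - z') := by
  obtain ⟨O, h⟩ := ex_vp o
  obtain ⟨y, b, c⟩ := (lg_iff h).1 a'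
  exact (h.zp _).2 ((a.lm h o i0 hi b (c.lt (pow_ne_zero _ pi_ne) (h.pi_pow o i0))).uniq c)

end Vale.Agent.P014Z.Lk.La
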