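import Vale.Agent.P014Z.Lk.St
import Vale.Agent.P014Z.Lk.Shf1
import Vale.Agent.P014Z.Lk.Csg0
import Vale.Agent.P014Z.Qf.Ser
import Vale.Agent.P014Z.Gl.Dat
import Vale.Agent.P014Z.Qf.Valu

/-! # P014Z, block LK: the link with the curve (row LNK) -/

set_option autoImplicit false
set_option linter.all false

noncomputable section

namespace Vale.Agent.P014Z.Lk

open NumberField UpperHalfPlane CongruenceSubgroup Finset PowerSeries
open scoped Classical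
open Vale.Agent.P022 (Qb GQ GK below)
open Vale.Agent.P022.H218.L3 Vale.Agent.P022.H231.L3 Vale.Agent.P022.H236.L3
open Vale.Agent.P022E.GW (Ov Fb)
open Vale.Agent.P022K.G2 (zt zt_pow zt_prim Tv)
open Vale.Agent.P014U P004K
open P027M.M (io)
open P014Y.F (Crv Fld)
open P014Y.Mu (F)
open Gl
open P004F.Qx (Zq Cq dp IM QEXP)
open P004Z.EF (Val)
open P004R (Vn)
open P004R.Sf (Ao Zo)
open Qf (Sr dpl il)

/-- the comparison, uniformly in the holomorphic function -/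
def VU : Prop := ∀ (p N : ℕ) (a : ℕ → ℤ) (S : List ℕ), 0 < N → (∀ l ∈ S, l.Prime) → p ∈ S →
  ∀ u ∈ MF (Gamma0 (N * S.prod ^ 2)), ∀ s, ExM 1 s u → Zq p s → Cq p (dp S.prod a) s →
  ∀ P : ℕ → Ideal (𝓞 Qb), (∀ l ∈ S, (P l).IsPrime ∧ (l : 𝓞 Qb) ∈ P l) →
  ∀ (A : Type) [CommRing A] (κ : A →+* Qb), (∀ x, Ip (P p) (κ x)) → ∀ π D : A, κ π ≠ 0 →
  Zp (P p) (κ π) → π ∣ p → ∀ T L : List ℕ, (∀ l ∈ T, l ∈ S) → p ∈ T → (∀ l ∈ L, l ∈ S) → L.Nodup →
  ∀ α β : ℕ → ℤ, ∃ T₀ : ℕ, ∀ δ, T₀ ≤ δ → Squarefree δ →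
  ∀ (K : Type) [Field K] [NumberField K] (j : K →+* Qb), Iq K → ∀ θ : 𝓞 K,
  θ ^ 2 = -(δ : 𝓞 K) → ∀ I I' Q φ, P004F.Qx.Ch j N I I' S P Q φ →
  ∀ c : ℕ, 0 < c → c.Coprime (N * S.prod) → ∀ (W : A⟦X⟧) (G : ℍ → ℂ) (hG : G ∈ Hol),
  Sr π D W α β a S L → inc G hG ∈ MF (Gamma0 T.prod) →
  ExM 1 (ls 0 (map ((io : Qb →+* ℂ).comp κ) W)) (inc G hG) → ∀ h : GQ → Qb,
  (∀ g ∈ GK j, ∀ σ τ τ', Ex σ g → Hp (JJ j) T.prod (il j P T) c τ → Cj0 σ T.prod τ τ' →
    G τ' = io (h g)) →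
  ∀ g ∈ GK j, Ip (P p) (h g) ∧ ∀ σ τ τ', Ex σ g →
    Hp (JJ j) (N * S.prod ^ 2) (IM j I S P) c τ → Cj0 σ (N * S.prod ^ 2) τ τ' →
    ∀ y : Qb, Val τ' u (io y) → Zp (P p) (κ D * y - dpl α β φ h L g)

namespace Ln

/-- the sum does not depend on the representatives -/
theorem sum_tv {Γ U : Subgroup GQ} {R R' : Finset GQ} (T : Tv Γ U R) (T' : Tv Γ U R')
    {f : GQ → Qb} (h : ∀ g ∈ Γ, ∀ u ∈ U, f (g * u) = f g) : ∑ g ∈ R, f g = ∑ g ∈ R', f g := by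
  choose π h1 h2 using fun g (m : g ∈ R) => T'.ex g (T.mem g m)
  choose π' k1 k2 using fun g (m : g ∈ R') => T.ex g (T'.mem g m)
  refine sum_bij' π π' h1 k1 (fun g m => T.un _ (k1 _ _) g m ?_) (fun g m => T'.un _ (h1 _ _) g m ?_)
    fun g m => ?_
  · simpa [mul_assoc] using mul_mem (k2 _ (h1 g m)) (h2 g m)
  · simpa [mul_assoc] using mul_mem (h2 _ (k1 g m)) (k2 g m)
  · rw [← h _ (T'.mem _ (h1 g m)) _ (h2 g m), mul_inv_cancel_left]

variable [Pp]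

theorem pi_one : algebraMap (𝓞 Qb) Qb (pi + 1) = zt pp := by
  rw [map_add, map_one]
  exact sub_add_cancel _ _

theorem pi_mem {P : Ideal (𝓞 Qb)} (o : Ov pp P) : pi ∈ P := by
  obtain ⟨r, h⟩ := exists_add_pow_prime_eq pp_prime (pi : 𝓞 Qb) 1
  rw [show (pi + 1 : 𝓞 Qb) ^ pp = 1 from RingOfIntegers.ext (by
    rw [RingOfIntegers.coe_eq_algebraMap, map_pow, pi_one]; exact zt_pow), one_pow] at h
  refine o.2.1.mem_of_pow_mem pp ?_
  rw [show (pi : 𝓞 Qb) ^ pp = pp * (-(pi * r)) by linear_combination -h]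
  exact P.mul_mem_right _ (by simpa using o.2.2)

theorem pi_dvd : (pi : 𝓞 Qb) ∣ pp := by
  have h : ∑ i ∈ range pp, (pi + 1 : 𝓞 Qb) ^ i = 0 := RingOfIntegers.ext (by
    simp only [RingOfIntegers.coe_eq_algebraMap, map_sum, map_pow, pi_one]
    exact (zt_prim pp).geom_sum_eq_zero one_lt)
  have := dvd_sum (s := range pp) fun i _ => sub_one_dvd_pow_sub_one (pi + 1 : 𝓞 Qb) i
  rwa [sum_sub_distrib, h, add_sub_cancel_right, zero_sub, dvd_neg, sum_const, card_range,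
    nsmul_one] at this

theorem pi_ne : zt pp - 1 ≠ 0 := sub_ne_zero.2 ((zt_prim pp).ne_one one_lt)

variable {e : Crv} (D : Da e)

/-- the first root -/
def ra (l : ℕ) : ℤ := (D.ψ l)⁻¹.val

/-- the second root -/
def rb (l : ℕ) : ℤ := (D.ψ l * (l : F)⁻¹).val

theorem ser (trc : TRC) {A : Type} [CommRing A] {π : A} (d : π ∣ pp) {W : A⟦X⟧}
    (h : ∀ n, π ∣ coeff n W - (ec D.ψ 1 n).val) :
    Sr π 1 W (fun l => ra D l + rb D l) (fun l => ra D l * rb D l) e.a e.S e.S := by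
  let q := Ideal.Quotient.mk (Ideal.span {π})
  have z x : q x = 0 ↔ π ∣ x := Ideal.Quotient.eq_zero_iff_mem.trans Ideal.mem_span_singleton
  let ι : F →+* A ⧸ Ideal.span {π} :=
    ZMod.castHom (ringChar.dvd ((map_natCast q pp).symm.trans ((z _).2 d))) _
  have v (x : F) : (x.val : A ⧸ Ideal.span {π}) = ι x := by
    rw [← map_natCast ι, ZMod.natCast_zmod_val]
  have c1 : Cm fun n : ℕ => (D.ψ n)⁻¹ := ⟨by simp, fun a b => by rw [Nat.cast_mul, map_mul, mul_inv]⟩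
  have c2 : Cm fun n : ℕ => D.ψ n * (n : F)⁻¹ :=
    ⟨by simp, fun a b => by rw [Nat.cast_mul, Nat.cast_mul, map_mul, mul_inv]; ring⟩
  have ec1 n : ec D.ψ 1 n = cv (fun n : ℕ => (D.ψ n)⁻¹) (fun n : ℕ => D.ψ n * (n : F)⁻¹) n := by
    simp only [ec, cv, pow_one, mul_assoc]
  refine Qf.sr_of q (fun x => (z x).1) (f := fun n => ι (D.ψ n)⁻¹) (g := fun n => ι (D.ψ n * (n : F)⁻¹))
    (fun a b => by rw [← map_mul, ← c1.mul]) (fun a b => by rw [← map_mul, ← c2.mul]) (fun n => ?_)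
    (fun l m => (e.ov l m).1) (fun _ => id) (fun l _ => ?_) (fun l m n => (n m).elim) fun n hn => ?_
  · rw [map_one, one_mul, sub_eq_zero.1 ((map_sub q _ _).symm.trans ((z _).2 (h n))), map_natCast, v,
      ec1, cv_map]
    rfl
  · simp only [ra, rb, Int.cast_add, Int.cast_mul, Int.cast_natCast, v, and_self]
  · have := csg0 c1.nat c2.nat e.rn (π := 0) (M := e.S.prod) (fun l hl k => by
      have o : l ∉ e.S := fun m => k (List.dvd_prod m)
      have l0 : (l : F) ≠ 0 := mt (ZMod.natCast_eq_zero_iff l pp).1 fun d =>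
        o ((Nat.prime_dvd_prime_iff_eq pp_prime hl).1 d ▸ e.pm)
      have p0 : D.ψ l ≠ 0 := (((ZMod.isUnit_iff_coprime _ _).2 (hl.coprime_iff_not_dvd.2 fun d =>
        o (D.dc.sup l hl d))).map D.ψ).ne_zero
      refine ⟨(e.bad l hl o).1, zero_dvd_iff.2 ?_, zero_dvd_iff.2 ?_⟩
      · rw [trc e D l hl o]; field_simp; ring
      · field_simp; ring) n hn
    rw [← map_intCast ι, sub_eq_zero.1 (zero_dvd_iff.1 this), ← cv_nat, map_mul, map_natCast, cv_map]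
    rfl

theorem cs_eq (S : List ℕ) : cs D.ψ S = (S.map fun l : ℕ =>
    (if D.ψ l = 1 then 1 else 0) + if l ≠ pp ∧ D.ψ l = l then 1 else 0).sum := by
  induction S with
  | nil => rfl
  | cons l L ih =>
    rw [List.map_cons, List.sum_cons, ← ih]
    simp only [cs, List.filter_cons, decide_eq_true_eq]
    split_ifs <;> simp <;> omega

theorem one_of {x : F} (h : (pp : ℤ) ∣ (x.val : ℤ) - 1) : x = 1 := by
  have := (ZMod.intCast_zmod_eq_zero_iff_dvd _ pp).2 h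
  rwa [Int.cast_sub, Int.cast_natCast, ZMod.natCast_zmod_val, Int.cast_one, sub_eq_zero] at this

theorem tv (b : Fld e) {c : ℕ} {T : Finset GQ} (h : b.Tv c T) : Tv (GK b.j) (Hc b.j c) T :=
  ⟨h.1, fun g hg => (h.2 g hg).exists.imp fun r k => ⟨k.1, by simpa using inv_mem k.2⟩,
    fun r hr r' hr' k => (h.2 r (h.1 r hr)).unique ⟨hr, by simpa using one_mem _⟩ ⟨hr', k⟩⟩

theorem il_eq (b : Fld e) (M : ℕ) :
    il b.j e.P (M.primeFactorsList ++ M.primeFactorsList) = Fi b M := by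
  rw [il, Fi, List.map_append, List.prod_append, prod_list_map_count, ← prod_mul_distrib,
    Nat.toFinset_factors]
  exact prod_congr rfl fun l _ => by rw [Nat.primeFactorsList_count_eq, two_mul, pow_add]

end Ln

open Ln Sf in
/-- **row LNK** -/
theorem lnk [Pp] (hg1 : HG1) (r1 : RC1) (qexp : QEXP) (trc : TRC) (vu : VU) : LNK := fun e D => by
  have pr : ∀ p ∈ e.S, p.Prime := fun p h => (e.ov p h).1
  have hP : ∀ p ∈ e.S, (e.P p).IsPrime ∧ (p : 𝓞 Qb) ∈ e.P p := fun p hp => (e.ov p hp).2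
  have o := e.ov pp e.pm
  have := o.2.1
  have one := (Ideal.ne_top_iff_one _).1 this.ne_top
  have ip (x : 𝓞 Qb) : Ip (e.P pp) x := ⟨1, x, one, by simp⟩
  have M0 : D.f * pp ≠ 0 := mul_ne_zero (NeZero.ne _) pp_ne
  have sp : ∀ l : ℕ, l.Prime → l ∣ D.f * pp → l ∈ e.S := fun l h d => (h.dvd_mul.1 d).elim
    (D.dc.sup l h) fun d => (Nat.prime_dvd_prime_iff_eq h pp_prime).1 d ▸ e.pm
  have eT : ((D.f * pp).primeFactorsList ++ (D.f * pp).primeFactorsList).prod = (D.f * pp) ^ 2 := by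
    rw [List.prod_append, Nat.prod_primeFactorsList M0, pow_two]
  let π : Ao (e.P pp) := ⟨(pi : 𝓞 Qb), ip pi⟩
  have dv : π ∣ pp := pi_dvd.elim fun x h => ⟨⟨(x : 𝓞 Qb), ip x⟩, Subtype.ext (by
    simpa using congrArg (algebraMap (𝓞 Qb) Qb) h)⟩
  obtain ⟨u, hu, s, us, cq, qx⟩ := qexp _ _ _ _ _ _ _ _ _ _ e.rn e.par e.S e.nd pr
  obtain ⟨T₁, qx⟩ := qx e.P hP
  obtain ⟨T₂, qy⟩ := vu pp e.N e.a e.S e.rn.pos pr e.pm u hu s us (cq pp e.pm).1 (cq pp e.pm).2 e.P hP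
    _ (Ao (e.P pp)).subtype (fun x => x.2) π 1 pi_ne ⟨1, pi, one, pi_mem o, by simp [π]⟩ dv
    ((D.f * pp).primeFactorsList ++ (D.f * pp).primeFactorsList) e.S
    (fun l m => have m := (List.mem_append.1 m).elim id id
      sp l (Nat.prime_of_mem_primeFactorsList m) (Nat.dvd_of_mem_primeFactorsList m))
    (List.mem_append_left _ ((Nat.mem_primeFactorsList M0).2 ⟨pp_prime, dvd_mul_left _ _⟩))
    (fun _ => id) e.nd (fun l => ra D l + rb D l) fun l => ra D l * rb D l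
  refine ⟨T₁ + T₂, fun b big n L Φ l ⟨W, hW, s', w1, w2, w3, w4, w5⟩ hl nv T hT => ?_⟩
  choose z z1 z2 using w4
  have c0 : 0 < L.c := zero_lt_one.trans L.lz.one
  have co : L.c.Coprime (e.N * e.S.prod) := Nat.coprime_of_dvd fun q p d k => by
    have m := mt List.mem_toFinset.2 (L.lz.ly.out q p d).1
    refine (p.dvd_mul.1 k).elim (e.bad q p m).1 fun k => m ?_
    obtain ⟨r, x, y⟩ := (Prime.dvd_prod_iff p.prime).1 k
    rwa [(Nat.prime_dvd_prime_iff_eq p (pr r x)).1 y]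
  have zi k : z k ∈ Ao (e.P pp) := by
    rw [← sub_add_cancel (z k) (ec D.ψ 1 k).val, ← div_mul_cancel₀ (_ - _) pi_ne]
    exact add_mem (mul_mem (z2 k) π.2) (natCast_mem _ _)
  rw [eT] at qy
  have qz := qy _ (by omega) b.adm.sq b.K b.j b.iq b.θ b.th _ _ _ _ b.ch _ c0 co
    (PowerSeries.mk fun k => ⟨z k, zi k⟩) W hW (ser D trc dv fun k => ⟨⟨_, z2 k⟩, Subtype.ext (by
      rw [coeff_mk]; exact (mul_div_cancel₀ _ pi_ne).symm)⟩) w1 (by
      convert w2 using 1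
      refine HahnSeries.ext (funext fun k => ?_)
      rcases lt_or_ge k 0 with h | h
      · rw [coeff_ls_of_lt _ _ h, w3 k h]
      obtain ⟨k, rfl⟩ := Int.eq_ofNat_of_zero_le h
      simpa [z1] using coeff_ls 0 (map ((io : Qb →+* ℂ).comp (Ao (e.P pp)).subtype)
        (PowerSeries.mk fun k => ⟨z k, zi k⟩)) k) Φ
    fun g m σ τ τ' x y t => (w5 g m σ τ τ' x (il_eq b _ ▸ y) t).symm
  have hU : Hc b.j L.c ≤ b.Γ := fun _ m => m.1
  have M2 : 0 < (D.f * pp) ^ 2 := by positivity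
  have fn : Fn b.Γ (Hc b.j L.c) (e.P pp) Φ := fun g m => ⟨(qz g m).1, fun t ht => by
    obtain ⟨⟨τ₀, h0⟩, -, -, fx, -⟩ := hg1 b.K b.j b.iq _ _ _ M2 c0
      ((Dt.cop L.lz sp).pow_right 2) (Dt.sp_fi b M0 sp).cn
    obtain ⟨σ, x⟩ := ex_ex g
    obtain ⟨s, y⟩ := ex_ex t
    obtain ⟨τ', q⟩ := (cj0 σ _ M2).1 τ₀
    exact io_inj ((w5 _ (mul_mem m ht.1) (σ * s) τ₀ τ' (x.mul y) h0
      (((fx τ₀ s t ht.1 h0 y).1 ht).trans q)).trans (w5 g m σ τ₀ τ' x h0 q).symm)⟩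
  have R0 : 0 < e.N * e.S.prod ^ 2 :=
    mul_pos e.rn.pos (pow_pos (List.prod_pos fun p h => (pr p h).pos) 2)
  obtain ⟨τ, hτ⟩ := (hg1 b.K b.j b.iq _ _ _ R0 c0 (co.coprime_mul_right_right.mul_right
    (co.coprime_mul_left_right.pow_right 2)) (P004R.Qf.sp_sq pr b.ch.spl (fun _ => id)
      e.rn.pos b.ch.lev b.ch.cop).cn).1
  have un q (m : q ∈ e.S) : IsUnit (L.χ (b.φ q)) := by
    rw [← ZMod.natCast_zmod_val (L.χ _), ZMod.isUnit_iff_coprime]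
    exact (pp_prime.coprime_iff_not_dvd.2 ((L.lz.ly.fro q (List.mem_toFinset.2 m) _ (e.ov q m)).2 _
      (b.ch.frb q m))).symm.pow_right _
  by_contra k
  rw [cs_eq] at hl k
  have v := shfz rfl o (tv b hT) hU (r1 _ b.j b.iq _ c0).2.2.2.1 L.lz.add L.lz.ker fn
    (α := fun l => ra D l + rb D l) (β := fun l => ra D l * rb D l) (a := ra D) (b := rb D)
    (fun q m => ⟨b.ch.mem q m, by simp, by simp,
      fun d => ⟨by rw [if_pos (inv_eq_one.1 (one_of d))]; exact one_pos, un q m⟩, fun d => ⟨by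
        have y := one_of d
        have q0 : (q : F) ≠ 0 := fun c => by simp [c] at y
        rw [if_pos ⟨fun c => q0 (by simp [c]), (mul_inv_eq_one₀ q0).1 y⟩]
        exact one_pos, un q m⟩⟩) hl
    (vn_congr (fun g m => by
      obtain ⟨σ, x⟩ := ex_ex g
      obtain ⟨τ', y⟩ := (cj0 σ _ R0).1 τ
      have := zp_mul (neg_mem (one_mem (Ao (e.P pp)))) ((qz g (hT.1 g m)).2 σ τ τ' x hτ y _
        ((qx _ (by omega) b.adm.sq b.K b.j b.iq b.θ b.th _ _ _ _ b.ch _ c0 co _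
          (b.hg _ c0 co.coprime_mul_right_right) g (hT.1 g m) 2 e.two).2 σ τ τ' x hτ y))
      rwa [map_one, one_mul, neg_one_mul, neg_sub] at this)
      fun i hi => by_contra fun w => k ⟨i, by omega, w⟩)
  exact nv fun i hi => by
    rw [sum_tv L.tv (tv b hT) fun g m t ht => by
      rw [L.lz.add g m t ht.1, L.lz.ker t ht, add_zero, (fn g m).2 t ht]]
    exact v i hi

theorem vu_of (mpc : P004F.Qx.MPC) (vex : P004F.Qx.VEX) (hg1 : HG1) (rc2 : RC2) (tr0 : TR0) :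
    VU :=
  fun _ _ _ _ hN hp pS _ hu _ hs hz hc _ hP _ _ κ hκ _ _ p0 p1 hπ _ _ hT _ hL nd α β =>
    Qf.valu mpc vex hg1 rc2 tr0 hN hp pS hu hs hz hc hP κ hκ p0 p1 hπ hT hL nd α β

end Vale.Agent.P014Z.Lk
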