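import Vale.Agent.P004R.Shf

/-!
# P014Z: the cost of a depletion with arbitrary coefficients, at any prime
-/

set_option autoImplicit false
set_option linter.all false

open NumberField Polynomial

noncomputable section

namespace Vale.Agent.P014Z.Lk

open Vale.Agent.P022 P004K
open Vale.Agent.P022E.GW (Ov)
open Vale.Agent.P022K.G2 (Tv)
open P004R (Vn)
open P004R.Sf (val_add conj sum_tr Th Ao Zo lf lf_coe vn_iff rs)

/-- depletion: `(1 - α V) (1 - β V)` -/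
def dpq (φ : ℕ → GQ) (α β : ℕ → Qb) (h : GQ → Qb) : List ℕ → GQ → Qb
  | [] => h
  | l :: L => fun g => dpq φ α β h L g - (α l + β l) * dpq φ α β h L (g * φ l) +
      α l * β l * dpq φ α β h L (g * φ l ^ 2)

/-- the factor `1 - a V` costs at most `r` -/
def Ct (P : Ideal (𝓞 Qb)) {N : ℕ} (e : GQ → ZMod N) (a : Qb) (ψ : GQ) (r : ℕ) : Prop :=
  P004K.Ip P a ∧ (¬ Zp P (a - 1) ∨ 0 < r ∧ IsUnit (e ψ))

namespace Sf

variable {k : Type} [CommRing k] {Γ U : Subgroup GQ} {R : Finset GQ} {p m N : ℕ}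

theorem exp2 (y : k) (n : ℕ) : ∃ v, (1 + y) ^ n = 1 + y * (n + y * v) := by
  induction n with
  | zero => exact ⟨0, by simp⟩
  | succ n ih =>
    obtain ⟨v, h⟩ := ih
    exact ⟨n + v + y * v, by rw [pow_succ, h]; push_cast; ring⟩

theorem cancel {l r : ℕ} {w v f : k[X]} (u : IsUnit w) (h : X ^ (l + r) ∣ X ^ r * (w + X * v) * f) :
    X ^ l ∣ f := by
  rw [pow_add, mul_comm, mul_assoc] at h
  obtain ⟨c, hc⟩ := h
  obtain ⟨w', u⟩ := u.exists_left_inv
  rw [mul_assoc] at hc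
  exact IsCoprime.dvd_of_dvd_mul_left (IsCoprime.pow_left ⟨-(v * w'), w', by linear_combination u⟩)
    ⟨c, (monic_X_pow r).isRegular.left hc⟩

theorem step (hp : p.Prime) (h3 : (p : k) = 0) (hN : N = p ^ m) {e : GQ → ZMod N} (T : Tv Γ U R)
    (hU : U ≤ Γ) (hc : ∀ g ∈ Γ, ∀ g' ∈ Γ, g * g' * g⁻¹ * g'⁻¹ ∈ U)
    (ha : ∀ g ∈ Γ, ∀ g' ∈ Γ, e (g * g') = e g + e g') (h0 : ∀ g ∈ U, e g = 0)
    {l r : ℕ} {f : GQ → k} (hf : ∀ g ∈ Γ, ∀ u ∈ U, f (g * u) = f g) {ψ : GQ} (hψ : ψ ∈ Γ)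
    {a : k} {w v : k[X]} (u : IsUnit w) (hv : (1 + X) ^ (e ψ).val - C a = X ^ r * (w + X * v))
    (hl : l + r ≤ N) (h : X ^ (l + r) ∣ Th R e fun g => f g - a * f (g * ψ)) :
    X ^ l ∣ Th R e f := by
  have : NeZero N := ⟨hN ▸ pow_ne_zero _ hp.ne_zero⟩
  have p3 : (p : k[X]) = 0 := by rw [← map_natCast C, h3, map_zero]
  refine cancel (r := r) (v := v) u ?_
  rw [← hv, ← Ideal.mem_span_singleton, ← Ideal.Quotient.eq_zero_iff_mem]
  rw [← Ideal.mem_span_singleton, ← Ideal.Quotient.eq_zero_iff_mem] at h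
  set q := Ideal.Quotient.mk (Ideal.span {(X : k[X]) ^ (l + r)})
  have z : q (1 + X) ^ N = 1 := by
    obtain ⟨s, hs⟩ := exists_add_pow_prime_pow_eq hp (1 : k[X]) X m
    rw [← map_pow, hN, hs, p3, one_pow, zero_mul, zero_mul, zero_mul, add_zero, map_add, map_one,
      ← hN, Ideal.Quotient.eq_zero_iff_mem.2 (Ideal.mem_span_singleton.2 (pow_dvd_pow _ hl)),
      add_zero]
  have s := sum_tr (F := fun g => q (1 + X) ^ (e g).val * q (C (f g))) T hU hc
    (fun g hg u hu => by rw [ha g hg u (hU hu), h0 u hu, add_zero, hf g hg u hu]) hψ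
  have s' : q (1 + X) ^ (e ψ).val * q (Th R e fun g => f (g * ψ)) = q (Th R e f) := by
    simp only [Th, map_sum, map_mul, map_pow, Finset.mul_sum]
    refine (Finset.sum_congr rfl fun g hg => ?_).trans s
    rw [ha g (T.mem g hg) _ hψ, val_add z]
    ring
  rw [show (Th R e fun g => f g - a * f (g * ψ)) = Th R e f - C a * Th R e fun g => f (g * ψ) by
    simp only [Th, Finset.mul_sum, ← Finset.sum_sub_distrib, map_sub, map_mul]
    exact Finset.sum_congr rfl fun g _ => by ring, map_sub, map_mul] at h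
  rw [map_mul, map_sub, map_pow]
  linear_combination q (1 + X) ^ (e ψ).val * h + q (C a) * s'

variable {P : Ideal (𝓞 Qb)} [hP : P.IsPrime] {a b : Qb}

theorem rs_mk (x : Ao P) : rs P x = Ideal.Quotient.mk _ x :=
  congrArg _ (Subtype.ext (lf_coe x.2))

theorem rs_unit (x : Ao P) (n : ¬ Zp P x) : IsUnit (Ideal.Quotient.mk (Zo P) x) := by
  obtain ⟨s, t, h, e⟩ := x.2
  have t1 : t ∉ P := fun m => n ⟨s, t, h, m, e⟩
  have x0 : (x : Qb) ≠ 0 := fun c => t1 (by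
    rw [c, mul_zero] at e
    rw [show t = 0 from RingOfIntegers.ext e.symm]
    exact P.zero_mem)
  exact (IsUnit.of_mul_eq_one (⟨(x : Qb)⁻¹, t, s, t1, by rw [← e, mul_inv_cancel_right₀ x0]⟩ : Ao P)
    (Subtype.ext (mul_inv_cancel₀ x0))).map _

end Sf

open Sf

variable {Γ U : Subgroup GQ} {R : Finset GQ} {p m N : ℕ} (hN : N = p ^ m) {e : GQ → ZMod N}
  {P : Ideal (𝓞 Qb)} (o : Ov p P) (T : Tv Γ U R) (hU : U ≤ Γ)
  (hc : ∀ g ∈ Γ, ∀ g' ∈ Γ, g * g' * g⁻¹ * g'⁻¹ ∈ U)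

/-- integral functions on the quotient -/
def Fn (Γ U : Subgroup GQ) (P : Ideal (𝓞 Qb)) (h : GQ → Qb) : Prop :=
  ∀ g ∈ Γ, P004K.Ip P (h g) ∧ ∀ u ∈ U, h (g * u) = h g

include o hU hc in
theorem Fn.one {h : GQ → Qb} (hh : Fn Γ U P h) {ψ : GQ} (hψ : ψ ∈ Γ) {a : Qb} (i : P004K.Ip P a) :
    Fn Γ U P fun g => h g - a * h (g * ψ) := fun g hg => by
  have := o.2.1
  refine ⟨(Ao P).sub_mem (hh g hg).1 ((Ao P).mul_mem i (hh _ (mul_mem hg hψ)).1), fun u hu => ?_⟩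
  beta_reduce
  rw [(hh g hg).2 u hu, ← (hh _ (mul_mem hg hψ)).2 _ (conj hU hc (inv_mem hψ) hu)]
  simp only [mul_assoc, mul_inv_cancel_left, inv_inv]

theorem dpq_cons (φ : ℕ → GQ) (α β : ℕ → Qb) (h : GQ → Qb) (l : ℕ) (L : List ℕ) :
    dpq φ α β h (l :: L) = fun g => (dpq φ α β h L g - α l * dpq φ α β h L (g * φ l)) -
      β l * (dpq φ α β h L (g * φ l) - α l * dpq φ α β h L (g * φ l * φ l)) := funext fun g => by
  simp only [dpq, pow_two, ← mul_assoc]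
  ring

include o hU hc in
theorem Fn.dpq {h : GQ → Qb} (hh : Fn Γ U P h) {φ : ℕ → GQ} {α β : ℕ → Qb} {L : List ℕ}
    (hL : ∀ l ∈ L, φ l ∈ Γ ∧ P004K.Ip P (α l) ∧ P004K.Ip P (β l)) : Fn Γ U P (dpq φ α β h L) := by
  induction L with
  | nil => exact hh
  | cons l L ih =>
    obtain ⟨a, b, c⟩ := hL l List.mem_cons_self
    rw [dpq_cons]
    exact ((ih fun q m => hL q (List.mem_cons_of_mem _ m)).one o hU hc a b).one o hU hc a c

variable (ha : ∀ g ∈ Γ, ∀ g' ∈ Γ, e (g * g') = e g + e g') (h0 : ∀ g ∈ U, e g = 0)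

include hN o T hU hc ha h0

/-- **one factor** -/
theorem shf1 {h : GQ → Qb} (hh : Fn Γ U P h) {ψ : GQ} (hψ : ψ ∈ Γ) {a : Qb} {r l : ℕ}
    (ct : Ct P e a ψ r) (hl : l + r ≤ N) (H : Vn P R e (fun g => h g - a * h (g * ψ)) (l + r)) :
    Vn P R e h l := by
  have := o.2.1
  have h3 : (p : Ao P ⧸ Zo P) = 0 := by
    rw [← map_natCast (Ideal.Quotient.mk (Zo P)), Ideal.Quotient.eq_zero_iff_mem]
    exact ⟨1, p, (Ideal.ne_top_iff_one P).1 this.ne_top, by simpa using o.2.2, by simp⟩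
  have k (s) (sr : s ≤ r) : X ^ (l + s) ∣ Th R e fun g => rs P (h g) - rs P a * rs P (h (g * ψ)) := by
    refine (pow_dvd_pow _ (Nat.add_le_add_left sr l)).trans ?_
    convert (vn_iff fun g hg => (hh.one o hU hc hψ ct.1 g (T.mem g hg)).1).1 H using 1
    refine Finset.sum_congr rfl fun g hg => congrArg (_ * C ·) ?_
    have m := T.mem g hg
    unfold P004R.Sf.rs
    beta_reduce
    rw [← map_mul, ← map_sub]
    exact congrArg _ (Subtype.ext (by
      rw [lf_coe (hh.one o hU hc hψ ct.1 g m).1]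
      push_cast
      rw [lf_coe (hh g m).1, lf_coe (hh _ (mul_mem m hψ)).1, lf_coe ct.1]))
  obtain ⟨v, hv⟩ := exp2 (X : (Ao P ⧸ Zo P)[X]) (e ψ).val
  have a1 : rs P a - 1 = Ideal.Quotient.mk (Zo P) (⟨a, ct.1⟩ - 1) := by
    rw [map_sub, map_one, ← rs_mk]
  refine (vn_iff fun g hg => (hh g (T.mem g hg)).1).2 ?_
  have st := fun r w v => step (r := r) (l := l) (a := rs P a) (w := w) (v := v) o.1 h3 hN T hU hc
    ha h0 (f := fun g => rs P (h g)) (fun g hg u hu => by rw [(hh g hg).2 u hu]) hψ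
  by_cases z : Zp P (a - 1)
  · obtain ⟨r0, u⟩ := ct.2.resolve_left (not_not.2 z)
    have : NeZero N := ⟨hN ▸ pow_ne_zero _ o.1.ne_zero⟩
    have e1 : rs P a = 1 := sub_eq_zero.1 (a1.trans (Ideal.Quotient.eq_zero_iff_mem.2 z))
    rcases Nat.eq_zero_or_pos m with m0 | m0
    · rw [show l = 0 by rw [hN, m0, pow_zero] at hl; omega, pow_zero]
      exact one_dvd _
    have c : IsCoprime (((e ψ).val : ℤ)) p := Nat.isCoprime_iff_coprime.2
      (((ZMod.isUnit_iff_coprime _ _).1 (by rwa [ZMod.natCast_zmod_val])).coprime_dvd_right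
        (hN ▸ dvd_pow_self p m0.ne'))
    obtain ⟨s, t, c⟩ := c
    have c := congrArg (Int.cast : ℤ → (Ao P ⧸ Zo P)[X]) c
    push_cast at c
    refine st 1 (e ψ).val v (IsUnit.of_mul_eq_one_right s ?_)
      (by rw [hv, e1, map_one]; ring) (by omega) (k 1 r0)
    rwa [← map_natCast C p, h3, map_zero, mul_zero, add_zero] at c
  · exact st 0 (-C (rs P a - 1)) (((e ψ).val : (Ao P ⧸ Zo P)[X]) + X * v)
      ((a1 ▸ rs_unit _ z).map C).neg (by rw [hv, map_sub, map_one]; ring) (by omega) (k 0 r.zero_le)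

/-- **the cost of the depletion** -/
theorem shfq {h : GQ → Qb} (hh : Fn Γ U P h) {φ : ℕ → GQ} {α β : ℕ → Qb} {r s : ℕ → ℕ} {L : List ℕ}
    (hL : ∀ q ∈ L, φ q ∈ Γ ∧ Ct P e (α q) (φ q) (r q) ∧ Ct P e (β q) (φ q) (s q)) {l : ℕ}
    (hl : l + (L.map fun q => r q + s q).sum ≤ N)
    (H : Vn P R e (dpq φ α β h L) (l + (L.map fun q => r q + s q).sum)) : Vn P R e h l := by
  induction L with
  | nil => exact H
  | cons q L ih =>
    have k := fun q m => hL q (List.mem_cons_of_mem _ m)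
    have i := hh.dpq o hU hc fun q m => ⟨(k q m).1, (k q m).2.1.1, (k q m).2.2.1⟩
    obtain ⟨a, b, c⟩ := hL q List.mem_cons_self
    rw [List.map_cons, List.sum_cons, add_comm (r q + s q), ← add_assoc, ← add_assoc] at hl H
    rw [dpq_cons] at H
    exact ih k (by omega) (shf1 hN o T hU hc ha h0 i a b (by omega)
      (shf1 hN o T hU hc ha h0 (i.one o hU hc a b.1) a c hl H))

end Vale.Agent.P014Z.Lk
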