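import Vale.Agent.P014Z.St
import Vale.Agent.P014Z.Lk.Cyc
import Vale.Agent.P014Z.Qf.Val

/-! # P014Z, block LK: the leading terms of the unit, the link with the curve (words and rows) -/

set_option autoImplicit false
set_option linter.all false

noncomputable section

namespace Vale.Agent.P014Z.Lk

open NumberField UpperHalfPlane CongruenceSubgroup Finset PowerSeries
open scoped Classical
open Vale.Agent.P022 (Qb GQ GK below)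
open Vale.Agent.P022.H218.L3 Vale.Agent.P022.H236.L3
open Vale.Agent.P027M.S (Inert)
open Vale.Agent.P022E.GW (Ov Fb)
open Vale.Agent.P022K.G2 (oz zt zt_pow Tv)
open Vale.Agent.P014U P004K
open P027M.M (io)
open P014Y.F (Crv Fld)
open P014Y.Mu (F)
open Gl
open Cy (zq zq_prim cy Vl)
open Su (us)
open Qf (ic Sr)

variable [Pp]

/-- `π = ζ_p - 1` -/
def pi : 𝓞 Qb := ⟨zt pp, IsIntegral.of_pow pp_prime.pos (by rw [zt_pow]; exact isIntegral_one)⟩ - 1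

theorem pi_coe : ((pi : 𝓞 Qb) : Qb) = zt pp - 1 := rfl

/-- `ζ_f` -/
def zi (f : ℕ) [NeZero f] : 𝓞 Qb :=
  ⟨zq f, IsIntegral.of_pow (NeZero.pos f) (by rw [(zq_prim f).pow_eq_one]; exact isIntegral_one)⟩

section

variable {f : ℕ} (ψ : DirichletCharacter F f) (a : ℕ)

/-- the exponents -/
def nx (t : ZMod f) : ℕ := ((ψ t)⁻¹ ^ a).val

/-- a holomorphic function with the expansion `D ∑ ec q ^ n` modulo `π` -/
def Ef (D : 𝓞 Qb) (W : ℍ → ℂ) : Prop := ∃ (h : W ∈ Hol) (s : (𝓞 Qb)⟦X⟧),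
  inc W h ∈ MF (Gamma0 ((f * pp) ^ 2)) ∧ ExM 1 (ls 0 (map (ic (RingHom.id _)) s)) (inc W h) ∧
    ∀ k, pi ∣ coeff k s - D * ((ec ψ a k).val : 𝓞 Qb)

end

variable {e : Crv} {D : Da e} {b : Fld e} {n : ℕ} (L : Lt D b n)

/-- the values of the units at the conjugates of the Heegner point -/
structure Uf (U : ZMod D.f → GQ → Qb) : Prop where
  vl : ∀ t, Vl b.j ((D.f * pp) ^ 2) (Fi b (D.f * pp)) L.c (us D.f L.c₀ L.m t) (U t)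
  ne : ∀ t, ∀ g ∈ b.Γ, U t g ≠ 0
  gal : ∀ t, ∀ g ∈ b.Γ, ∀ g' ∈ b.Γ, g' (U t g) = U (cy D.f g' * t) (g' * g)
  inv : ∀ t, ∀ g ∈ b.Γ, ∀ h ∈ Hc b.j L.c, U t (g * h) = U t g
  sft : ¬ pp ∣ D.f → ∀ t, ∀ g ∈ b.Γ, ∀ σ τ τ' (τ'' : ℍ), Ex σ g →
    Hp (JJ b.j) ((D.f * pp) ^ 2) (Fi b (D.f * pp)) L.c τ → Cj0 σ ((D.f * pp) ^ 2) τ τ' →
    (τ'' : ℂ) = pp * τ' → us D.f L.c₀ L.m (pp * t) τ'' = io (b.φ pp (U t g))
  prd : ∀ a m : ℕ, (L.γ ^ m) (L.X a) =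
    ∏ g ∈ L.R with L.χ g = m, ∏ t : (ZMod D.f)ˣ, U t g ^ nx D.ψ a t

/-! ### rows -/

/-- **the Gauss sum** with integral coefficients -/
def GSZ : Prop := ∀ (e : Crv) (D : Da e) a, a.Coprime (orderOf D.η) → ∃ G : 𝓞 Qb, G ∉ e.P pp ∧
  ∑ t : ZMod D.f, (nx D.ψ a t : 𝓞 Qb) * zi D.f ^ t.val =
    pi ^ (if pp ∣ D.f then lv D.k a else 0) * G ∧ (pp ∣ D.f → 2 ≤ lv D.k a ∧ lv D.k a + 3 ≤ pp) ∧
  (¬ pp ∣ D.f → lv D.k a = pp - 1)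

/-- **the function**, `p` prime to `f` -/
def FN0 : Prop := ∀ (e : Crv) (D : Da e) a c c₀ m, a.Coprime (orderOf D.η) → Sm D.f D.ψ c c₀ m →
  ¬ pp ∣ D.f → ∃ G ∉ e.P pp, ∃ W, Ef D.ψ a G W ∧ ∀ τ τ' : ℍ, (τ' : ℂ) = pp * τ →
    (∏ t : (ZMod D.f)ˣ, us D.f c₀ m t τ ^ nx D.ψ a t) ^ pp =
      (∏ t : (ZMod D.f)ˣ, us D.f c₀ m (pp * t) τ' ^ nx D.ψ a t) * (1 + pp * W τ)

/-- **the function**, `p` divides `f` -/
def FN1 : Prop := ∀ (e : Crv) (D : Da e) a c c₀ m, a.Coprime (orderOf D.η) → Sm D.f D.ψ c c₀ m →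
  pp ∣ D.f → ∃ G ∉ e.P pp, ∃ W, Ef D.ψ a G W ∧ ∃ k : (ZMod D.f)ˣ → ℤ, ∀ τ : ℍ,
    ∏ t : (ZMod D.f)ˣ, us D.f c₀ m t τ ^ nx D.ψ a t =
      (∏ t : (ZMod D.f)ˣ, us D.f c₀ m t τ ^ k t) ^ pp * (1 + io (zt pp - 1) ^ lv D.k a * W τ)

/-- the values of the units -/
def PRD : Prop := ∀ (e : Crv) (D : Da e) (b : Fld e) n (L : Lt D b n), ∃ U, Uf L U

/-- the component of the unit lies in the eigenspace -/
def WVX : Prop := ∀ (e : Crv) (D : Da e) (b : Fld e) n (L : Lt D b n) a,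
  a.Coprime (orderOf D.η) → Wv b D.η L.χ L.U a (L.X a)

/-- **the maximum principle** at the conjugates of the Heegner point -/
def HOL : Prop := ∀ (e : Crv) (b : Fld e) (M c : ℕ), 0 < M → pp ∣ M →
  (∀ l : ℕ, l.Prime → l ∣ M → l ∈ e.S) → ¬ pp ∣ c → ∀ (W : ℍ → ℂ) (h : W ∈ Hol) s,
  inc W h ∈ MF (Gamma0 (M ^ 2)) → ExM 1 s (inc W h) →
  (∀ n, ∃ z : Qb, s.coeff n = io z ∧ Ip (e.P pp) z) → ∀ g ∈ b.Γ, ∀ σ τ τ', Ex σ g →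
  Hp (JJ b.j) (M ^ 2) (Fi b M) c τ → Cj0 σ (M ^ 2) τ τ' → ∀ y : Qb, W τ' = io y → Ip (e.P pp) y

/-- the congruence at the primes -/
def TRC : Prop := ∀ (e : Crv) (D : Da e) (l : ℕ), l.Prime → l ∉ e.S →
  (e.a l : F) = D.ψ l + l * (D.ψ l)⁻¹

/-- the hypotheses on the series -/
def SER : Prop := ∀ (e : Crv) (D : Da e) (G : 𝓞 Qb) (s : (𝓞 Qb)⟦X⟧),
  (∀ k, pi ∣ coeff k s - G * ((ec D.ψ 1 k).val : 𝓞 Qb)) →
  Sr pi G s (fun l => ((D.ψ l)⁻¹.val : ℤ) + (D.ψ l * (l : F)⁻¹).val)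
    (fun l => ((D.ψ l)⁻¹.val : ℤ) * (D.ψ l * (l : F)⁻¹).val) e.a e.S e.S

end Vale.Agent.P014Z.Lk
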